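import Vale.Agent.P078.Twist.RepPot

/-!
Homogeneity of twisted windows: a window seen from `c` reads the weight times the potential of
each of its inner points.
-/

namespace Vale.Agent.P078.Twist

open MKS MKS.Op Singular
open scoped Classical

/-- The module Homog. -/
theorem homog_ok : HomogStatement := by
  intro H _ _ _ M A e φ hM he hφ D hD p r hp S hS c n
  set U := D.ball c n
  intro u hball
  have hcu : D.Reaches n c u := (mem_ball D).1 u.2
  have hR := frame_ball hM he D c n
  have hR' := frame_ball hM he D (u : Pt A) p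
  obtain ⟨hRu, hum, hue⟩ := hR u u.2
  have hmem : (u : Pt A) ∈ D.ball u p := (mem_ball D).2 (reaches_self hM he D hue p)
  have hsub : D.ball (u : Pt A) p ⊆ U := fun ζ hζ => hball ζ ((mem_ball D).1 hζ)
  let ι : D.ball (u : Pt A) p → U := fun v => ⟨v, hsub v.2⟩
  have hι : Function.Injective ι := fun a b hab => Subtype.ext (Subtype.ext_iff.1 hab : _)
  have hloc := (moment_ok U r (tmat φ (rt p) D c U (rep M c) S) (Op.wt S U) (isProb_wt hS U)).2.2.1
    (D.ball (u : Pt A) p) ι hι ⟨u, hmem⟩ p fun v hv => ⟨⟨v, (mem_ball D).2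
      (reach_le_reaches hM he D hR u p v (Moments.reach_of_le _ _ u (fun a b hab h0 => hab (by
        rw [tmat_apply]
        show _ * (1 * (((S a).2 : ℂ) * coef D.a D.g c (rep M c) a b * ((S b).2 : ℂ))) * _ = 0
        rw [show coef D.a D.g c (rep M c) a b = 0 from h0]
        simp)) p hv))⟩, rfl⟩
  obtain ⟨lam, hlam, hcoef⟩ := coef_gauge hM (a := D.a) D.g_mem hR hR' hsub hRu hum
  have hw0 : 0 ≤ wgt M A e φ c u := wgt_nonneg hM he hφ hD hcu
  set k : ℂ := ((rt p (wgt M A e φ c u) ^ 2 : ℝ) : ℂ) with hk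
  set T : Matrix (D.ball (u : Pt A) p) (D.ball (u : Pt A) p) ℂ := Matrix.of fun a b =>
    (rt p (wgt M A e φ u a) : ℂ) *
      (1 * (((S a).2 : ℂ) * coef D.a D.g c (rep M c) a b * ((S b).2 : ℂ))) *
        (rt p (wgt M A e φ u b) : ℂ) with hT
  have hrt : ∀ v : D.ball (u : Pt A) p, rt p (wgt M A e φ c v) =
      rt p (wgt M A e φ c u) * rt p (wgt M A e φ u v) := fun v => by
    rw [wgt_mul hM he hφ hD hcu ((mem_ball D).1 v.2), rt,
      Real.mul_rpow hw0 (wgt_nonneg hM he hφ hD ((mem_ball D).1 v.2)), rt, rt]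
  have hsubm : (tmat φ (rt p) D c U (rep M c) S).submatrix ι ι = T.map fun z => k * z := by
    ext a b
    simp only [Matrix.submatrix_apply, tmat_apply, wsc, Matrix.map_apply, hT, Matrix.of_apply, ι,
      hrt a, hrt b, hk]
    push_cast
    ring
  have hgauge : tmat φ (rt p) D u (D.ball (u : Pt A) p) (rep M u) S =
      Matrix.of fun a b : D.ball (u : Pt A) p => star (lam a) * T a b * lam b := by
    ext a b
    simp only [tmat_apply, wsc, hT, Matrix.of_apply, hcoef a a.2 b b.2]
    ring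
  have hcw : ∀ v, ∑ i, cw (Op.wt S (D.ball (u : Pt A) p)) v i = 1 := fun v => by
    simp only [cw, ← Complex.ofReal_sum, (isProb_wt hS (D.ball (u : Pt A) p) v).2,
      Complex.ofReal_one]
  have hpow : k ^ p = (wgt M A e φ c u : ℂ) := by
    rw [hk, ← Complex.ofReal_pow, ← pow_mul, rt, one_div,
      show (2 * p : ℝ) = ((2 * p : ℕ) : ℝ) by push_cast; rfl,
      Real.rpow_inv_natCast_pow hw0 (by omega)]
  have hval : tmom φ (rt p) D c U (rep M c) S p u =
      (mom ((tmat φ (rt p) D c U (rep M c) S).submatrix ι ι) (cw (Op.wt S U ∘ ι)) ⟨u, hmem⟩ p).re :=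
    congrArg Complex.re hloc
  rw [tpot, dif_pos hmem, hval, hsubm, show Op.wt S U ∘ ι = Op.wt S (D.ball (u : Pt A) p) from rfl,
    Moments.mom_smul k T _ hcw, hpow, Complex.re_ofReal_mul, tmom, hgauge,
    mom_gauge _ _ (fun a : D.ball (u : Pt A) p => lam a) fun a => hlam a a.2]

end Vale.Agent.P078.Twist
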