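import Vale.Agent.P078.Twist.Rows

/-!
The end of the twisted pass: for a full colouring the diagonal of a fixed even power of the pinched
element is controlled by a high twisted moment.
-/

namespace Vale.Agent.P078.Twist

open MKS MKS.Op Singular
open scoped Classical

variable {H : Type} [NormedAddCommGroup H] [InnerProductSpace ℂ H] [CompleteSpace H]
  {M A : VonNeumannAlgebra H} {e : H →L[ℂ] H}

/-- A window scaled by a twist. -/
noncomputable def twisted (D : Gen M A e) (χ : Pt A) (U : Finset (Pt A))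
    (R : Pt A → (H →L[ℂ] H)) (t : U → ℝ) : Matrix U U ℂ :=
  Matrix.of fun u v => (t u : ℂ) * wmat D.a D.g χ R U u v * (t v : ℂ)

variable (hM : IsMASA M A) (he : IsPr A e) {φ : (H →L[ℂ] H) →ₗ[ℂ] ℂ}
  (hφ : State.IsState M A e φ)
include hM he

lemma twisted_hermitian (D : Gen M A e) (hsa : IsSelfAdjoint D.op) {χ : Pt A} {U : Finset (Pt A)}
    {R : Pt A → (H →L[ℂ] H)} (hR : IsFrame M e χ U R) (t : U → ℝ) :
    (twisted D χ U R t).IsHermitian := by
  refine Matrix.IsHermitian.ext fun u v => ?_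
  simp only [twisted, Matrix.of_apply, star_mul', Complex.star_def, Complex.conj_ofReal]
  rw [← (wmat_hermitian hM he D hR hsa).apply u v, Complex.star_def]
  ring

include hφ

/-- The end of the twisted pass at one point. -/
lemma exists_end {r : ℕ} {P : Fin r → (H →L[ℂ] H)} (hP : IsPartition A e P) (D : Gen M A e)
    (hsa : IsSelfAdjoint D.op) (k : ℕ) :
    ∃ F ∈ A, F * e = F ∧ φ F = φ (e * MKS.pinch P D.op ^ (2 * k) * e) ∧
      ∀ (χ : Pt A) (U : Finset (Pt A)) (R : Pt A → (H →L[ℂ] H)), IsFrame M e χ U R →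
        ∀ c : U, (c : Pt A) = χ → (∀ ζ, D.Reaches (2 * k) c ζ → ζ ∈ U) → ∀ f : U → Fin r,
          (∀ (u : U) (i : Fin r), ev (u : Pt A) (P i) = if f u = i then 1 else 0) →
          ∀ (t : U → ℝ) (θ : ℝ), 0 ≤ θ →
            (∀ u v : U, D.Reaches (2 * k) c u → D.Reaches (2 * k) c v → |t u * t v - 1| ≤ θ) →
            ∀ (N : ℕ) (s : ℝ), Even N → 2 * k ≤ N → 0 < s →
              (ev χ F).re ≤ s ^ (2 * k) +
                qmom (twisted D χ U R t) (fun u => Pi.single (f u) 1) c (Polynomial.X ^ N) /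
                  s ^ (N - 2 * k) +
                (2 * k : ℕ) * θ * ((1 + θ) * rowBound D) ^ (2 * k) := by
  obtain ⟨F, hFA, hFe, hFφ, hF⟩ := exists_diag_close hM he hφ hP D (2 * k)
  refine ⟨F, hFA, hFe, hFφ, fun χ U R hR c hc hball f hf t θ hθ ht N s hN hkN hs => ?_⟩
  set p : U → Fin r → ℝ := fun u => Pi.single (f u) 1 with hp
  have hprob : IsProb p := fun u => ⟨fun i => by
    by_cases h : i = f u <;> simp [hp, h], by simp [hp]⟩
  have hlow := qmom_pow_le (twisted_hermitian hM he D hsa hR t) hprob c hkN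
    (even_two_mul k) hN hs
  set V := U.filter fun ζ => D.Reaches (2 * k) (c : Pt A) ζ with hV
  let ι : V → U := fun v => ⟨v, (Finset.mem_filter.1 v.2).1⟩
  have hι : Function.Injective ι := fun a b h => Subtype.ext (Subtype.ext_iff.1 h : _)
  have hcV : (c : Pt A) ∈ V :=
    Finset.mem_filter.2 ⟨c.2, reaches_self hM he D (hR c c.2).2.2 _⟩
  have hRV : IsFrame M e χ V R := fun η hη => hR η (Finset.mem_filter.1 hη).1
  have hreach : reach (twisted D χ U R t) c (2 * k) ⊆ Set.range ι := fun v hv => by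
    have h := reach_le_reaches hM he D hR c (2 * k) v
      (Moments.reach_of_le _ _ c (fun a b hab h0 => hab (by
        show (t a : ℂ) * wmat D.a D.g χ R U a b * (t b : ℂ) = 0
        rw [show wmat D.a D.g χ R U a b = 0 from h0, mul_zero, zero_mul])) (2 * k) hv)
    exact ⟨⟨v, Finset.mem_filter.2 ⟨v.2, h⟩⟩, rfl⟩
  have hloc := qmom_local (X := twisted D χ U R t) hprob ι hι ⟨c, hcV⟩ (Polynomial.X ^ (2 * k))
    (Polynomial.natDegree_X_pow_le _) (by exact hreach)
  have hclose := hF χ V R hRV ⟨c, hcV⟩ hc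
    (fun ζ hζ => Finset.mem_filter.2 ⟨hball ζ hζ, hζ⟩) (fun v => f (ι v)) (fun v i => hf (ι v) i)
    (fun v => t (ι v)) θ hθ fun u v =>
      ht (ι u) (ι v) (Finset.mem_filter.1 u.2).2 (Finset.mem_filter.1 v.2).2
  have hfull : qmom ((twisted D χ U R t).submatrix ι ι) (p ∘ ι) ⟨c, hcV⟩ (Polynomial.X ^ (2 * k)) =
      ((Matrix.of (fun u v : V => if f (ι u) = f (ι v) then
          (t (ι u) : ℂ) * wmat D.a D.g χ R V u v * (t (ι v) : ℂ) else 0) ^ (2 * k) :
          Matrix V V ℂ) ⟨c, hcV⟩ ⟨c, hcV⟩).re := by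
    rw [qmom_X_pow, (moment_ok V r _ (p ∘ ι) (fun v => hprob (ι v))).2.2.2 (fun v => f (ι v))
      (funext fun v => rfl)]
    rfl
  have hc' : ι ⟨c, hcV⟩ = c := rfl
  rw [hc', hfull] at hloc
  linarith [(abs_le.1 hclose).1]

end Vale.Agent.P078.Twist
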