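import Vale.Agent.P078.Twist.Pass
import Vale.Agent.P078.Twist.End

/-!
Twisted paving: the random pass and the removal of the twist.
-/

namespace Vale.Agent.P078.Twist

open MKS MKS.Op Singular
open Orth (Cut Rand IsPoly avg cst)
open scoped Classical

variable {H : Type} [NormedAddCommGroup H] [InnerProductSpace ℂ H] [CompleteSpace H]
  {M A : VonNeumannAlgebra H} {e : H →L[ℂ] H} {φ : (H →L[ℂ] H) →ₗ[ℂ] ℂ} {r : ℕ}

/-- A product of two roots of weights within `[B⁻¹, B]` is within `θ` of one. -/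
lemma rt_close {p : ℕ} (hp : 0 < p) {B θ x y : ℝ} (hθ : 0 ≤ θ) (hB : B ≤ (1 + θ) ^ p)
    (hB1 : 1 ≤ B) (hx : x ≤ B ∧ B⁻¹ ≤ x) (hy : y ≤ B ∧ B⁻¹ ≤ y) :
    |rt p x * rt p y - 1| ≤ θ := by
  have hB0 : 0 < B := by linarith
  have hx0 : 0 < x := lt_of_lt_of_le (inv_pos.2 hB0) hx.2
  have hy0 : 0 < y := lt_of_lt_of_le (inv_pos.2 hB0) hy.2
  set z := rt p x * rt p y with hz
  have hz0 : 0 < z := mul_pos (Real.rpow_pos_of_pos hx0 _) (Real.rpow_pos_of_pos hy0 _)
  have hpow : z ^ (2 * p) = x * y := by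
    rw [hz, mul_pow]
    simp only [rt]
    rw [← Real.rpow_natCast (x ^ _), ← Real.rpow_mul hx0.le, ← Real.rpow_natCast (y ^ _),
      ← Real.rpow_mul hy0.le]
    have : (1 / (2 * p : ℝ)) * ((2 * p : ℕ) : ℝ) = 1 := by push_cast; field_simp
    rw [this, Real.rpow_one, Real.rpow_one]
  have hB2 : B ^ 2 ≤ (1 + θ) ^ (2 * p) := by
    rw [mul_comm 2 p, pow_mul]
    exact pow_le_pow_left₀ hB0.le hB 2
  have hup : z ≤ 1 + θ := by
    refine le_of_pow_le_pow_left₀ (by omega : 2 * p ≠ 0) (by linarith) ?_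
    rw [hpow]
    nlinarith [hx.1, hy.1]
  have hlow : z⁻¹ ≤ 1 + θ := by
    refine le_of_pow_le_pow_left₀ (by omega : 2 * p ≠ 0) (by linarith) ?_
    rw [inv_pow, hpow, mul_inv]
    have h1 : x⁻¹ ≤ B := by rw [inv_le_comm₀ hx0 hB0]; exact hx.2
    have h2 : y⁻¹ ≤ B := by rw [inv_le_comm₀ hy0 hB0]; exact hy.2
    nlinarith [inv_pos.2 hx0, inv_pos.2 hy0]
  rw [abs_le]
  refine ⟨?_, by linarith⟩
  have h3 : 1 ≤ z * (1 + θ) := by
    have := mul_le_mul_of_nonneg_left hlow hz0.le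
    rwa [mul_inv_cancel₀ hz0.ne'] at this
  nlinarith

/-- An even exponent beyond all thresholds. -/
lemma exists_exponent (k : ℕ) {θ : ℝ} (hθ : 0 < θ) (B K η : ℝ) (hη : 0 < η) :
    ∃ p : ℕ, Even p ∧ 8 ≤ p ∧ 2 * k ≤ p ∧ B ≤ (1 + θ) ^ p ∧ K / 2 ^ p ≤ η := by
  obtain ⟨a, ha⟩ := pow_unbounded_of_one_lt B (show 1 < 1 + θ by linarith)
  obtain ⟨b, hb⟩ := pow_unbounded_of_one_lt (K / η) one_lt_two
  set p := 2 * (max (max a b) (max 4 k))
  refine ⟨p, even_two_mul _, by omega, by omega,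
    ha.le.trans (pow_le_pow_right₀ (by linarith) (by omega)), ?_⟩
  rw [div_le_iff₀ (pow_pos two_pos _), ← div_le_iff₀' hη]
  exact hb.le.trans (pow_le_pow_right₀ one_le_two (by omega))

/-- The moment of a full colouring scales with the matrix. -/
lemma mom_smul_full {V : Type} [Fintype V] [DecidableEq V] (X : Matrix V V ℂ) (f : V → Fin r)
    (a : ℝ) (k : V) (j : ℕ) :
    (mom ((a : ℂ) • X) (cw fun v => (Pi.single (f v) 1 : Fin r → ℝ)) k j).re =
      a ^ j * (mom X (cw fun v => (Pi.single (f v) 1 : Fin r → ℝ)) k j).re := by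
  have hp : IsProb (fun v => (Pi.single (f v) 1 : Fin r → ℝ)) := fun v => ⟨fun i => by
    by_cases h : i = f v <;> simp [h], by simp⟩
  rw [(moment_ok V r _ _ hp).2.2.2 f rfl, (moment_ok V r _ _ hp).2.2.2 f rfl]
  have e1 : (Matrix.of fun u v => if f u = f v then ((a : ℂ) • X) u v else 0) =
      (a : ℂ) • (Matrix.of fun u v => if f u = f v then X u v else 0 : Matrix V V ℂ) := by
    ext u v
    simp only [Matrix.of_apply, Matrix.smul_apply, smul_eq_mul]
    split_ifs <;> simp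
  rw [e1, smul_pow, Matrix.smul_apply, smul_eq_mul, ← Complex.ofReal_pow, Complex.re_ofReal_mul]

variable (hM : IsMASA M A) (he : IsPr A e) (hφ : State.IsState M A e φ)
include hM he hφ

/-- The end: from the integral of the twisted potential of a colouring to the power. -/
lemma final_le {D : Gen M A e} (hsa : IsSelfAdjoint D.op) {p : ℕ} (hp : 0 < p) (hpe : Even p)
    {k : ℕ} (hkp : 2 * k ≤ p) {B θ : ℝ} (hB1 : 1 ≤ B) (hθ : 0 ≤ θ) (hBθ : B ≤ (1 + θ) ^ p)
    (hB : ∀ χ η, D.Reaches (2 * k) χ η → wgt M A e φ χ η ≤ B ∧ B⁻¹ ≤ wgt M A e φ χ η)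
    {S : St A r} {c₀ : ℝ} (hc₀ : 0 < c₀) {P : Fin r → (H →L[ℂ] H)} (hP : IsPartition A e P)
    (hSP : ∀ η : Pt A, ev η e = 1 → ∃ i, S η = (Pi.single i 1, c₀) ∧
      ∀ s, ev η (P s) = ((Pi.single i 1 : Fin r → ℝ) s : ℂ))
    (hrep : (fun χ => (tpot φ (rt p) D p S χ : ℂ)) ∈ Rep A e) {s : ℝ} (hs : 0 < s) :
    (φ (e * MKS.pinch P D.op ^ (2 * k) * e)).re ≤
      (s ^ (2 * k) + (2 * k : ℕ) * θ * ((1 + θ) * rowBound D) ^ (2 * k)) * (φ e).re +
        1 / ((c₀ ^ 2) ^ p * s ^ (p - 2 * k)) *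
          int φ e (fun χ => (tpot φ (rt p) D p S χ : ℂ)) := by
  obtain ⟨F, hFA, hFe, hFφ, hF⟩ := exists_end hM he hφ hP D hsa k
  obtain ⟨g, hg, hg'⟩ := hrep
  rw [← hFφ, ← hFe, sint_eq hM he hφ hg hg']
  set a₁ := s ^ (2 * k) + (2 * k : ℕ) * θ * ((1 + θ) * rowBound D) ^ (2 * k)
  set a₂ := 1 / ((c₀ ^ 2) ^ p * s ^ (p - 2 * k))
  refine (state_re_le hM he hφ hFA (add_mem (csmul_mem (a₁ : ℂ) (one_mem A))
    (csmul_mem (a₂ : ℂ) hg)) fun χ hχ => ?_).trans (le_of_eq ?_)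
  swap
  · rw [add_mul, smul_mul_assoc, smul_mul_assoc, one_mul, map_add, map_smul, map_smul,
      smul_eq_mul, smul_eq_mul, Complex.add_re, Complex.re_ofReal_mul, Complex.re_ofReal_mul]
  rw [ev_add χ (csmul_mem _ (one_mem A)) (csmul_mem _ hg), ev_smul χ _ (one_mem A), ev_one, mul_one,
    ev_smul χ _ hg, Complex.add_re, Complex.ofReal_re, Complex.re_ofReal_mul, ← hg' χ hχ,
    Complex.ofReal_re]
  have hmem : χ ∈ D.ball χ p := (mem_ball D).2 (reaches_self hM he D hχ p)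
  have hR := frame_ball hM he D χ p
  set U := D.ball χ p with hU
  choose f hf hfP using fun u : U => hSP (u : Pt A) (hR u u.2).2.2
  set t : U → ℝ := fun u => rt p (wgt M A e φ χ u) with ht
  have hend := hF χ U (rep M χ) hR ⟨χ, hmem⟩ rfl
    (fun ζ hζ => (mem_ball D).2 (reaches_mono hM he D hkp hζ)) f
    (fun u i => by
      rw [hfP u i, Pi.single_apply]
      by_cases h : f u = i
      · simp [h]
      · simp [h, Ne.symm h])
    t θ hθ (fun u v hu hv => rt_close hp hθ hBθ hB1 (hB χ u hu) (hB χ v hv)) p s hpe hkp hs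
  have hwt : Op.wt S U = fun u => (Pi.single (f u) 1 : Fin r → ℝ) := funext fun u => by
    simp [Op.wt, hf u]
  have htm : tmat φ (rt p) D χ U (rep M χ) S =
      ((c₀ ^ 2 : ℝ) : ℂ) • twisted D χ U (rep M χ) t := by
    ext u v
    simp only [tmat, scaled, twisted, wsc, wmat, Matrix.of_apply, Matrix.smul_apply, smul_eq_mul,
      hf u, hf v, ht]
    push_cast
    ring
  have hpot : tpot φ (rt p) D p S χ = (c₀ ^ 2) ^ p *
      qmom (twisted D χ U (rep M χ) t) (fun u => Pi.single (f u) 1) ⟨χ, hmem⟩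
        (Polynomial.X ^ p) := by
    rw [tpot, dif_pos hmem, tmom, hwt, htm, mom_smul_full, qmom_X_pow]
  refine hend.trans (le_of_eq ?_)
  simp only [a₁, a₂]
  rw [hpot]
  field_simp
  ring

omit hφ
/-- The colours of a finished draft. -/
lemma exists_partition_of_single {L : Type} [Fintype L] (hr : 0 < r) (P : Draft M A e L r)
    (hsingle : ∀ c ω (η : Pt A), ev η e = 1 → ∃ i, (P.state c ω η).1 = Pi.single i 1) :
    ∃ C : Fin r → Rand A e L, (∀ s, IsPoly M (C s)) ∧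
      (∀ c ω, IsPartition A e (fun s => C s c ω)) ∧
      (∀ c ω (η : Pt A), ev η e = 1 → ∀ s, ev η (C s c ω) = ((P.state c ω η).1 s : ℂ)) ∧
      ∀ c s, avg (unif L) (fun ω => C s c ω) ≤ (2 / r : ℝ) • e := by
  have hee := he.2.isIdempotentElem.eq
  have hsA : ∀ (a : ℝ) {x : H →L[ℂ] H}, x ∈ A → a • x ∈ A := fun a x hx => by
    rw [← Complex.coe_smul]; exact csmul_mem _ hx
  have hsev : ∀ (a : ℝ) {x : H →L[ℂ] H}, x ∈ A → ∀ η : Pt A, ev η (a • x) = a * ev η x :=
    fun a x hx η => by rw [← Complex.coe_smul, ev_smul η _ hx]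
  let C : Fin r → Rand A e L := fun s => ∑ j, cst (P.v j s • e) * P.E j
  have hCp : ∀ s, IsPoly M (C s) := fun s => IsPoly.sum _ fun j _ =>
    (Orth.isPoly_cst (hsA _ he.1) (by
      rw [mul_smul_comm, smul_mul_assoc, hee, hee])).mul hM he (P.poly j)
  have hev : ∀ c ω (η : Pt A) s,
      ev η (C s c ω) = ∑ j, (P.v j s : ℂ) * (ev η e * ev η (P.E j c ω)) := by
    intro c ω η s
    simp only [C, Finset.sum_apply, Pi.mul_apply, cst]
    rw [ev_sum η _ _ fun j _ => mul_mem (hsA _ he.1) ((P.poly j).mem c ω)]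
    exact Finset.sum_congr rfl fun j _ => by
      rw [ev_mul η (hsA _ he.1) ((P.poly j).mem c ω), hsev _ he.1, mul_assoc]
  have hoff : ∀ c ω (η : Pt A) s, ev η e = 0 → ev η (C s c ω) = 0 := fun c ω η s hη => by
    simp [hev, hη]
  have hon : ∀ c ω (η : Pt A), ev η e = 1 → ∀ s, ev η (C s c ω) = ((P.state c ω η).1 s : ℂ) := by
    intro c ω η hη s
    obtain ⟨j, hj⟩ := P.dec c ω η hη
    rw [hev, Draft.state, rstate_val hj]
    simp [hη, hj]
  have hval : ∀ c ω (η : Pt A), ev η e = 1 → ∃ i, ∀ s,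
      ev η (C s c ω) = if s = i then 1 else 0 := fun c ω η hη => by
    obtain ⟨i, hi⟩ := hsingle c ω η hη
    refine ⟨i, fun s => ?_⟩
    rw [hon c ω η hη, hi, Pi.single_apply]
    split_ifs <;> simp
  have hpart : ∀ c ω, IsPartition A e (fun s => C s c ω) := fun c ω => by
    refine ⟨fun s => isPr_of_ev hM.2.1 ((hCp s).mem c ω) fun η => ?_, fun s t hst => ?_, ?_⟩
    · rcases ev_proj η he with h | h
      · exact Or.inl (hoff c ω η s h)
      · obtain ⟨i, hi⟩ := hval c ω η h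
        rw [hi]
        split_ifs
        exacts [Or.inr rfl, Or.inl rfl]
    · refine eq_zero_of_ev hM.2.1 (mul_mem ((hCp s).mem c ω) ((hCp t).mem c ω)) fun η => ?_
      rw [ev_mul η ((hCp s).mem c ω) ((hCp t).mem c ω)]
      rcases ev_proj η he with h | h
      · rw [hoff c ω η s h, zero_mul]
      · obtain ⟨i, hi⟩ := hval c ω η h
        rw [hi, hi]
        split_ifs with h1 h2
        exacts [absurd (h1.trans h2.symm) hst, mul_zero _, zero_mul _, zero_mul _]
    · refine eq_of_ev hM.2.1 (sum_mem fun s _ => (hCp s).mem c ω) he.1 fun η => ?_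
      rw [ev_sum η _ _ fun s _ => (hCp s).mem c ω]
      rcases ev_proj η he with h | h
      · rw [h, Finset.sum_eq_zero fun s _ => hoff c ω η s h]
      · obtain ⟨i, hi⟩ := hval c ω η h
        simp [hi, h]
  refine ⟨C, hCp, hpart, hon, fun c s => ?_⟩
  refine le_of_ev hM.2.1 (sum_mem fun ω _ => hsA _ ((hCp s).mem c ω)) (hsA _ he.1)
    (isSelfAdjoint_sum _ fun ω _ =>
      (IsSelfAdjoint.all _).smul ((hpart c ω).1 s).2.isSelfAdjoint)
    ((IsSelfAdjoint.all _).smul he.2.isSelfAdjoint) fun η => ?_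
  have h1 : (ev η (avg (unif L) (fun ω => C s c ω))).re =
      avg (unif L) (fun ω => (ev η (C s c ω)).re) := by
    simp only [avg]
    rw [ev_sum η _ _ fun ω _ => hsA _ ((hCp s).mem c ω), Complex.re_sum]
    exact Finset.sum_congr rfl fun ω _ => by
      rw [hsev _ ((hCp s).mem c ω), Complex.re_ofReal_mul, smul_eq_mul]
  rw [hsev _ he.1, Complex.re_ofReal_mul, h1]
  rcases ev_proj η he with hη | hη
  · simp [hoff _ _ η s hη, hη, avg]
  · rw [hη, Complex.one_re, mul_one]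
    refine le_of_eq_of_le (congrArg _ (funext fun ω => ?_)) (P.mean c η s hη)
    rw [hev, Complex.re_sum]
    simp [hη]

end Vale.Agent.P078.Twist

namespace Vale.Agent.P078.Twist

open MKS MKS.Op Singular
open scoped Classical

/-- The module TwistedPaving, from the slices. -/
theorem twisted_paving_of (hScale : ScaleStatement) (hW : WeightStatement)
    (hTr : TransportStatement) (hRP : RepPotStatement) (hHom : HomogStatement)
    (hStart : StartStatement) : TwistedPavingStatement := by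
  obtain ⟨c₀, hc0, hc1, hscale⟩ := hScale
  have hc2 : c₀ ^ 2 ≤ 1 := pow_le_one₀ hc0.le hc1
  refine ⟨4 / c₀ ^ 2, by positivity, ?_⟩
  intro H _ _ _ M A e φ hM he hφ D hD hsa hl hu n E hE hE0 r k δ hr hδ
  have hr0 : 0 < r := by omega
  set φe := (φ e).re with hφe
  have hφe0 : 0 ≤ φe :=
    State.tr_nonneg hφ he.2 (cor_proj (hM.1 e he.1) he.2) he.2.nonneg
  set b := 2 / Real.sqrt r with hb
  have hb0 : 0 < b := by positivity
  set s := 2 * b / c₀ ^ 2 with hs
  have hs0 : 0 < s := by positivity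
  obtain ⟨B, hB1, hB⟩ := (hW H M A e φ hM he hφ D hD).2.2.1 (2 * k)
  set R₀ := (2 * k : ℕ) * (2 * rowBound D) ^ (2 * k) * φe with hR₀
  have hR₀0 : 0 ≤ R₀ := by have := rowBound_nonneg D; positivity
  set θ := min 1 (δ / (2 * (R₀ + 1))) with hθ
  have hθ0 : 0 < θ := lt_min one_pos (by positivity)
  set K := (Real.pi / 2 + 1) * s ^ (2 * k) * φe with hK
  obtain ⟨p, hpe, hp8, hkp, hBθ, hKp⟩ := exists_exponent k hθ0 B K (δ / 2) (half_pos hδ)
  have hp0 : 0 < p := by omega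
  obtain ⟨nc, P, hsingle, hint⟩ := twist_pass hM he hφ hD hRP hTr hHom hp0 hsa hE hE0
    ⟨hc0.le, hc1⟩ hscale hp8 hpe hr (ε := b ^ p) (pow_pos hb0 p)
  have : Nonempty (Fin (r * (r + 1))) := ⟨⟨0, Nat.mul_pos hr0 r.succ_pos⟩⟩
  obtain ⟨C, hCp, hCpart, hCv, hCm⟩ := exists_partition_of_single hM he hr0 P hsingle
  refine ⟨Fin nc → Fin (r * (r + 1)), inferInstance, unif _, fun c ω i => C i c ω,
    fun l => by unfold unif; positivity, ?_, hCpart, fun i => (hCp i).isField, fun c i => ?_,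
    fun c ω => ?_⟩
  · simp only [unif, Finset.sum_const, Finset.card_univ, nsmul_eq_mul]
    exact mul_one_div_cancel (Nat.cast_ne_zero.2 Fintype.card_ne_zero)
  · refine (hCm c i).trans (smul_le_smul_right' ?_ he.2.nonneg)
    refine div_le_div_of_nonneg_right ?_ (Nat.cast_nonneg r)
    rw [le_div_iff₀ (by positivity)]
    nlinarith
  have hstate := isState_scaleSt hr hc0.le hc1 (P.isState hr0 he c ω)
  have hrep := rep_tpot hM he hφ hD hRP hTr hHom hp0 hr0 hstate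
  have hfin := final_le hM he hφ hsa hp0 hpe hkp hB1 hθ0.le hBθ hB hc0 (hCpart c ω)
    (fun η hη => by
      obtain ⟨i, hi⟩ := hsingle c ω η hη
      refine ⟨i, ?_, fun x => by rw [hCv c ω η hη, hi]⟩
      simp only [scaleSt, hi, scl_single hr]) hrep hs0
  have hstart := hStart H M A e φ hM he hφ D hD hsa hl hu n E hE hE0 p r hr (by omega) hpe
  have hI : int φ e (fun χ => (tpot φ (rt p) D p (scaleSt c₀ (P.state c ω)) χ : ℂ)) ≤
      (Real.pi / 2 + 1) * b ^ p * φe := by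
    have := hint c ω
    rw [← hb] at hstart
    linarith
  have hid : 1 / ((c₀ ^ 2) ^ p * s ^ (p - 2 * k)) * ((Real.pi / 2 + 1) * b ^ p * φe) =
      K / 2 ^ p := by
    have hbs : b ^ p = (c₀ ^ 2) ^ p * s ^ (p - 2 * k) * s ^ (2 * k) / 2 ^ p := by
      rw [mul_assoc, ← pow_add, Nat.sub_add_cancel hkp, ← mul_pow, ← div_pow, hs]
      congr 1
      field_simp
    rw [hK, hbs]
    field_simp
  have hθterm : (2 * k : ℕ) * θ * ((1 + θ) * rowBound D) ^ (2 * k) * φe ≤ δ / 2 := by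
    have h0 := rowBound_nonneg D
    calc (2 * k : ℕ) * θ * ((1 + θ) * rowBound D) ^ (2 * k) * φe
        ≤ (2 * k : ℕ) * θ * (2 * rowBound D) ^ (2 * k) * φe :=
          mul_le_mul_of_nonneg_right (mul_le_mul_of_nonneg_left (pow_le_pow_left₀ (by positivity)
            (mul_le_mul_of_nonneg_right (by linarith [min_le_left 1 (δ / (2 * (R₀ + 1)))]) h0) _)
            (by positivity)) hφe0
      _ = θ * R₀ := by rw [hR₀]; ring
      _ ≤ δ / (2 * (R₀ + 1)) * R₀ := mul_le_mul_of_nonneg_right (min_le_right _ _) hR₀0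
      _ ≤ δ / 2 := by
          rw [div_mul_eq_mul_div, div_le_iff₀ (by positivity)]
          nlinarith
  have hsC : 4 / c₀ ^ 2 / Real.sqrt r = s := by
    rw [hs, hb]
    field_simp
    ring
  rw [hsC]
  have hmul := mul_le_mul_of_nonneg_left hI
    (show 0 ≤ 1 / ((c₀ ^ 2) ^ p * s ^ (p - 2 * k)) by positivity)
  rw [hid] at hmul
  linarith [hfin]

end Vale.Agent.P078.Twist
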