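import Vale.Agent.P078.MKS.Transport

/-!
Continuous functions of represented functions are represented.
-/

namespace Vale.Agent.P078.Twist

open MKS MKS.Op Singular

variable {H : Type} [NormedAddCommGroup H] [InnerProductSpace ℂ H] [CompleteSpace H]
  {M A : VonNeumannAlgebra H} {e : H →L[ℂ] H}

/-- A continuous function of finitely many represented functions is represented. -/
theorem rep_continuous (hM : IsMASA M A) {ι : Type} {f : ι → Pt A → ℂ} (hf : ∀ i, f i ∈ Rep A e)
    {F : (ι → ℂ) → ℂ} (hF : Continuous F) : (fun χ => F fun i => f i χ) ∈ Rep A e := by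
  choose a ha hfa using hf
  have hcl : IsClosed (A.toStarSubalgebra : Set (H →L[ℂ] H)) := by
    rw [VonNeumannAlgebra.coe_toStarSubalgebra, ← VonNeumannAlgebra.centralizer_centralizer A]
    exact Set.isClosed_centralizer _
  let B : CommCStarAlgebra A.toStarSubalgebra :=
    { StarSubalgebra.cstarAlgebra (h_closed := hcl) A.toStarSubalgebra with
      mul_comm := fun x y => Subtype.ext (hM.2.1 x.1 x.2 y.1 y.2) }
  let Ω := WeakDual.characterSpace ℂ A.toStarSubalgebra
  let g : C(Ω, ℂ) := ⟨fun w => F fun i => w ⟨a i, ha i⟩, hF.comp (continuous_pi fun i =>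
    (WeakDual.eval_continuous _).comp continuous_subtype_val)⟩
  obtain ⟨b, hb⟩ := (gelfandStarTransform A.toStarSubalgebra).surjective g
  refine ⟨b.1, b.2, fun χ hχ => ?_⟩
  let w : Ω := WeakDual.CharacterSpace.equivAlgHom.symm χ.toAlgHom
  have hval : ∀ {z : H →L[ℂ] H} (hz : z ∈ A), ev χ z = w ⟨z, hz⟩ := fun {z} hz => by
    rw [ev_eq χ hz]; rfl
  have h := congrArg (fun G : C(Ω, ℂ) => G w) hb
  show F (fun i => f i χ) = ev χ b.1
  rw [hval b.2]
  refine Eq.trans ?_ h.symm
  show F (fun i => f i χ) = F fun i => w ⟨a i, ha i⟩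
  congr 1
  funext i
  rw [hfa i χ hχ, hval (ha i)]

/-- A continuous real function of finitely many represented functions is represented. -/
theorem rep_continuous_real (hM : IsMASA M A) {ι : Type} {f : ι → Pt A → ℂ}
    (hf : ∀ i, f i ∈ Rep A e) {F : (ι → ℂ) → ℝ} (hF : Continuous F) :
    (fun χ => (F fun i => f i χ : ℂ)) ∈ Rep A e :=
  rep_continuous hM hf (Complex.continuous_ofReal.comp hF)

end Vale.Agent.P078.Twist
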