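import Vale.Agent.P078.Twist.Defs
import Vale.Agent.P078.State.Basic

/-!
The Radon–Nikodym weights of a central state along the normaliser: the density at a point depends
only on where the point is moved, and the weights form a positive bounded cocycle.
-/

namespace Vale.Agent.P078.Twist

open MKS MKS.Op Singular
open scoped Classical

variable {H : Type} [NormedAddCommGroup H] [InnerProductSpace ℂ H] [CompleteSpace H]
  {M A : VonNeumannAlgebra H} {e : H →L[ℂ] H} {φ : (H →L[ℂ] H) →ₗ[ℂ] ℂ}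

lemma HasDens.im_zero {v ρ : H →L[ℂ] H} (h : HasDens A φ v ρ) (χ : Pt A) : (ev χ ρ).im = 0 :=
  ev_im_eq_zero χ h.1 (IsSelfAdjoint.of_nonneg h.2.1)

lemma HasDens.re_nonneg {v ρ : H →L[ℂ] H} (h : HasDens A φ v ρ) (χ : Pt A) : 0 ≤ (ev χ ρ).re :=
  ev_nonneg χ h.1 h.2.1

variable (hM : IsMASA M A) (he : IsPr A e)
include hM he

/-- The unit has itself as a density. -/
lemma hasDens_unit : HasDens A φ e e := by
  refine ⟨he.1, he.2.nonneg, ?_, fun a ha => ?_⟩
  · rw [he.2.isSelfAdjoint.star_eq, he.2.isIdempotentElem.eq, he.2.isIdempotentElem.eq]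
  · rw [he.2.isSelfAdjoint.star_eq, mul_assoc, hM.2.1 a ha e he.1, ← mul_assoc,
      he.2.isIdempotentElem.eq]

omit he in
/-- The density of a product. -/
lemma hasDens_mul {v u ρ σ : H →L[ℂ] H} (hv : v ∈ normaliser M A) (hu : u ∈ normaliser M A)
    (h : HasDens A φ v ρ) (h' : HasDens A φ u σ) :
    HasDens A φ (v * u) (σ * (star u * ρ * u)) := by
  have hc := (hu.2.2 ρ h.1).2
  have hr : u * star u ∈ A := by simpa using (hu.2.2 1 (one_mem A)).1
  refine ⟨mul_mem h'.1 hc, ?_, ?_, fun a ha => ?_⟩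
  · refine nonneg_of_ev hM.2.1 (mul_mem h'.1 hc) ?_ fun χ => ?_
    · rw [isSelfAdjoint_iff, star_mul, (IsSelfAdjoint.of_nonneg h'.2.1).star_eq, star_mul, star_mul,
        star_star, (IsSelfAdjoint.of_nonneg h.2.1).star_eq, ← mul_assoc (star u),
        hM.2.1 _ hc _ h'.1]
    · rw [ev_mul χ h'.1 hc, Complex.mul_re, h'.im_zero χ, zero_mul, sub_zero]
      exact mul_nonneg (h'.re_nonneg χ) (ev_nonneg χ hc (star_left_conjugate_nonneg h.2.1 u))
  · rw [star_mul, show star u * star v * (v * u) = star u * (star v * v) * u by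
      simp only [mul_assoc], mul_assoc σ, masa_conj_mul hM hu h.1 (nor_dom hv).1, h.2.2.1]
  · have h1 := (hu.2.2 a ha).1
    have h2 : u * (star u * ρ * u * a) * star u = ρ * (u * a * star u) := by
      calc u * (star u * ρ * u * a) * star u = u * star u * ρ * (u * a * star u) := by
            simp only [mul_assoc]
        _ = ρ * (u * star u) * (u * a * star u) := by rw [masa_comm hM hr h.1]
        _ = ρ * (u * star u * u * a * star u) := by simp only [mul_assoc]
        _ = ρ * (u * a * star u) := by rw [hu.2.1]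
    rw [star_mul, show v * u * a * (star u * star v) = v * (u * a * star u) * star v by
      simp only [mul_assoc], h.2.2.2 _ h1, ← h2, h'.2.2.2 _ (mul_mem hc ha)]
    simp only [mul_assoc]

variable (hφ : State.IsState M A e φ)
include hφ

/-- The density at a point depends only on where the point is moved. -/
lemma dens_eq {v v' ρ ρ' : H →L[ℂ] H} (hv : v ∈ normaliser M A) (hc : e * v * e = v)
    (hv' : v' ∈ normaliser M A) (hc' : e * v' * e = v') (hd : HasDens A φ v ρ)
    (hd' : HasDens A φ v' ρ') {χ η : Pt A} (hm : Moves v χ η) (hm' : Moves v' χ η) :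
    ev χ ρ = ev χ ρ' := by
  obtain ⟨q, hq, hq1, hwq⟩ := support_of_fixed hM (nor_mul_mem hM (nor_star hv) hv')
    (moves_mul hM (nor_star hv) hm' (moves_star hM hv hm))
  obtain ⟨hr, hr1⟩ := moves_range hM hv hm
  set c := star v' * (v * star v) * v' with hcdef
  have hc0 : IsPr A c := conj_pr hM hv' hr
  set p := q * c with hpdef
  have hp : IsPr A p := isPr_mul hM.2.1 hq hc0
  have hp1 : ev χ p = 1 := by
    rw [hpdef, ev_mul χ hq.1 hc0.1, hq1, hcdef, ← hm'.2 _ hr.1, hr1, one_mul]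
  set a₀ := star v * v' * q with ha₀
  have hcp : c * p = p := by
    rw [hpdef, masa_comm hM hq.1 hc0.1, ← mul_assoc, hc0.2.isIdempotentElem.eq]
  have hqp : q * p = p := by rw [hpdef, ← mul_assoc, hq.2.isIdempotentElem.eq]
  have hv'p : v' * p = v * a₀ * p := by
    calc v' * p = v' * (c * p) := by rw [hcp]
      _ = v * star v * v' * p := by rw [← mul_assoc, hcdef, ← mul_nor hM hv' hr.1]
      _ = v * star v * v' * (q * p) := by rw [hqp]
      _ = v * a₀ * p := by rw [ha₀]; simp only [mul_assoc]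
  have haa : a₀ * star a₀ * p = p := by
    rw [masa_comm hM hwq (star_mem hwq), ha₀]
    simp only [star_mul, star_star, hq.2.isSelfAdjoint.star_eq]
    calc q * (star v' * v) * (star v * v' * q) * p = q * c * (q * p) := by
          rw [hcdef]; simp only [mul_assoc]
      _ = p := by rw [hqp, ← hpdef, hp.2.isIdempotentElem.eq]
  have key : ∀ b ∈ A, p * b = b → v' * b * star v' = v * b * star v := by
    intro b hb hpb
    have hps : star (v' * p) = p * star v' := by rw [star_mul, hp.2.isSelfAdjoint.star_eq]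
    calc v' * b * star v' = v' * p * b * (p * star v') := by
          conv_lhs => rw [← hpb, ← hp.2.isIdempotentElem.eq, mul_assoc p p b, masa_comm hM hp.1 hb]
          simp only [mul_assoc]
      _ = v * a₀ * p * b * (p * (star a₀ * star v)) := by
          rw [← hps, hv'p, star_mul (v * a₀) p, hp.2.isSelfAdjoint.star_eq, star_mul v a₀]
      _ = v * (a₀ * (p * b) * p * star a₀) * star v := by simp only [mul_assoc]
      _ = v * b * star v := by
          rw [hpb, mul_assoc a₀ b p, masa_comm hM hb hp.1, hpb, mul_assoc a₀ b (star a₀),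
            masa_comm hM hb (star_mem hwq), ← mul_assoc a₀, ← hpb, ← mul_assoc _ p b, haa]
  set d := (ρ - ρ') * p with hddef
  have hdA : d ∈ A := mul_mem (sub_mem hd.1 hd'.1) hp.1
  have hds : star d = d := by
    rw [hddef, star_mul, hp.2.isSelfAdjoint.star_eq, star_sub,
      (IsSelfAdjoint.of_nonneg hd.2.1).star_eq, (IsSelfAdjoint.of_nonneg hd'.2.1).star_eq,
      masa_comm hM hp.1 (sub_mem hd.1 hd'.1)]
  have hpd : p * d = d := by
    rw [masa_comm hM hp.1 hdA, hddef, mul_assoc, hp.2.isIdempotentElem.eq]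
  have h1 : φ (ρ * d) = φ (ρ' * d) := by
    rw [← hd.2.2.2 d hdA, ← hd'.2.2.2 d hdA, key d hdA hpd]
  have hdd : star d * d = (ρ - ρ') * d := by
    rw [hds]
    conv_lhs => arg 1; rw [hddef]
    rw [mul_assoc, hpd]
  have hse : ∀ {w σ : H →L[ℂ] H}, e * w * e = w → HasDens A φ w σ → σ * e = σ := by
    intro w σ hw h
    have hwe : w * e = w := by
      conv_lhs => rw [← hw]
      rw [mul_assoc, he.2.isIdempotentElem.eq, hw]
    rw [← h.2.2.1, mul_assoc, mul_assoc, hwe]
  have hde : d * e = d := by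
    rw [hddef, mul_assoc, masa_comm hM hp.1 he.1, ← mul_assoc, sub_mul, hse hc hd, hse hc' hd']
  have hd0 : d = 0 := hφ.2.1 d (hM.1 d hdA)
    (by rw [hM.2.1 e he.1 d hdA, hde, hde])
    (by rw [hdd, sub_mul, map_sub, h1, sub_self])
  have := congrArg (ev χ) hd0
  rwa [hddef, ev_mul χ (sub_mem hd.1 hd'.1) hp.1, hp1, mul_one, ev_sub χ hd.1 hd'.1, ev_zero,
    sub_eq_zero] at this

/-- The weight is the density at the point. -/
lemma wgt_eq {v ρ : H →L[ℂ] H} (hv : v ∈ normaliser M A) (hc : e * v * e = v)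
    (hd : HasDens A φ v ρ) {χ η : Pt A} (hm : Moves v χ η) :
    wgt M A e φ χ η = (ev χ ρ).re := by
  have h : ∃ vρ : (H →L[ℂ] H) × (H →L[ℂ] H), vρ.1 ∈ normaliser M A ∧ e * vρ.1 * e = vρ.1 ∧
      HasDens A φ vρ.1 vρ.2 ∧ Moves vρ.1 χ η := ⟨(v, ρ), hv, hc, hd, hm⟩
  rw [wgt, dif_pos h]
  obtain ⟨h1, h2, h3, h4⟩ := h.choose_spec
  rw [dens_eq hM he hφ h1 h2 hv hc h3 hd h4 hm]

lemma ev_dens {v ρ : H →L[ℂ] H} (hv : v ∈ normaliser M A) (hc : e * v * e = v)
    (hd : HasDens A φ v ρ) {χ η : Pt A} (hm : Moves v χ η) :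
    ev χ ρ = (wgt M A e φ χ η : ℂ) :=
  Complex.ext (by rw [Complex.ofReal_re, wgt_eq hM he hφ hv hc hd hm])
    (by rw [Complex.ofReal_im, hd.im_zero χ])

lemma wgt_self {χ : Pt A} (h : ev χ e = 1) : wgt M A e φ χ χ = 1 := by
  rw [wgt_eq hM he hφ (proj_mem_nor hM he)
    (by rw [he.2.isIdempotentElem.eq, he.2.isIdempotentElem.eq]) (hasDens_unit hM he)
    (moves_proj hM he h), h, Complex.one_re]

variable {D : Gen M A e} (hD : DensGen φ D)
include hD

omit hφ in
lemma exists_dens_word : ∀ n f, ∃ ρ, HasDens A φ (D.word n f) ρ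
  | 0, _ => ⟨e, hasDens_unit hM he⟩
  | n + 1, f => by
    obtain ⟨ρ, hρ⟩ := hD (f 0)
    obtain ⟨σ, hσ⟩ := exists_dens_word n fun i => f i.succ
    exact ⟨_, hasDens_mul hM (D.g_mem _) (word_mem hM he D n _) hρ hσ⟩

omit hφ in
lemma exists_dens_star_word : ∀ n f, ∃ ρ, HasDens A φ (star (D.word n f)) ρ
  | 0, _ => ⟨e, by
    show HasDens A φ (star e) e
    rw [he.2.isSelfAdjoint.star_eq]; exact hasDens_unit hM he⟩
  | n + 1, f => by
    obtain ⟨j, hj⟩ := D.g_star (f 0)
    obtain ⟨ρ, hρ⟩ := hD j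
    obtain ⟨σ, hσ⟩ := exists_dens_star_word n fun i => f i.succ
    have := hasDens_mul hM (nor_star (word_mem hM he D n fun i => f i.succ)) (D.g_mem j) hσ hρ
    rw [hj, ← star_mul] at this
    exact ⟨_, this⟩

omit hφ in
lemma exists_dens_words (n : ℕ) (a) : ∃ ρ, HasDens A φ (words D n a) ρ := by
  refine Fin.cases ?_ (fun k => ?_) a
  · exact ⟨e, by simpa [words] using hasDens_unit hM he⟩
  · simpa [words] using exists_dens_word hM he hD n _

omit hφ in
lemma exists_dens_star_words (n : ℕ) (a) : ∃ ρ, HasDens A φ (star (words D n a)) ρ := by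
  refine Fin.cases ?_ (fun k => ?_) a
  · exact ⟨e, by simpa [words, he.2.isSelfAdjoint.star_eq] using hasDens_unit hM he⟩
  · simpa [words] using exists_dens_star_word hM he hD n _

lemma wgt_mul {m n : ℕ} {χ η ζ : Pt A} (h : D.Reaches m χ η) (h' : D.Reaches n η ζ) :
    wgt M A e φ χ ζ = wgt M A e φ χ η * wgt M A e φ η ζ := by
  obtain ⟨f, hf⟩ := h
  obtain ⟨g, hg⟩ := h'
  obtain ⟨σ, hσ⟩ := exists_dens_word hM he hD m f
  obtain ⟨ρ, hρ⟩ := exists_dens_word hM he hD n g
  have hu := word_mem hM he D m f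
  have hv := word_mem hM he D n g
  have hcu := word_corner D he m f
  have hcv := word_corner D he n g
  have hc : e * (D.word n g * D.word m f) * e = D.word n g * D.word m f :=
    (Cor.mul he.2 (⟨hv.1, hcv⟩ : Cor M e _) ⟨hu.1, hcu⟩).2
  rw [wgt_eq hM he hφ (nor_mul_mem hM hv hu) hc (hasDens_mul hM hv hu hρ hσ)
      (moves_mul hM hv hf hg),
    ev_mul χ hσ.1 (hu.2.2 ρ hρ.1).2, ← hf.2 ρ hρ.1, Complex.mul_re, hσ.im_zero χ, zero_mul,
    sub_zero, wgt_eq hM he hφ hu hcu hσ hf, wgt_eq hM he hφ hv hcv hρ hg]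

lemma wgt_nonneg {n : ℕ} {χ η : Pt A} (h : D.Reaches n χ η) : 0 ≤ wgt M A e φ χ η := by
  obtain ⟨f, hf⟩ := h
  obtain ⟨σ, hσ⟩ := exists_dens_word hM he hD n f
  rw [wgt_eq hM he hφ (word_mem hM he D n f) (word_corner D he n f) hσ hf]
  exact hσ.re_nonneg χ

lemma wgt_mul_symm {n : ℕ} {χ η : Pt A} (h : D.Reaches n χ η) :
    wgt M A e φ χ η * wgt M A e φ η χ = 1 := by
  rw [← wgt_mul hM he hφ hD h (reaches_symm hM he D h),
    wgt_self hM he hφ (reaches_ev hM he D h).1]

lemma wgt_pos {n : ℕ} {χ η : Pt A} (h : D.Reaches n χ η) : 0 < wgt M A e φ χ η :=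
  (wgt_nonneg hM he hφ hD h).lt_of_ne fun h0 => zero_ne_one (α := ℝ)
    (by rw [← wgt_mul_symm hM he hφ hD h, ← h0, zero_mul])

lemma exists_wgt_bound (n : ℕ) : ∃ B : ℝ, 1 ≤ B ∧ ∀ χ η, D.Reaches n χ η →
    wgt M A e φ χ η ≤ B ∧ B⁻¹ ≤ wgt M A e φ χ η := by
  choose ρ hρ using fun f => exists_dens_word hM he hD n f
  set B : ℝ := 1 + ∑ f, ‖ρ f‖ with hB
  have hB1 : 1 ≤ B := le_add_of_nonneg_right (Finset.sum_nonneg fun f _ => norm_nonneg _)
  have hle : ∀ χ η, D.Reaches n χ η → wgt M A e φ χ η ≤ B := by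
    rintro χ η ⟨f, hf⟩
    rw [wgt_eq hM he hφ (word_mem hM he D n f) (word_corner D he n f) (hρ f) hf]
    have h1 : (ev χ (ρ f)).re ≤ ‖ρ f‖ := by
      have h2 : ρ f ≤ ((‖ρ f‖ : ℂ)) • (1 : H →L[ℂ] H) := by
        rw [Complex.coe_smul, ← Algebra.algebraMap_eq_smul_one]
        exact (IsSelfAdjoint.of_nonneg (hρ f).2.1).le_algebraMap_norm_self
      have h3 := ev_mono χ (hρ f).1 (csmul_mem _ (one_mem A)) h2
      rwa [ev_smul χ _ (one_mem A), ev_one, mul_one, Complex.ofReal_re] at h3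
    have h2 : ‖ρ f‖ ≤ ∑ g, ‖ρ g‖ :=
      Finset.single_le_sum (fun g _ => norm_nonneg _) (Finset.mem_univ f)
    linarith
  refine ⟨B, hB1, fun χ η h => ⟨hle χ η h, ?_⟩⟩
  have hpos := wgt_pos hM he hφ hD h
  rw [inv_le_iff_one_le_mul₀ (lt_of_lt_of_le one_pos hB1), ← wgt_mul_symm hM he hφ hD h]
  exact mul_le_mul_of_nonneg_left (hle η χ (reaches_symm hM he D h)) hpos.le

omit hM he hφ hD in
/-- The module Weight. -/
theorem weight_ok : WeightStatement := by
  intro H _ _ _ M A e φ hM he hφ D hD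
  exact ⟨fun _ _ _ h => wgt_pos hM he hφ hD h, fun _ _ _ _ _ h h' => wgt_mul hM he hφ hD h h',
    fun n => exists_wgt_bound hM he hφ hD n, fun _ h => wgt_self hM he hφ h⟩

end Vale.Agent.P078.Twist
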