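import Vale.Agent.P078.MKS.Average

/-!
Finite lemmas for removing the twist: a lower moment is controlled by a higher one, the powers of
a matrix move little under a diagonal scaling close to one, and a large set of options as a tuple
of equally likely options with nearly uniform mean.
-/

namespace Vale.Agent.P078.Twist

open Finset MKS

variable {V : Type} [Fintype V] [DecidableEq V] {r : ℕ}

omit [DecidableEq V] in
/-- Every matrix is bounded. -/
lemma exists_opBound (X : Matrix V V ℂ) : ∃ c, 0 ≤ c ∧ OpBound X c := by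
  refine ⟨Real.sqrt (∑ a, ∑ b, ‖X a b‖ ^ 2), Real.sqrt_nonneg _, fun v => ?_⟩
  rw [Real.sq_sqrt (sum_nonneg fun a _ => sum_nonneg fun b _ => sq_nonneg _), sum_mul]
  refine sum_le_sum fun a _ => ?_
  refine (pow_le_pow_left₀ (norm_nonneg _) ?_ 2).trans (sum_mul_sq_le_sq_mul_sq _ _ _)
  refine (norm_sum_le _ _).trans (le_of_eq (sum_congr rfl fun b _ => ?_))
  rw [norm_mul]

/-- An even power is below a constant plus a multiple of a larger even power. -/
lemma pow_le_const_add {m N : ℕ} (hmN : m ≤ N) (hm : Even m) (hN : Even N) {s : ℝ} (hs : 0 < s)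
    (x : ℝ) : x ^ m ≤ s ^ m + x ^ N / s ^ (N - m) := by
  rcases le_total |x| s with h | h
  · rw [← hm.pow_abs]
    have h1 : |x| ^ m ≤ s ^ m := pow_le_pow_left₀ (abs_nonneg x) h m
    have h2 : 0 ≤ x ^ N / s ^ (N - m) := div_nonneg (hN.pow_nonneg x) (pow_nonneg hs.le _)
    linarith
  · have h1 : x ^ m ≤ x ^ N / s ^ (N - m) := by
      rw [le_div_iff₀ (pow_pos hs _), ← hm.pow_abs, ← hN.pow_abs]
      calc |x| ^ m * s ^ (N - m) ≤ |x| ^ m * |x| ^ (N - m) :=
            mul_le_mul_of_nonneg_left (pow_le_pow_left₀ hs.le h _) (by positivity)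
        _ = |x| ^ N := by rw [← pow_add, Nat.add_sub_cancel' hmN]
    linarith [pow_pos hs m]

/-- A lower even moment is controlled by a higher one. -/
lemma qmom_pow_le {X : Matrix V V ℂ} {p : V → Fin r → ℝ} (hX : X.IsHermitian) (hp : IsProb p)
    (k : V) {m N : ℕ} (hmN : m ≤ N) (hm : Even m) (hN : Even N) {s : ℝ} (hs : 0 < s) :
    qmom X p k (Polynomial.X ^ m) ≤ s ^ m + qmom X p k (Polynomial.X ^ N) / s ^ (N - m) := by
  obtain ⟨c, hc, hb⟩ := exists_opBound X
  rw [div_eq_inv_mul]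
  refine qmom_affine_le hX hp hc hb k _ _ _ _ fun z _ _ _ => ?_
  rw [Polynomial.eval_pow, Polynomial.eval_pow, Polynomial.eval_X, ← div_eq_inv_mul]
  exact pow_le_const_add hmN hm hN hs _

lemma qmom_X_pow (X : Matrix V V ℂ) (p : V → Fin r → ℝ) (k : V) (m : ℕ) :
    qmom X p k (Polynomial.X ^ m) = (mom X (cw p) k m).re := by
  rw [qmom, Polynomial.natDegree_X_pow]
  simp [Polynomial.coeff_X_pow]

section Rows

variable {B ε : ℝ} {X Y : Matrix V V ℂ}

omit [DecidableEq V] in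
lemma row_mul_le (hX : ∀ u, ∑ v, ‖X u v‖ ≤ B) {C : ℝ} (hC : 0 ≤ C) (hY : ∀ u, ∑ v, ‖Y u v‖ ≤ C)
    (u : V) : ∑ v, ‖(X * Y) u v‖ ≤ B * C := by
  calc ∑ v, ‖(X * Y) u v‖ ≤ ∑ v, ∑ w, ‖X u w‖ * ‖Y w v‖ :=
        sum_le_sum fun v _ => (norm_sum_le _ _).trans (le_of_eq (sum_congr rfl fun w _ => norm_mul _ _))
    _ = ∑ w, ‖X u w‖ * ∑ v, ‖Y w v‖ := by rw [sum_comm]; simp only [mul_sum]
    _ ≤ ∑ w, ‖X u w‖ * C := sum_le_sum fun w _ => mul_le_mul_of_nonneg_left (hY w) (norm_nonneg _)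
    _ ≤ B * C := by rw [← sum_mul]; exact mul_le_mul_of_nonneg_right (hX u) hC

lemma row_pow_le (hB : 0 ≤ B) (hX : ∀ u, ∑ v, ‖X u v‖ ≤ B) :
    ∀ (j : ℕ) (u : V), ∑ v, ‖(X ^ j) u v‖ ≤ B ^ j := by
  intro j
  induction j with
  | zero => intro u; simp [Matrix.one_apply, apply_ite norm]
  | succ j ih =>
    intro u
    rw [pow_succ', pow_succ']
    exact row_mul_le hX (pow_nonneg hB j) ih u

lemma row_pow_sub_le (hB : 0 ≤ B) (hε : 0 ≤ ε) (hX : ∀ u, ∑ v, ‖X u v‖ ≤ B)
    (hY : ∀ u, ∑ v, ‖Y u v‖ ≤ B) (h : ∀ u, ∑ v, ‖Y u v - X u v‖ ≤ ε) :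
    ∀ (j : ℕ) (u : V), ∑ v, ‖(Y ^ (j + 1) - X ^ (j + 1)) u v‖ ≤ (j + 1) * ε * B ^ j := by
  intro j
  induction j with
  | zero => intro u; simpa using h u
  | succ j ih =>
    intro u
    have e : Y ^ (j + 1 + 1) - X ^ (j + 1 + 1) =
        Y * (Y ^ (j + 1) - X ^ (j + 1)) + (Y - X) * X ^ (j + 1) := by
      rw [pow_succ' Y (j + 1), pow_succ' X (j + 1), mul_sub, sub_mul]; abel
    rw [e]
    have h1 := row_mul_le hY (mul_nonneg (mul_nonneg (by positivity) hε) (pow_nonneg hB j)) ih u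
    have h2 := row_mul_le (X := Y - X) (B := ε) h (pow_nonneg hB (j + 1)) (row_pow_le hB hX (j + 1)) u
    calc ∑ v, ‖(Y * (Y ^ (j + 1) - X ^ (j + 1)) + (Y - X) * X ^ (j + 1)) u v‖
        ≤ ∑ v, ‖(Y * (Y ^ (j + 1) - X ^ (j + 1))) u v‖ +
            ∑ v, ‖((Y - X) * X ^ (j + 1)) u v‖ := by
          rw [← sum_add_distrib]; exact sum_le_sum fun v _ => norm_add_le _ _
      _ ≤ B * ((j + 1) * ε * B ^ j) + ε * B ^ (j + 1) := add_le_add h1 h2
      _ = ((j + 1 : ℕ) + 1) * ε * B ^ (j + 1) := by push_cast; ring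

/-- The powers of a matrix move little under a diagonal scaling close to one. -/
lemma pow_scaling_le (hB : 0 ≤ B) (hX : ∀ u, ∑ v, ‖X u v‖ ≤ B) (t : V → ℝ) {θ : ℝ} (hθ : 0 ≤ θ)
    (ht : ∀ u v, |t u * t v - 1| ≤ θ) (j : ℕ) (u v : V) :
    ‖((Matrix.of fun a b => (t a : ℂ) * X a b * (t b : ℂ) : Matrix V V ℂ) ^ j) u v -
        (X ^ j) u v‖ ≤ j * θ * ((1 + θ) * B) ^ j := by
  cases j with
  | zero => simp
  | succ j =>
    set Y : Matrix V V ℂ := Matrix.of fun a b => (t a : ℂ) * X a b * (t b : ℂ) with hYdef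
    have hdiff : ∀ a b, ‖Y a b - X a b‖ ≤ θ * ‖X a b‖ := fun a b => by
      have : Y a b - X a b = ((t a * t b - 1 : ℝ) : ℂ) * X a b := by
        simp only [hYdef, Matrix.of_apply]; push_cast; ring
      rw [this, norm_mul, Complex.norm_real, Real.norm_eq_abs]
      exact mul_le_mul_of_nonneg_right (ht a b) (norm_nonneg _)
    have hY : ∀ a, ∑ b, ‖Y a b‖ ≤ (1 + θ) * B := fun a => by
      calc ∑ b, ‖Y a b‖ ≤ ∑ b, (1 + θ) * ‖X a b‖ := sum_le_sum fun b _ => by
            have := norm_le_norm_add_norm_sub' (Y a b) (X a b)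
            linarith [hdiff a b]
        _ ≤ (1 + θ) * B := by
            rw [← mul_sum]; exact mul_le_mul_of_nonneg_left (hX a) (by linarith)
    have hX' : ∀ a, ∑ b, ‖X a b‖ ≤ (1 + θ) * B := fun a => (hX a).trans (by nlinarith)
    have h := row_pow_sub_le (mul_nonneg (by linarith) hB) (mul_nonneg hθ hB) hX' hY
      (fun a => (sum_le_sum fun b _ => hdiff a b).trans
        (by rw [← mul_sum]; exact mul_le_mul_of_nonneg_left (hX a) hθ)) j u
    refine le_trans ?_ (h.trans ?_)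
    · exact single_le_sum (f := fun b => ‖(Y ^ (j + 1) - X ^ (j + 1)) u b‖)
        (fun b _ => norm_nonneg _) (mem_univ v)
    · rw [pow_succ ((1 + θ) * B) j]
      push_cast
      have h0 : 0 ≤ (↑j + 1) * θ * ((1 + θ) * B) ^ j := by positivity
      calc (↑j + 1) * (θ * B) * ((1 + θ) * B) ^ j = (↑j + 1) * θ * ((1 + θ) * B) ^ j * B := by ring
        _ ≤ (↑j + 1) * θ * ((1 + θ) * B) ^ j * ((1 + θ) * B) :=
            mul_le_mul_of_nonneg_left (by nlinarith) h0
        _ = _ := by ring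

end Rows

/-- At least half of the colours as `r (r + 1)` equally likely options of which each colour takes
at most `2 (r + 1)`. -/
lemma exists_cycle {G : Finset (Fin r)} (hG : r ≤ 2 * G.card) (hr : 0 < r) :
    ∃ f : Fin (r * (r + 1)) → Fin r, (∀ l, f l ∈ G) ∧
      ∀ s, ({l | f l = s} : Finset (Fin (r * (r + 1)))).card ≤ 2 * (r + 1) := by
  classical
  have hg : 0 < G.card := by omega
  let f : Fin (r * (r + 1)) → Fin r := fun l =>
    G.equivFin.symm ⟨(l : ℕ) % G.card, Nat.mod_lt _ hg⟩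
  refine ⟨f, fun l => (G.equivFin.symm _).2, fun s => ?_⟩
  have hlt : ∀ l : Fin (r * (r + 1)), (l : ℕ) / G.card < 2 * (r + 1) := fun l => by
    rw [Nat.div_lt_iff_lt_mul hg]
    have := l.2
    nlinarith
  refine (card_le_card_of_injOn (t := range (2 * (r + 1)))
    (fun l : Fin (r * (r + 1)) => (l : ℕ) / G.card)
    (fun l _ => mem_range.2 (hlt l)) fun a ha b hb hab => ?_).trans_eq (card_range _)
  simp only [coe_filter, mem_univ, true_and, Set.mem_ofPred_eq] at ha hb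
  have hmod : (a : ℕ) % G.card = (b : ℕ) % G.card := by
    have := G.equivFin.symm.injective (Subtype.ext (ha.trans hb.symm))
    simpa using congrArg Fin.val this
  refine Fin.ext ?_
  rw [← Nat.div_add_mod (a : ℕ) G.card, ← Nat.div_add_mod (b : ℕ) G.card, hmod,
    show (a : ℕ) / G.card = (b : ℕ) / G.card from hab]

end Vale.Agent.P078.Twist
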