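import Vale.Agent.P078.Twist.Defs
import Vale.Agent.P078.Twist.Untwist
import Vale.Agent.P078.MKS.Pass

/-!
Twisted windows: locality, the power sums of the roots, and the change of the weighted potential
when the state changes at one point.
-/

namespace Vale.Agent.P078.Twist

open MKS MKS.Op Singular
open scoped Classical

variable {H : Type} [NormedAddCommGroup H] [InnerProductSpace ℂ H] [CompleteSpace H]
  {M A : VonNeumannAlgebra H} {e : H →L[ℂ] H} {φ : (H →L[ℂ] H) →ₗ[ℂ] ℂ} {f : ℝ → ℝ} {r : ℕ}
  {D : Gen M A e} {χ : Pt A} {U : Finset (Pt A)} {R : Pt A → (H →L[ℂ] H)}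

lemma tmat_apply (S : St A r) (u v : U) :
    tmat φ f D χ U R S u v =
      (f (wgt M A e φ χ u) : ℂ) * wsc 1 D.a D.g χ U R S u v * (f (wgt M A e φ χ v) : ℂ) := rfl

lemma tmat_diag_zero {S : St A r} {u : U} (h : wsc 1 D.a D.g χ U R S u u = 0) :
    tmat φ f D χ U R S u u = 0 := by
  rw [tmat_apply, h, mul_zero, zero_mul]

lemma tmom_congr_fun {p : ℕ} {S S' : St A r} (h : ∀ v : U, S' v = S v) (u : U) :
    tmom φ f D χ U R S' p u = tmom φ f D χ U R S p u := by
  have h1 : Op.wt S' U = Op.wt S U := funext fun v => by simp only [Op.wt, h v]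
  have h2 : tmat φ f D χ U R S' = tmat φ f D χ U R S := by
    ext v w
    simp only [tmat_apply, wsc, Matrix.of_apply, h v, h w]
  rw [tmom, tmom, h1, h2]

variable (hM : IsMASA M A) (he : IsPr A e) (hR : IsFrame M e χ U R)
include hM he hR

lemma tmat_hermitian (hsa : IsSelfAdjoint D.op) (S : St A r) :
    (tmat φ f D χ U R S).IsHermitian := by
  refine Matrix.IsHermitian.ext fun u v => ?_
  simp only [tmat_apply, star_mul', Complex.star_def, Complex.conj_ofReal]
  rw [← (wsc_hermitian hM he D hR hsa (S := S) (σ := 1) (.inl rfl)).apply u v, Complex.star_def]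
  ring

/-- A twisted moment at a vertex depends on the state at the points reached from it only. -/
lemma tmom_congr {p : ℕ} {S S' : St A r} (hS : ∀ χ, Ok (S χ)) (hS' : ∀ χ, Ok (S' χ)) (u : U)
    (h : ∀ v : U, D.Reaches p u v → S' v = S v) :
    tmom φ f D χ U R S' p u = tmom φ f D χ U R S p u := by
  let W : Type := {v : U // D.Reaches p (u : Pt A) (v : Pt A)}
  let u₀ : W := ⟨u, reaches_self hM he D (hR u u.2).2.2 p⟩
  have key : ∀ T : St A r, (∀ χ, Ok (T χ)) →
      mom (tmat φ f D χ U R T) (cw (Op.wt T U)) u p =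
        mom ((tmat φ f D χ U R T).submatrix (Subtype.val : W → U) Subtype.val)
          (cw (Op.wt T U ∘ (Subtype.val : W → U))) u₀ p := fun T hT =>
    (moment_ok U r _ (Op.wt T U) (isProb_wt hT U)).2.2.1 W (Subtype.val : W → U)
      Subtype.val_injective u₀ p fun v hv => ⟨⟨v, reach_le_reaches hM he D hR u p v
        (Moments.reach_of_le _ _ u (fun a b hab h0 => hab (by
          rw [tmat_apply]
          show _ * (1 * (((T a).2 : ℂ) * coef D.a D.g χ R a b * ((T b).2 : ℂ))) * _ = 0
          rw [show coef D.a D.g χ R a b = 0 from h0]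
          simp)) p hv)⟩, rfl⟩
  rw [tmom, tmom, key S' hS', key S hS]
  refine congrArg Complex.re ?_
  congr 1
  · ext a b
    simp only [Matrix.submatrix_apply, tmat_apply, wsc, Matrix.of_apply, h a.1 a.2, h b.1 b.2]
  · funext a s
    simp only [cw, Function.comp_apply, Op.wt, h a.1 a.2]

/-- The twisted moments add up to the power sum of the roots. -/
lemma sum_tmom (hsa : IsSelfAdjoint D.op) {S : St A r} (hS : ∀ χ, Ok (S χ)) (p : ℕ) :
    ∑ u, tmom φ f D χ U R S p u =
      rootSum (fun x => x ^ p) (charMix (tmat φ f D χ U R S) (Op.wt S U) Finset.univ) := by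
  obtain ⟨c, hc, hb⟩ := exists_opBound (tmat φ f D χ U R S)
  have h := sum_qmom (tmat_hermitian hM he hR hsa S) (isProb_wt hS U) hc hb (Polynomial.X ^ p)
  simp only [qmom_X_pow, Polynomial.eval_pow, Polynomial.eval_X] at h
  exact h

omit hR

/-- The potential at a point depends on the state in its ball only. -/
lemma tpot_congr {p : ℕ} {S S' : St A r} (hS : ∀ χ, Ok (S χ)) (hS' : ∀ χ, Ok (S' χ)) {η : Pt A}
    (h : ∀ ζ, D.Reaches p η ζ → S' ζ = S ζ) : tpot φ f D p S' η = tpot φ f D p S η := by
  rw [tpot, tpot]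
  split_ifs with hmem
  · exact tmom_congr hM he (frame_ball hM he D η p) hS hS' ⟨η, hmem⟩ fun v hv => h v hv
  · rfl

/-- States differing at one point differ in the window sums by the weighted change of the potential
on the ball of the point. -/
lemma twindow_diff (hHom : HomogStatement) (hφ : State.IsState M A e φ) (hD : DensGen φ D) {p : ℕ}
    (hp : 0 < p) {S S' : St A r} (hS : ∀ χ, Ok (S χ)) (hS' : ∀ χ, Ok (S' χ)) {c : Pt A}
    (h : ∀ η, D.Reaches (2 * p) c η → η ≠ c → S' η = S η) :
    ∑ u, tmom φ (rt p) D c (D.ball c (2 * p)) (rep M c) S' p u -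
        ∑ u, tmom φ (rt p) D c (D.ball c (2 * p)) (rep M c) S p u =
      ∑ η ∈ D.ball c p, wgt M A e φ c η * (tpot φ (rt p) D p S' η - tpot φ (rt p) D p S η) := by
  set V := D.ball c (2 * p)
  have hR := frame_ball hM he D c (2 * p)
  have hin : ∀ η, D.Reaches p c η → η ∈ V := fun η hη =>
    (mem_ball D).2 (reaches_mono hM he D (by omega) hη)
  rw [← Finset.sum_sub_distrib]
  have hterm : ∀ u : V, tmom φ (rt p) D c V (rep M c) S' p u - tmom φ (rt p) D c V (rep M c) S p u =
      if D.Reaches p c (u : Pt A) then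
        wgt M A e φ c u * (tpot φ (rt p) D p S' u - tpot φ (rt p) D p S u) else 0 := by
    intro u
    split_ifs with hu
    · have hball : ∀ ζ, D.Reaches p (u : Pt A) ζ → ζ ∈ V := fun ζ hζ =>
        (mem_ball D).2 (by rw [two_mul]; exact reaches_trans hM he D hu hζ)
      rw [hHom H M A e φ hM he hφ D hD p r hp S' hS' c (2 * p) u hball,
        hHom H M A e φ hM he hφ D hD p r hp S hS c (2 * p) u hball, mul_sub]
    · rw [tmom_congr hM he hR hS hS' u fun v hv =>
        h v ((mem_ball D).1 v.2) fun hvc => hu (reaches_symm hM he D (hvc ▸ hv)), sub_self]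
  rw [Finset.sum_congr rfl fun u _ => hterm u, Finset.sum_coe_sort V fun η =>
      if D.Reaches p c η then wgt M A e φ c η * (tpot φ (rt p) D p S' η - tpot φ (rt p) D p S η)
      else 0, ← Finset.sum_filter]
  refine Finset.sum_congr (Finset.ext fun η => ?_) fun _ _ => rfl
  rw [Finset.mem_filter, mem_ball D (n := p)]
  exact ⟨fun h => h.2, fun h => ⟨hin η h, h⟩⟩

end Vale.Agent.P078.Twist
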