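import Vale.Agent.P078.MKS.RepPot
import Vale.Agent.P078.Twist.RepCont
import Vale.Agent.P078.Twist.Weight
import Vale.Agent.P078.Twist.Window

/-!
Twisted potentials are represented in the algebra: the window of every point is cut out of one
matrix of functions indexed by the words, the weights being read from the densities of the words.
-/

namespace Vale.Agent.P078.Twist

open MKS MKS.Op Singular
open scoped Classical

variable {H : Type} [NormedAddCommGroup H] [InnerProductSpace ℂ H] [CompleteSpace H]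
  {M A : VonNeumannAlgebra H} {e : H →L[ℂ] H}

lemma words_corner (he : IsPr A e) (D : Gen M A e) (n : ℕ) (a) :
    e * words D n a * e = words D n a := by
  refine Fin.cases ?_ (fun k => ?_) a
  · simp [words, he.2.isIdempotentElem.eq]
  · simpa [words] using word_corner D he n _

/-- A twisted moment does not depend on the frame. -/
lemma tmom_frame (hM : IsMASA M A) (he : IsPr A e) {φ : (H →L[ℂ] H) →ₗ[ℂ] ℂ} {f : ℝ → ℝ} {r p : ℕ}
    (D : Gen M A e) {χ : Pt A} {U : Finset (Pt A)} {R R' : Pt A → (H →L[ℂ] H)}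
    (hR : IsFrame M e χ U R) (hR' : IsFrame M e χ U R') (hχ : ev χ e = 1) (S : St A r) (u : U) :
    tmom φ f D χ U R' S p u = tmom φ f D χ U R S p u := by
  obtain ⟨lam, hlam, hcoef⟩ := coef_gauge hM D.g_mem (a := D.a) hR hR' (Finset.Subset.refl U)
    (proj_mem_nor hM he) (moves_proj hM he hχ)
  have h : tmat φ f D χ U R' S =
      Matrix.of fun a b : U => star (lam a) * tmat φ f D χ U R S a b * lam b := by
    ext a b
    simp only [tmat_apply, wsc, Matrix.of_apply, hcoef a a.2 b b.2]
    ring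
  rw [tmom, tmom, h, mom_gauge _ _ (fun a : U => lam a) fun a => hlam a a.2]

/-- The module RepPot of the twisted potentials. -/
theorem rep_pot_ok : RepPotStatement := by
  intro H _ _ _ M A e φ hM he hφ D hD f hf n r hr S hS
  let T := Fin (Fintype.card (Fin n → Fin D.N) + 1)
  let W : T → (H →L[ℂ] H) := words D n
  have hn : ∀ a, W a ∈ normaliser M A := words_nor hM he D n
  choose π hπ hπ' using hS.2.1
  obtain ⟨δ, hδ, hδ'⟩ := hS.2.2
  choose ρ hρ using fun a : T => exists_dens_words hM he hD n a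
  obtain ⟨B, hB, hwB⟩ := exists_wgt_bound hM he hφ hD n
  let g : ℝ → ℝ := fun x => f (max x B⁻¹)
  have hg : Continuous g := hf.comp_continuous (continuous_id.max continuous_const) fun x =>
    lt_of_lt_of_le (inv_pos.2 (zero_lt_one.trans_le hB)) (le_max_right _ _)
  let x : T → Fin r → (Pt A → ℂ) := fun a s χ => ev χ (star (W a) * π s * W a)
  let pw : T → Fin r → (Pt A → ℂ) := fun a s => x a s + (fun _ => (r : ℂ)⁻¹) * (1 - ∑ t, x a t)
  let sc : T → (Pt A → ℂ) := fun a χ => ev χ (star (W a) * δ * W a)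
  let sf : T → (Pt A → ℂ) := fun a χ => (g (ev χ (ρ a)).re : ℂ)
  let cf : T → T → (Pt A → ℂ) := fun a b =>
    ∑ i, (fun χ : Pt A => ev χ (star (W a) * D.a i * W a)) *
      fun χ : Pt A => val χ (star (W a) * D.g i * W b)
  let X : Matrix T T (Pt A → ℂ) := Matrix.of fun a b =>
    sel D n a * sel D n b * (sf a * (sc a * cf a b * sc b) * sf b)
  have hx : ∀ a s, x a s ∈ Rep A e := fun a s => rep_conj_ev (hn a) (hπ s)
  have hpw : ∀ a s, pw a s ∈ Rep A e := fun a s =>
    add_mem (hx a s) (mul_mem (rep_const _) (sub_mem (one_mem _) (sum_mem fun t _ => hx a t)))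
  have hsf : ∀ a, sf a ∈ Rep A e := fun a =>
    rep_continuous_real hM (ι := Unit) (fun _ => rep_ev (hρ a).1) (F := fun z => g (z ()).re)
      (hg.comp (Complex.continuous_re.comp (continuous_apply ())))
  have hX : ∀ a b, X a b ∈ Rep A e := fun a b =>
    mul_mem (mul_mem (sel_mem hM he D n a) (sel_mem hM he D n b))
      (mul_mem (mul_mem (hsf a) (mul_mem (mul_mem (rep_conj_ev (hn a) hδ) (sum_mem fun i _ =>
        mul_mem (rep_conj_ev (hn a) (D.a_mem i))
          (rep_val hM (nor_mul_mem hM (nor_mul_mem hM (nor_star (hn a)) (D.g_mem i)) (hn b)))))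
        (rep_conj_ev (hn b) hδ))) (hsf b))
  have hsum : ∀ a, ∑ s, pw a s = 1 := fun a => by
    funext χ
    have hrne : (r : ℂ) ≠ 0 := Nat.cast_ne_zero.2 hr.ne'
    simp only [pw, Finset.sum_apply, Pi.add_apply, Pi.mul_apply, Pi.sub_apply, Pi.one_apply,
      Finset.sum_add_distrib, Finset.sum_const, Finset.card_univ, Fintype.card_fin, nsmul_eq_mul]
    field_simp
    ring
  have hmom : mom X pw 0 n ∈ Rep A e := by
    let X' : Matrix T T (Rep A e) := Matrix.of fun a b => ⟨X a b, hX a b⟩
    let pw' : T → Fin r → Rep A e := fun a s => ⟨pw a s, hpw a s⟩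
    have hsum' : ∀ a, ∑ s, pw' a s = 1 := fun a => Subtype.ext (by
      rw [AddSubmonoidClass.coe_finsetSum]
      exact hsum a)
    have h : X'.map (Rep A e).subtype = X := rfl
    have h2 : (fun a s => (Rep A e).subtype (pw' a s)) = pw := rfl
    rw [← h, ← h2, ← Moments.map_mom (Rep A e).subtype X' pw' hsum' 0 n]
    exact (mom X' pw' 0 n).2
  obtain ⟨c, hc, hc'⟩ := rep_re hmom
  refine ⟨c, hc, fun χ hχ => ?_⟩
  rw [← hc' χ hχ]
  -- the weights and the frame at `χ`
  let pR : T → Fin r → ℝ := fun a s =>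
    if h : ∃ η, Moves (W a) χ η then (S h.choose).1 s else (r : ℝ)⁻¹
  have hpR : IsProb pR := fun a => by
    by_cases h : ∃ η, Moves (W a) χ η
    · simp only [pR, dif_pos h]
      exact (hS.1 h.choose).1
    · simp only [pR, dif_neg h]
      exact ⟨fun _ => by positivity, by simp [hr.ne']⟩
  have hend : ∀ a η, Moves (W a) χ η → ev η e = 1 := fun a η h =>
    (reaches_ev hM he D (words_reach hM he D n a h)).2
  have hpval : ∀ a s, pw a s χ = (pR a s : ℂ) := fun a s => by
    simp only [pw, x, pR, Pi.add_apply, Pi.mul_apply, Pi.sub_apply, Pi.one_apply,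
      Finset.sum_apply]
    by_cases h : ∃ η, Moves (W a) χ η
    · have hη := h.choose_spec
      rw [dif_pos h]
      have e1 : ∀ t, ev χ (star (W a) * π t * W a) = ((S h.choose).1 t : ℂ) := fun t => by
        rw [← hη.2 _ (hπ t), ← hπ' t h.choose (hend a _ hη)]
      simp only [e1, ← Complex.ofReal_sum, (hS.1 h.choose).1.2, Complex.ofReal_one, sub_self,
        mul_zero, add_zero]
    · rw [dif_neg h]
      have h0 : ev χ (star (W a) * W a) = 0 :=
        (ev_proj χ (nor_dom (hn a))).resolve_right fun h1 => h (exists_moves hM (hn a) h1)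
      simp [conj_of_not_dom (hn a) (hπ _) h0]
  let U := D.ball χ n
  choose pick hpick hmin using fun η : U => exists_pick D n ((mem_ball D).1 η.2)
  let R : Pt A → (H →L[ℂ] H) := fun η => if h : η ∈ U then W (pick ⟨η, h⟩) else 0
  have hRu : ∀ u : U, R u = W (pick u) := fun u => dif_pos u.2
  have hR : IsFrame M e χ U R := fun η hη => by
    rw [hRu ⟨η, hη⟩]
    exact ⟨hn _, hpick ⟨η, hη⟩, (reaches_ev hM he D ((mem_ball D).1 hη)).2⟩
  have hmem : χ ∈ U := (mem_ball D).2 (reaches_self hM he D hχ n)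
  show ((tpot φ f D n S χ : ℝ) : ℂ) = _
  rw [tpot, dif_pos (show χ ∈ D.ball χ n from hmem),
    tmom_frame hM he D hR (frame_ball hM he D χ n) hχ S]
  have hinj : Function.Injective pick := fun u v huv =>
    Subtype.ext (moves_unique (hpick u) (huv ▸ hpick v))
  have hpick0 : pick ⟨χ, hmem⟩ = 0 := by
    refine le_antisymm (not_lt.1 fun hlt => ?_) (Fin.zero_le _)
    exact hmin ⟨χ, hmem⟩ 0 hlt (words_zero hM he D n hχ)
  have hsel : ∀ u : U, sel D n (pick u) χ = 1 := fun u => by
    rw [sel_eq hM he D n (pick u) χ, if_pos ⟨u, hpick u, hmin u⟩]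
  have hrange : ∀ a : T, sel D n a χ ≠ 0 → a ∈ Set.range pick := fun a ha => by
    rw [sel_eq hM he D n a χ] at ha
    split_ifs at ha with h
    · obtain ⟨η, hη, hη'⟩ := h
      refine ⟨⟨η, (mem_ball D).2 (words_reach hM he D n a hη)⟩, ?_⟩
      rcases lt_trichotomy (pick ⟨η, (mem_ball D).2 (words_reach hM he D n a hη)⟩) a with
        hlt | heq | hgt
      · exact absurd (hpick _) (hη' _ hlt)
      · exact heq
      · exact absurd hη (hmin _ a hgt)
    · exact absurd rfl ha
  have hwf : ∀ u : U, g (ev χ (ρ (pick u))).re = f (wgt M A e φ χ u) := fun u => by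
    rw [← wgt_eq hM he hφ (hn _) (words_corner he D n _) (hρ _) (hpick u)]
    show f (max _ _) = _
    rw [max_eq_left (hwB χ u ((mem_ball D).1 u.2)).2]
  set Xv : Matrix T T ℂ := X.map (Pi.evalRingHom (fun _ => ℂ) χ) with hXv
  have hreach : ∀ i, reach Xv 0 i ⊆ Set.range pick := by
    intro i
    induction i with
    | zero => rintro v rfl; exact ⟨_, hpick0⟩
    | succ i ih =>
      rintro v (hv | ⟨a, -, hav⟩)
      · exact ih hv
      have hentry : ∀ a b, Xv a b ≠ 0 → sel D n a χ ≠ 0 ∧ sel D n b χ ≠ 0 := fun a b h => by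
        constructor <;> intro h0 <;> exact h (by simp [hXv, X, h0])
      rcases hav with h | h
      exacts [hrange v (hentry _ _ h).2, hrange v (hentry _ _ h).1]
  have hsub : Xv.submatrix pick pick = tmat φ f D χ U R S := by
    ext u v
    have hd : ∀ w : U, ev χ (star (W (pick w)) * δ * W (pick w)) = ((S w).2 : ℂ) := fun w => by
      rw [← (hpick w).2 δ hδ, ← hδ' w (hend _ _ (hpick w))]
    have ha : ∀ i, ev χ (star (W (pick u)) * D.a i * W (pick u)) = ev (u : Pt A) (D.a i) :=
      fun i => ((hpick u).2 _ (D.a_mem i)).symm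
    simp [hXv, X, sc, sf, cf, tmat_apply, wsc, coef, hsel, hd, ha, hRu, hwf, Finset.sum_apply]
  have hwt : pR ∘ pick = Op.wt S U := by
    funext u s
    have h : ∃ η, Moves (W (pick u)) χ η := ⟨u, hpick u⟩
    simp only [Function.comp_apply, pR, dif_pos h, Op.wt,
      moves_unique h.choose_spec (hpick u)]
  have hloc := (moment_ok T r Xv pR hpR).2.2.1 U pick hinj ⟨χ, hmem⟩ n
    (by rw [hpick0]; exact hreach n)
  rw [hsub, hwt, hpick0] at hloc
  rw [tmom, ← hloc, show cw pR = fun v i => (Pi.evalRingHom (fun _ => ℂ) χ) (pw v i) from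
    funext fun v => funext fun i => (hpval v i).symm,
    ← Moments.map_mom (Pi.evalRingHom (fun _ => ℂ) χ) X pw hsum 0 n]
  rfl

end Vale.Agent.P078.Twist
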