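import Mathlib

/-!
Klein's inequality for the traces of even powers of real symmetric matrices.
-/

namespace Vale.Agent.P078.Twist

open Matrix Finset

/-- The scalar inequality. -/
lemma pow_klein (x y : ℝ) : ∀ {q : ℕ}, 1 ≤ q →
    x ^ (2 * q) + (2 * q : ℕ) * x ^ (2 * q - 1) * (y - x) +
      (q : ℝ) * x ^ (2 * q - 2) * (y - x) ^ 2 ≤ y ^ (2 * q) := by
  intro q hq
  induction q, hq using Nat.le_induction with
  | base => norm_num; nlinarith [sq_nonneg (y - x)]
  | succ q hq ih =>
    obtain ⟨q, rfl⟩ : ∃ k, q = k + 1 := ⟨q - 1, by omega⟩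
    rw [show 2 * (q + 1 + 1) - 1 = 2 * q + 3 by omega,
      show 2 * (q + 1 + 1) - 2 = 2 * q + 2 by omega, show 2 * (q + 1 + 1) = 2 * q + 4 by omega]
    rw [show 2 * (q + 1) - 1 = 2 * q + 1 by omega, show 2 * (q + 1) - 2 = 2 * q by omega,
      show 2 * (q + 1) = 2 * q + 2 by omega] at ih
    have h1 := mul_le_mul_of_nonneg_left ih (sq_nonneg y)
    have h2 : 0 ≤ ((q : ℝ) + 1) * (x ^ q * (y - x) * (2 * x + (y - x))) ^ 2 := by positivity
    have e : ∀ z : ℝ, z ^ (2 * q) = (z ^ q) ^ 2 := fun z => by rw [← pow_mul, mul_comm]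
    simp only [pow_add, e, pow_one] at h1 ⊢
    push_cast at h1 ⊢
    nlinarith [h1, h2]

variable {n : Type} [Fintype n] [DecidableEq n]

/-- Klein's inequality for an even power. -/
theorem trace_pow_klein {X Y : Matrix n n ℝ} (hX : X.IsHermitian) (hY : Y.IsHermitian) {q : ℕ}
    (hq : 1 ≤ q) :
    (X ^ (2 * q)).trace + (2 * q : ℕ) * (X ^ (2 * q - 1) * (Y - X)).trace +
      (q : ℝ) * (X ^ (2 * q - 2) * ((Y - X) * (Y - X))).trace ≤ (Y ^ (2 * q)).trace ∧
    0 ≤ (X ^ (2 * q - 2) * ((Y - X) * (Y - X))).trace := by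
  set U : Matrix n n ℝ := (hX.eigenvectorUnitary : Matrix n n ℝ) with hUdef
  set V : Matrix n n ℝ := (hY.eigenvectorUnitary : Matrix n n ℝ) with hVdef
  set x := hX.eigenvalues
  set y := hY.eigenvalues
  have hXs : X = U * Matrix.diagonal x * star U := by
    conv_lhs => rw [hX.spectral_theorem]
    simp [U, x, Unitary.conjStarAlgAut_apply]
  have hYs : Y = V * Matrix.diagonal y * star V := by
    conv_lhs => rw [hY.spectral_theorem]
    simp [V, y, Unitary.conjStarAlgAut_apply]
  have hU : star U * U = 1 := Unitary.star_mul_self_of_mem hX.eigenvectorUnitary.2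
  have hU' : U * star U = 1 := Unitary.mul_star_self_of_mem hX.eigenvectorUnitary.2
  have hV : star V * V = 1 := Unitary.star_mul_self_of_mem hY.eigenvectorUnitary.2
  have hV' : V * star V = 1 := Unitary.mul_star_self_of_mem hY.eigenvectorUnitary.2
  have pow_conj : ∀ (W : Matrix n n ℝ) (d : n → ℝ), star W * W = 1 → W * star W = 1 → ∀ j : ℕ,
      (W * Matrix.diagonal d * star W) ^ j =
        W * Matrix.diagonal (fun a => d a ^ j) * star W := by
    intro W d h1 h2 j
    induction j with
    | zero => simp [h2]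
    | succ j ih =>
      have e : Matrix.diagonal (fun a => d a ^ (j + 1)) =
          Matrix.diagonal (fun a => d a ^ j) * Matrix.diagonal d := by
        rw [Matrix.diagonal_mul_diagonal]
        simp [pow_succ]
      rw [pow_succ, ih, e]
      calc W * Matrix.diagonal (fun a => d a ^ j) * star W * (W * Matrix.diagonal d * star W)
          = W * Matrix.diagonal (fun a => d a ^ j) * ((star W * W) * (Matrix.diagonal d * star W)) := by
            simp only [mul_assoc]
        _ = _ := by rw [h1, one_mul]; simp only [mul_assoc]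
  set W := star U * V with hW
  have hsum : ∀ a, ∑ b, W a b ^ 2 = 1 := fun a => by
    have : W * star W = 1 := by
      rw [hW, star_mul, star_star, mul_assoc, ← mul_assoc V, hV', one_mul, hU]
    have := congrFun (congrFun this a) a
    rw [Matrix.mul_apply, Matrix.one_apply_eq] at this
    simpa [Matrix.star_apply, sq] using this
  have key : ∀ i j : ℕ, (X ^ i * Y ^ j).trace = ∑ a, ∑ b, x a ^ i * y b ^ j * W a b ^ 2 := by
    intro i j
    rw [hXs, hYs, pow_conj U x hU hU', pow_conj V y hV hV']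
    have e : (U * Matrix.diagonal (fun a => x a ^ i) * star U *
        (V * Matrix.diagonal (fun a => y a ^ j) * star V)).trace =
        (Matrix.diagonal (fun a => x a ^ i) * W * Matrix.diagonal (fun a => y a ^ j) *
          star W).trace := by
      rw [mul_assoc U, mul_assoc U, Matrix.trace_mul_comm U, hW, star_mul, star_star]
      simp only [mul_assoc]
    rw [e, Matrix.trace]
    refine Finset.sum_congr rfl fun a _ => ?_
    rw [Matrix.diag_apply, Matrix.mul_apply]
    refine Finset.sum_congr rfl fun b _ => ?_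
    rw [Matrix.mul_diagonal, Matrix.diagonal_mul, Matrix.star_apply, star_trivial]
    ring
  have key0 : ∀ i : ℕ, (X ^ i).trace = ∑ a, ∑ b, x a ^ i * W a b ^ 2 := fun i => by
    simpa using key i 0
  have key' : ∀ j : ℕ, (Y ^ j).trace = ∑ a, ∑ b, y b ^ j * W a b ^ 2 := fun j => by
    simpa using key 0 j
  have e1 : (X ^ (2 * q - 1) * (Y - X)).trace =
      ∑ a, ∑ b, x a ^ (2 * q - 1) * (y b - x a) * W a b ^ 2 := by
    rw [mul_sub, Matrix.trace_sub, ← pow_succ, key0]
    have := key (2 * q - 1) 1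
    rw [pow_one] at this
    rw [this, ← Finset.sum_sub_distrib]
    refine Finset.sum_congr rfl fun a _ => ?_
    rw [← Finset.sum_sub_distrib]
    exact Finset.sum_congr rfl fun b _ => by ring
  have e2 : (X ^ (2 * q - 2) * ((Y - X) * (Y - X))).trace =
      ∑ a, ∑ b, x a ^ (2 * q - 2) * (y b - x a) ^ 2 * W a b ^ 2 := by
    set Z := X ^ (2 * q - 2) with hZ
    have hXY : (Z * (X * Y)).trace = ∑ a, ∑ b, x a ^ (2 * q - 1) * y b * W a b ^ 2 := by
      rw [hZ, ← mul_assoc, ← pow_succ, show 2 * q - 2 + 1 = 2 * q - 1 by omega]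
      simpa using key (2 * q - 1) 1
    have hYX : (Z * (Y * X)).trace = (Z * (X * Y)).trace := by
      rw [hZ, ← mul_assoc, Matrix.trace_mul_comm _ X, ← mul_assoc, ← pow_succ',
        ← mul_assoc, ← pow_succ]
    have hXX : (Z * (X * X)).trace = ∑ a, ∑ b, x a ^ (2 * q) * W a b ^ 2 := by
      rw [hZ, ← sq, ← pow_add, key0, show 2 * q - 2 + 2 = 2 * q by omega]
    have hYY : (Z * (Y * Y)).trace = ∑ a, ∑ b, x a ^ (2 * q - 2) * y b ^ 2 * W a b ^ 2 := by
      rw [← sq, hZ, key]
    simp only [sub_mul, mul_sub, Matrix.trace_sub, hYX, hXY, hXX, hYY, ← Finset.sum_sub_distrib]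
    refine Finset.sum_congr rfl fun a _ => Finset.sum_congr rfl fun b _ => ?_
    rw [show 2 * q = 2 * q - 2 + 2 by omega, show 2 * q - 2 + 2 - 1 = 2 * q - 2 + 1 by omega,
      show 2 * q - 2 + 2 - 2 = 2 * q - 2 by omega, pow_add, pow_add]
    ring
  refine ⟨?_, ?_⟩
  · rw [e1, e2, key0, key', Finset.mul_sum, Finset.mul_sum, ← Finset.sum_add_distrib,
      ← Finset.sum_add_distrib]
    refine Finset.sum_le_sum fun a _ => ?_
    rw [Finset.mul_sum, Finset.mul_sum, ← Finset.sum_add_distrib, ← Finset.sum_add_distrib]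
    refine Finset.sum_le_sum fun b _ => ?_
    have := mul_le_mul_of_nonneg_right (pow_klein (x a) (y b) hq) (sq_nonneg (W a b))
    linarith
  · rw [e2]
    exact Finset.sum_nonneg fun a _ => Finset.sum_nonneg fun b _ => mul_nonneg
      (mul_nonneg (Even.pow_nonneg ⟨q - 1, by omega⟩ _) (sq_nonneg _)) (sq_nonneg _)

end Vale.Agent.P078.Twist
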