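import Vale.Agent.P078.Twist.ArrowTrace
import Vale.Agent.P078.Twist.Klein

/-!
One linear functional of the weights of an arrow matrix is bounded whenever the gain is bounded,
and bounds the gain.
-/

namespace Vale.Agent.P078.Twist.Arrow

open Matrix Finset

variable {ι : Type} [Fintype ι] [DecidableEq ι]

/-- The shafts inside the top scale. -/
def lo (lam : ι → ℝ) (p : ℕ) (z : ℝ) (a : ι) : Prop := |lam a| ≤ z * (1 - 4 / p)

open scoped Classical in
/-- The coefficient of the linear functional. -/
noncomputable def coefJ (lam : ι → ℝ) (p : ℕ) (z : ℝ) (a : ι) : ℝ :=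
  (if lo lam p z a then 1 / (z * (z - |lam a|)) else 0) + (p : ℝ) * lam a ^ (p - 2) / z ^ p

/-- The linear functional. -/
noncomputable def funJ (lam : ι → ℝ) (p : ℕ) (z : ℝ) (m : ι → ℝ) : ℝ :=
  ∑ a, coefJ lam p z a * m a

variable {lam b : ι → ℝ} {p : ℕ} {z : ℝ}

omit [DecidableEq ι] [Fintype ι] in
lemma lo_lt (hz : 0 < z) (hp : 8 ≤ p) {a : ι} (h : lo lam p z a) : |lam a| < z := by
  have : (0 : ℝ) < 4 / p := by
    have : (8 : ℝ) ≤ p := by exact_mod_cast hp
    positivity
  unfold lo at h
  nlinarith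

omit [DecidableEq ι] [Fintype ι] in
lemma coefJ_nonneg (hz : 0 < z) (hp : 8 ≤ p) (hev : Even p) (a : ι) : 0 ≤ coefJ lam p z a := by
  have h2 : 0 ≤ lam a ^ (p - 2) := Even.pow_nonneg (by grind) _
  unfold coefJ
  split_ifs with h
  · have := lo_lt hz hp h
    have : 0 < z - |lam a| := by linarith
    positivity
  · positivity

lemma gain_mono_klein (hp : 2 ≤ p) (hev : Even p) (c c' : ι → ℝ) :
    (arr lam c ^ p).trace + (p : ℝ) * (arr lam c ^ (p - 1) * (arr lam c' - arr lam c)).trace +
      ((p : ℝ) / 2) * (arr lam c ^ (p - 2) *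
        ((arr lam c' - arr lam c) * (arr lam c' - arr lam c))).trace ≤ (arr lam c' ^ p).trace ∧
    0 ≤ (arr lam c ^ (p - 2) *
        ((arr lam c' - arr lam c) * (arr lam c' - arr lam c))).trace := by
  obtain ⟨q, rfl⟩ := hev
  have h := trace_pow_klein (arr_symm lam c : (arr lam c).transpose = arr lam c)
    (arr_symm lam c' : (arr lam c').transpose = arr lam c') (q := q) (by omega)
  rw [← two_mul]
  push_cast at h ⊢
  rw [show (2 * (q : ℝ)) / 2 = q by ring]
  exact h

lemma arr_add (lam c c' : ι → ℝ) :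
    arr lam c' - arr lam c = arr (0 : ι → ℝ) (c' - c) := by
  ext x y
  rcases x with x | x <;> rcases y with y | y <;>
    simp [arr, Matrix.diagonal_apply]

lemma trace_pow_head (lam c d : ι → ℝ) (n : ℕ) :
    (arr lam c ^ n * arr 0 d).trace =
      2 * ∑ a, d a * (c a * ∑ l ∈ range n, lam a ^ (n - 1 - l) * top lam c l) := by
  rw [Matrix.trace, Fintype.sum_sum_type, Finset.univ_unique, Finset.sum_singleton]
  simp only [Matrix.diag_apply, Matrix.mul_apply, Fintype.sum_sum_type, Finset.univ_unique,
    Finset.sum_singleton]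
  simp only [arr, Matrix.fromBlocks_apply₁₁, Matrix.fromBlocks_apply₁₂, Matrix.fromBlocks_apply₂₁,
    Matrix.fromBlocks_apply₂₂, Matrix.zero_apply, mul_zero, zero_add, Matrix.of_apply,
    Matrix.diagonal_zero, Pi.zero_def, Finset.sum_const_zero, add_zero]
  rw [show (Matrix.fromBlocks 0 (Matrix.of fun (_ : Unit) a => c a) (Matrix.of fun a _ => c a)
      (Matrix.diagonal lam) : Matrix (Unit ⊕ ι) (Unit ⊕ ι) ℝ) = arr lam c from rfl]
  simp only [show (Sum.inl default : Unit ⊕ ι) = Sum.inl () from rfl, side_eq,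
    arr_pow_symm lam c n (Sum.inl ()), ← Finset.sum_add_distrib, Finset.mul_sum]
  refine Finset.sum_congr rfl fun a _ => ?_
  rw [Finset.sum_mul, ← Finset.sum_add_distrib]
  refine Finset.sum_congr rfl fun l _ => ?_
  ring

/-- The gain of an arrow is at least the first term in the weights, so nonnegative. -/
lemma half_moment_le (hp : 4 ≤ p) (hev : Even p) :
    ((p : ℝ) / 2) * ∑ a, b a ^ 2 * lam a ^ (p - 2) ≤ gain lam b p := by
  obtain ⟨h, -⟩ := gain_mono_klein (lam := lam) (by omega) hev 0 b
  rw [arr_add, sub_zero, trace_pow_head] at h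
  simp only [Pi.zero_apply, zero_mul, mul_zero, Finset.sum_const_zero, add_zero] at h
  have e : (arr lam 0 ^ (p - 2) * (arr 0 b * arr 0 b)).trace = ∑ a, b a ^ 2 * lam a ^ (p - 2) := by
    rw [arr_zero_pow, zero_pow (by omega : p - 2 ≠ 0), Matrix.trace, Fintype.sum_sum_type,
      Finset.univ_unique, Finset.sum_singleton]
    simp [Matrix.mul_apply, arr, Matrix.diagonal_apply]
    refine Finset.sum_congr rfl fun a _ => ?_
    ring
  rw [e] at h
  unfold gain
  linarith

lemma gain_nonneg (hp : 4 ≤ p) (hev : Even p) : 0 ≤ gain lam b p := by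
  refine le_trans ?_ (half_moment_le hp hev)
  have h2 : ∀ a, 0 ≤ b a ^ 2 * lam a ^ (p - 2) := fun a =>
    mul_nonneg (sq_nonneg _) (Even.pow_nonneg (by grind) _)
  have := Finset.sum_nonneg fun a (_ : a ∈ univ) => h2 a
  positivity

open scoped Classical in
/-- Dropping weights lowers the gain. -/
lemma gain_restrict (hp : 4 ≤ p) (hev : Even p) (S : Set ι) :
    gain lam (fun a => if a ∈ S then b a else 0) p ≤ gain lam b p := by
  set c := fun a => if a ∈ S then b a else 0
  set σ : Unit ⊕ ι → ℝ := Sum.elim (fun _ => 1) fun a => if a ∈ S then 1 else -1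
  have hσ : ∀ x, σ x * σ x = 1 := fun x => by
    rcases x with x | a
    · simp [σ]
    · by_cases h : a ∈ S <;> simp [σ, h]
  obtain ⟨h, hpos⟩ := gain_mono_klein (lam := lam) (by omega) hev c b
  obtain ⟨h', hpos'⟩ := gain_mono_klein (lam := lam) (by omega) hev c
    (fun a => if a ∈ S then b a else -b a)
  have e : arr lam (fun a => if a ∈ S then b a else -b a) =
      Matrix.diagonal σ * arr lam b * Matrix.diagonal σ := by
    ext x y
    rw [Matrix.mul_diagonal, Matrix.diagonal_mul]
    rcases x with x | x <;> rcases y with y | y <;> simp [arr, σ, Matrix.diagonal_apply] <;>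
      split_ifs <;> simp_all
  have hpow : ∀ j, (Matrix.diagonal σ * arr lam b * Matrix.diagonal σ) ^ j =
      Matrix.diagonal σ * arr lam b ^ j * Matrix.diagonal σ := fun j => by
    have h1 : Matrix.diagonal σ * Matrix.diagonal σ = 1 := by
      rw [Matrix.diagonal_mul_diagonal, ← Matrix.diagonal_one]
      exact congrArg _ (funext hσ)
    induction j with
    | zero => simp [h1]
    | succ j ih =>
      rw [pow_succ, ih, pow_succ]
      calc Matrix.diagonal σ * arr lam b ^ j * Matrix.diagonal σ *
            (Matrix.diagonal σ * arr lam b * Matrix.diagonal σ)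
          = Matrix.diagonal σ * arr lam b ^ j * ((Matrix.diagonal σ * Matrix.diagonal σ) *
              (arr lam b * Matrix.diagonal σ)) := by simp only [mul_assoc]
        _ = _ := by rw [h1, one_mul]; simp only [mul_assoc]
  have htr : (arr lam (fun a => if a ∈ S then b a else -b a) ^ p).trace = (arr lam b ^ p).trace := by
    rw [e, hpow, Matrix.trace_mul_comm, ← mul_assoc, Matrix.diagonal_mul_diagonal,
      show (fun i => σ i * σ i) = fun _ => (1 : ℝ) from funext hσ, Matrix.diagonal_one, one_mul]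
  have hlin : (arr lam c ^ (p - 1) * (arr lam b - arr lam c)).trace +
      (arr lam c ^ (p - 1) *
        (arr lam (fun a => if a ∈ S then b a else -b a) - arr lam c)).trace = 0 := by
    rw [arr_add, arr_add, trace_pow_head, trace_pow_head, ← mul_add, ← Finset.sum_add_distrib,
      Finset.sum_eq_zero, mul_zero]
    intro a _
    by_cases ha : a ∈ S <;> simp [c, ha]
  have hlin' := congrArg ((p : ℝ) * ·) hlin
  simp only [mul_add, mul_zero] at hlin'
  have hp0 : (0 : ℝ) ≤ p / 2 := by positivity
  rw [htr] at h'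
  unfold gain
  nlinarith [mul_nonneg hp0 hpos, mul_nonneg hp0 hpos']

/-- Weights below the top scale are bounded against it. -/
lemma side_bound (hp : 8 ≤ p) (hev : Even p) (hz : 0 < z) (hG : gain lam b p ≤ z ^ p) :
    ∑ a, (open scoped Classical in if lo lam p z a then b a ^ 2 / (z - lam a) else 0) ≤ 2 * z := by
  classical
  by_contra hcon
  push Not at hcon
  have hp' : (8 : ℝ) ≤ p := by exact_mod_cast hp
  set θ := z * (1 - 4 / p) with hθ
  have hθ0 : 0 ≤ θ := mul_nonneg hz.le (by
    rw [sub_nonneg, div_le_one (by linarith)]; linarith)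
  have hθz : θ < z := by
    have : (0 : ℝ) < 4 / p := by positivity
    nlinarith
  set c : ι → ℝ := fun a => if lo lam p z a then b a else 0 with hc
  set d : ι → ℝ := fun a => c a / Real.sqrt 2 with hd
  have hs2 : Real.sqrt 2 * Real.sqrt 2 = 2 := Real.mul_self_sqrt (by norm_num)
  have hs0 : 0 < Real.sqrt 2 := by positivity
  have hd2 : ∀ a, d a ^ 2 = c a ^ 2 / 2 := fun a => by rw [hd, div_pow, sq (Real.sqrt 2), hs2]
  set f : ℝ → ℝ := fun x => x - ∑ a, d a ^ 2 / (x - lam a) with hf
  set T := ∑ a, d a ^ 2 with hT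
  have hT0 : 0 ≤ T := Finset.sum_nonneg fun _ _ => sq_nonneg _
  have hden : ∀ a x, c a ≠ 0 → z ≤ x → x - θ ≤ x - lam a ∧ 0 < x - lam a := fun a x hca hx => by
    have : lo lam p z a := by
      by_contra h
      exact hca (if_neg h)
    have h' := abs_le.1 this
    exact ⟨by linarith, by linarith⟩
  set x₁ := z + T / (z - θ) + 1 with hx₁
  have hTz : 0 ≤ T / (z - θ) := div_nonneg hT0 (sub_nonneg.2 hθz.le)
  have hfz : f z < 0 := by
    have e : ∑ a, d a ^ 2 / (z - lam a) =
        (∑ a, if lo lam p z a then b a ^ 2 / (z - lam a) else 0) / 2 := by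
      rw [Finset.sum_div]
      refine Finset.sum_congr rfl fun a _ => ?_
      simp only [hd2, hc]
      split_ifs <;> ring
    simp only [hf, e]
    linarith
  have hfx : 0 ≤ f x₁ := by
    have : ∑ a, d a ^ 2 / (x₁ - lam a) ≤ T / (z - θ) := by
      rw [hT, Finset.sum_div]
      refine Finset.sum_le_sum fun a _ => ?_
      by_cases hca : c a = 0
      · simp [hd2, hca]
      · obtain ⟨h1, -⟩ := hden a x₁ hca (by linarith)
        exact div_le_div_of_nonneg_left (sq_nonneg _) (by linarith) (by linarith)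
    simp only [hf]
    linarith
  have hcont : ContinuousOn f (Set.Icc z x₁) := by
    refine continuousOn_id.sub (continuousOn_finsetSum _ fun a _ => ?_)
    by_cases hca : c a = 0
    · simpa [hd2, hca] using continuousOn_const
    · exact continuousOn_const.div (continuousOn_id.sub continuousOn_const)
        fun x hx => (hden a x hca hx.1).2.ne'
  obtain ⟨x, hx, hfx0⟩ := intermediate_value_Icc (by linarith) hcont ⟨hfz.le, hfx⟩
  -- the vector of the root
  set A := arr lam d
  set v : Unit ⊕ ι → ℝ := Sum.elim (fun _ => 1) fun a => d a / (x - lam a) with hv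
  have hAv : A.mulVec v = x • v := by
    funext i
    rcases i with i | a
    · simp only [Matrix.mulVec, dotProduct, Fintype.sum_sum_type, A, arr, hv, Pi.smul_apply,
        Matrix.fromBlocks_apply₁₁, Matrix.fromBlocks_apply₁₂, Matrix.zero_apply, Matrix.of_apply,
        Sum.elim_inl, Sum.elim_inr, zero_mul, Finset.sum_const_zero, zero_add, smul_eq_mul,
        mul_one]
      simp only [hf] at hfx0
      exact (Finset.sum_congr rfl fun a _ => by ring).trans (sub_eq_zero.1 hfx0).symm
    · simp only [Matrix.mulVec, dotProduct, Fintype.sum_sum_type, A, arr, hv, Pi.smul_apply,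
        Matrix.fromBlocks_apply₂₁, Matrix.fromBlocks_apply₂₂, Matrix.of_apply, Sum.elim_inl,
        Sum.elim_inr, Finset.univ_unique, Finset.sum_singleton, mul_one, smul_eq_mul]
      rw [Finset.sum_eq_single a (fun c _ h => by simp [Ne.symm h]) (by simp),
        Matrix.diagonal_apply_eq]
      by_cases hca : c a = 0
      · simp [hd, hca]
      · have := (hden a x hca hx.1).2
        field_simp
        ring
  have hpowv : ∀ j : ℕ, (A ^ j).mulVec v = x ^ j • v := fun j => by
    induction j with
    | zero => simp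
    | succ j ih => rw [pow_succ, ← Matrix.mulVec_mulVec, hAv, Matrix.mulVec_smul, ih, smul_smul,
        mul_comm, pow_succ]
  obtain ⟨q, hq⟩ := hev
  have htop : top lam d p = ∑ i, ((A ^ q) (Sum.inl ()) i) ^ 2 := by
    rw [top, hq, pow_add, Matrix.mul_apply]
    exact Finset.sum_congr rfl fun i _ => by rw [arr_pow_symm lam d q i, sq]
  have hx0 : x ^ q = ∑ i, (A ^ q) (Sum.inl ()) i * v i := by
    have := congrFun (hpowv q) (Sum.inl ())
    simpa [Matrix.mulVec, dotProduct, hv] using this.symm
  have hcs : x ^ p ≤ top lam d p * ∑ i, v i ^ 2 := by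
    rw [htop, hq, pow_add, ← sq, hx0]
    exact Finset.sum_mul_sq_le_sq_mul_sq _ _ _
  have hxθ : 0 < x - θ := by linarith [hx.1]
  have hvn : ∑ i, v i ^ 2 ≤ 1 + (p : ℝ) / 4 := by
    have h1 : ∑ a, (d a / (x - lam a)) ^ 2 ≤ (∑ a, d a ^ 2 / (x - lam a)) / (x - θ) := by
      rw [Finset.sum_div]
      refine Finset.sum_le_sum fun a _ => ?_
      by_cases hca : c a = 0
      · simp [hd, hca]
      · obtain ⟨h1, h2⟩ := hden a x hca hx.1
        rw [div_pow, sq (x - lam a), ← div_div]
        exact div_le_div_of_nonneg_left (by positivity) hxθ h1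
    have h2 : (∑ a, d a ^ 2 / (x - lam a)) = x := (sub_eq_zero.1 hfx0).symm
    have h3 : x / (x - θ) ≤ p / 4 := by
      rw [div_le_iff₀ hxθ, hθ]
      have : (0 : ℝ) ≤ (p / 4 - 1) * (x - z) := mul_nonneg (by linarith) (by linarith [hx.1])
      have e : (p : ℝ) / 4 * (4 / p) = 1 := by field_simp
      nlinarith
    rw [Fintype.sum_sum_type]
    simp only [hv, Sum.elim_inl, Sum.elim_inr, one_pow, Finset.univ_unique, Finset.sum_singleton]
    rw [h2] at h1
    linarith
  have htop0 : 0 ≤ top lam d p := by rw [htop]; exact Finset.sum_nonneg fun _ _ => sq_nonneg _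
  have hzp : z ^ p ≤ top lam d p * (1 + (p : ℝ) / 4) :=
    (pow_le_pow_left₀ hz.le hx.1 p).trans (hcs.trans (mul_le_mul_of_nonneg_left hvn htop0))
  -- one step of Klein from the halved weights
  obtain ⟨hK, hKp⟩ := gain_mono_klein (lam := lam) (by omega : 2 ≤ p) ⟨q, hq⟩ d c
  have hcd : c - d = fun a => (Real.sqrt 2 - 1) * d a := funext fun a => by
    simp only [Pi.sub_apply, hd]
    field_simp
  rw [arr_add, trace_pow_head, hcd] at hK
  have hlin : ∑ a, (Real.sqrt 2 - 1) * d a *
      (d a * ∑ l ∈ range (p - 1), lam a ^ (p - 1 - 1 - l) * top lam d l) =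
      (Real.sqrt 2 - 1) * top lam d p := by
    conv_rhs => rw [show p = p - 1 + 1 by omega, top_succ]
    simp only [Finset.mul_sum, Finset.sum_mul]
    rw [Finset.sum_comm]
    refine Finset.sum_congr rfl fun l _ => Finset.sum_congr rfl fun a _ => ?_
    ring
  rw [hlin] at hK
  have hg0 := gain_nonneg (lam := lam) (b := d) (by omega : 4 ≤ p) ⟨q, hq⟩
  have hres := gain_restrict (lam := lam) (b := b) (by omega : 4 ≤ p) ⟨q, hq⟩ {a | lo lam p z a}
  simp only [Set.mem_ofPred_eq] at hres
  rw [← hc] at hres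
  have hp2 : 0 ≤ (p : ℝ) / 2 * (arr lam d ^ (p - 2) * (arr (0 : ι → ℝ) (c - d) *
      arr (0 : ι → ℝ) (c - d))).trace := by
    rw [← arr_add]; exact mul_nonneg (by positivity) hKp
  rw [hcd] at hp2
  have hG2 : (p : ℝ) * (2 * ((Real.sqrt 2 - 1) * top lam d p)) ≤ z ^ p := by
    unfold gain at hg0 hres hG
    linarith
  have hs : 7 / 5 ≤ Real.sqrt 2 := Real.le_sqrt_of_sq_le (by norm_num)
  have hzp0 : 0 < z ^ p := pow_pos hz p
  have h5 : (4 : ℝ) / 5 * p * top lam d p ≤ z ^ p := by
    have := mul_le_mul_of_nonneg_left hs (mul_nonneg (by linarith : (0 : ℝ) ≤ 2 * p) htop0)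
    linarith
  nlinarith

/-- The functional of bounded gain is at most `6`. -/
theorem funJ_le (hp : 8 ≤ p) (hev : Even p) (hz : 0 < z) (hG : gain lam b p ≤ z ^ p) :
    funJ lam p z (fun a => b a ^ 2) ≤ 6 := by
  classical
  have h1 := side_bound hp hev hz hG
  have hneg : gain (fun a => -lam a) b p = gain lam b p := by
    set σ : Unit ⊕ ι → ℝ := Sum.elim (fun _ => -1) fun _ => 1
    have hσ : Matrix.diagonal σ * Matrix.diagonal σ = 1 := by
      rw [Matrix.diagonal_mul_diagonal, ← Matrix.diagonal_one]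
      exact congrArg _ (funext fun x => by rcases x with x | x <;> simp [σ])
    have key : ∀ c, (arr (fun a => -lam a) c ^ p).trace = (arr lam c ^ p).trace := fun c => by
      have e : arr (fun a => -lam a) c = -(Matrix.diagonal σ * arr lam c * Matrix.diagonal σ) := by
        ext x y
        rw [Matrix.neg_apply, Matrix.mul_diagonal, Matrix.diagonal_mul]
        rcases x with x | x <;> rcases y with y | y <;> simp [arr, σ, Matrix.diagonal_apply]
        split_ifs <;> simp
      have hpow : ∀ j, (Matrix.diagonal σ * arr lam c * Matrix.diagonal σ) ^ j =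
          Matrix.diagonal σ * arr lam c ^ j * Matrix.diagonal σ := fun j => by
        induction j with
        | zero => simp [hσ]
        | succ j ih =>
          rw [pow_succ, ih, pow_succ]
          calc Matrix.diagonal σ * arr lam c ^ j * Matrix.diagonal σ *
                (Matrix.diagonal σ * arr lam c * Matrix.diagonal σ)
              = Matrix.diagonal σ * arr lam c ^ j * ((Matrix.diagonal σ * Matrix.diagonal σ) *
                  (arr lam c * Matrix.diagonal σ)) := by simp only [mul_assoc]
            _ = _ := by rw [hσ, one_mul]; simp only [mul_assoc]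
      rw [e, hev.neg_pow, hpow, Matrix.trace_mul_comm, ← mul_assoc, hσ, one_mul]
    rw [gain, gain, key, key]
  have h2 := side_bound (lam := fun a => -lam a) hp hev hz (hneg.trans_le hG)
  have h3 := half_moment_le (lam := lam) (b := b) (by omega : 4 ≤ p) hev
  have hlo : ∀ a, lo (fun a => -lam a) p z a ↔ lo lam p z a := fun a => by simp [lo]
  simp only [hlo, sub_neg_eq_add] at h2
  calc funJ lam p z (fun a => b a ^ 2)
      ≤ ((∑ a, if lo lam p z a then b a ^ 2 / (z - lam a) else 0) +
          ∑ a, if lo lam p z a then b a ^ 2 / (z + lam a) else 0) / z +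
          (p : ℝ) / z ^ p * ∑ a, b a ^ 2 * lam a ^ (p - 2) := by
        rw [← Finset.sum_add_distrib, Finset.sum_div, Finset.mul_sum, ← Finset.sum_add_distrib]
        refine Finset.sum_le_sum fun a _ => ?_
        rw [coefJ, add_mul]
        refine add_le_add ?_ (le_of_eq (by ring))
        split_ifs with h
        · have hlt := abs_lt.1 (lo_lt hz hp h)
          have hp1 : 0 ≤ b a ^ 2 / (z + lam a) := div_nonneg (sq_nonneg _) (by linarith)
          have hp2 : 0 ≤ b a ^ 2 / (z - lam a) := div_nonneg (sq_nonneg _) (by linarith)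
          have e : 1 / (z * (z - |lam a|)) * b a ^ 2 = b a ^ 2 / (z - |lam a|) / z := by
            field_simp
          rw [e]
          refine div_le_div_of_nonneg_right ?_ hz.le
          rcases abs_choice (lam a) with h' | h' <;> rw [h'] <;> [skip; rw [sub_neg_eq_add]] <;>
            linarith
        · simp
    _ ≤ (2 * z + 2 * z) / z + (p : ℝ) / z ^ p * (2 / p * z ^ p) := by
        refine add_le_add (div_le_div_of_nonneg_right (add_le_add h1 h2) hz.le) ?_
        refine mul_le_mul_of_nonneg_left ?_ (by positivity)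
        have hp0 : (0 : ℝ) < p := Nat.cast_pos.2 (by omega)
        rw [div_mul_eq_mul_div, le_div_iff₀ hp0]
        linarith
    _ = 6 := by
        have hp0 : (p : ℝ) ≠ 0 := Nat.cast_ne_zero.2 (by omega)
        field_simp
        ring

/-- A small functional gives a small gain. -/
theorem gain_le (hp : 8 ≤ p) (hev : Even p) (hz : 0 < z) {η : ℝ}
    (hJ : funJ lam p z (fun a => b a ^ 2) ≤ η) (hη : (2 + Real.exp 8) * η ≤ 1 / 2) :
    gain lam b p ≤ 2 * ((2 + Real.exp 8) * η) * z ^ p := by
  classical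
  refine (le_abs_self _).trans ?_
  have hp' : (8 : ℝ) ≤ p := by exact_mod_cast hp
  set E := Real.exp 8 with hE
  have hE1 : 1 ≤ E := Real.one_le_exp (by norm_num)
  have hE0 : 0 < E := by linarith
  set u := fun a => |lam a| / z with hu
  have hu0 : ∀ a, 0 ≤ u a := fun a => by positivity
  have hevp : Even (p - 2) := by grind
  have hkap : ∀ n, 2 ≤ n → |kap lam b n| / z ^ n ≤ ∑ a, b a ^ 2 / z ^ 2 * u a ^ (n - 2) := by
    intro n hn
    rw [kap, if_pos hn, div_le_iff₀ (pow_pos hz n), Finset.sum_mul]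
    refine (abs_sum_le_sum_abs _ _).trans (le_of_eq (Finset.sum_congr rfl fun a _ => ?_))
    rw [abs_mul, abs_pow, abs_pow, sq_abs, hu, div_pow, show n = n - 2 + 2 by omega, pow_add,
      Nat.add_sub_cancel]
    field_simp
  have hup : ∀ a, u a ^ (p - 2) * (b a ^ 2 / z ^ 2) = b a ^ 2 * lam a ^ (p - 2) / z ^ p := by
    intro a
    rw [hu, div_pow, hevp.pow_abs]
    conv_rhs => rw [show p = p - 2 + 2 by omega, pow_add]
    rw [show p - 2 + 2 - 2 = p - 2 by omega]
    field_simp
  have hlo : ∀ a, lo lam p z a → u a < 1 ∧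
      1 / (1 - u a) * (b a ^ 2 / z ^ 2) = 1 / (z * (z - |lam a|)) * b a ^ 2 := fun a h => by
    have hlt := lo_lt hz hp h
    refine ⟨(div_lt_one hz).2 hlt, ?_⟩
    have : z - |lam a| ≠ 0 := by linarith
    rw [hu, one_sub_div hz.ne']
    field_simp
  have hhi : ∀ a, ¬ lo lam p z a → ∀ i, i ≤ p - 2 → u a ^ i ≤ E * u a ^ (p - 2) := by
    intro a h i hi
    have h4 : 1 - 4 / (p : ℝ) < u a := by
      rw [hu, lt_div_iff₀ hz]; unfold lo at h; linarith
    rcases le_total 1 (u a) with h1 | h1
    · calc u a ^ i ≤ u a ^ (p - 2) := pow_le_pow_right₀ h1 hi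
        _ ≤ E * u a ^ (p - 2) := le_mul_of_one_le_left (pow_nonneg (hu0 a) _) hE1
    · refine (pow_le_one₀ (hu0 a) h1).trans ?_
      have h48 : 4 / (p : ℝ) ≤ 1 / 2 := by rw [div_le_iff₀ (by linarith)]; linarith
      have hexp : Real.exp (-(8 / p : ℝ)) ≤ 1 - 4 / p := by
        rw [Real.exp_neg, inv_le_iff_one_le_mul₀ (Real.exp_pos _)]
        have := Real.add_one_le_exp (8 / (p : ℝ))
        have e8 : 8 / (p : ℝ) = 2 * (4 / p) := by ring
        have h40 : 0 ≤ 4 / (p : ℝ) := by positivity
        rw [e8] at this ⊢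
        nlinarith
      have hpow := pow_le_pow_left₀ (Real.exp_pos _).le (hexp.trans h4.le) p
      rw [← Real.exp_nat_mul, show (p : ℝ) * -(8 / p) = -8 by field_simp, Real.exp_neg,
        ← hE] at hpow
      have h6 : u a ^ p ≤ u a ^ (p - 2) := pow_le_pow_of_le_one (hu0 a) h1 (by omega)
      have := mul_le_mul_of_nonneg_left (hpow.trans h6) hE0.le
      rwa [mul_inv_cancel₀ hE0.ne'] at this
  -- one point: the sum and the largest term
  have hterm : ∀ a, (∑ i ∈ range (p - 1), u a ^ i) * (b a ^ 2 / z ^ 2) ≤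
      (2 + E) * (coefJ lam p z a * b a ^ 2) ∧
      ∀ i, i ≤ p - 2 → ((i : ℝ) + 2) * u a ^ i * (b a ^ 2 / z ^ 2) ≤
        (2 + E) * (coefJ lam p z a * b a ^ 2) := by
    intro a
    have hb0 : 0 ≤ b a ^ 2 / z ^ 2 := by positivity
    have hJ0 := coefJ_nonneg (lam := lam) hz hp hev a
    have hb2 : 0 ≤ b a ^ 2 := sq_nonneg _
    have hm0 : 0 ≤ b a ^ 2 * lam a ^ (p - 2) / z ^ p := by
      rw [← hup a]; exact mul_nonneg (pow_nonneg (hu0 a) _) hb0
    by_cases h : lo lam p z a
    · obtain ⟨h1, h2⟩ := hlo a h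
      have hs : ∀ m, ∑ i ∈ range m, u a ^ i ≤ 1 / (1 - u a) := fun m => by
        rw [le_div_iff₀ (by linarith), geom_sum_mul_neg]
        linarith [pow_nonneg (hu0 a) m]
      have hle : 1 / (z * (z - |lam a|)) * b a ^ 2 ≤ coefJ lam p z a * b a ^ 2 := by
        refine mul_le_mul_of_nonneg_right ?_ hb2
        rw [coefJ, if_pos h]
        have : 0 ≤ (p : ℝ) * lam a ^ (p - 2) / z ^ p :=
          div_nonneg (mul_nonneg p.cast_nonneg (hevp.pow_nonneg _)) (pow_nonneg hz.le _)
        linarith
      have hb := mul_le_mul_of_nonneg_right (hs (p - 1)) hb0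
      have hE2 : coefJ lam p z a * b a ^ 2 ≤ (2 + E) * (coefJ lam p z a * b a ^ 2) :=
        le_mul_of_one_le_left (mul_nonneg hJ0 hb2) (by linarith)
      rw [h2] at hb
      refine ⟨by linarith, fun i _ => ?_⟩
      have hi : ((i : ℝ) + 1) * u a ^ i ≤ ∑ j ∈ range (i + 1), u a ^ j := by
        calc ((i : ℝ) + 1) * u a ^ i = ∑ _j ∈ range (i + 1), u a ^ i := by simp
          _ ≤ _ := Finset.sum_le_sum fun j hj => pow_le_pow_of_le_one (hu0 a) h1.le
              (by have := Finset.mem_range.1 hj; omega)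
      have hi1 := mul_le_mul_of_nonneg_right (hi.trans (hs _)) hb0
      rw [h2] at hi1
      have hi2 : 0 ≤ (i : ℝ) * u a ^ i * (b a ^ 2 / z ^ 2) := by
        have := hu0 a; positivity
      have hEJ : 0 ≤ E * (coefJ lam p z a * b a ^ 2) := by positivity
      nlinarith
    · have hle : (p : ℝ) * (b a ^ 2 * lam a ^ (p - 2) / z ^ p) ≤ coefJ lam p z a * b a ^ 2 := by
        rw [coefJ, if_neg h, zero_add]
        exact le_of_eq (by ring)
      have hpm : E * ((p : ℝ) * (b a ^ 2 * lam a ^ (p - 2) / z ^ p)) ≤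
          (2 + E) * (coefJ lam p z a * b a ^ 2) :=
        mul_le_mul (by linarith) hle (by positivity) (by linarith)
      have hone : ∀ i, i ≤ p - 2 → ∀ k : ℝ, 0 ≤ k → k ≤ p → k * u a ^ i * (b a ^ 2 / z ^ 2) ≤
          E * ((p : ℝ) * (b a ^ 2 * lam a ^ (p - 2) / z ^ p)) := fun i hi k hk hkp => by
        calc k * u a ^ i * (b a ^ 2 / z ^ 2)
            ≤ p * (E * u a ^ (p - 2)) * (b a ^ 2 / z ^ 2) := by
              refine mul_le_mul_of_nonneg_right (mul_le_mul hkp (hhi a h i hi)
                (pow_nonneg (hu0 a) _) p.cast_nonneg) hb0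
          _ = _ := by rw [← hup a]; ring
      refine ⟨?_, fun i hi => (hone i hi _ (by positivity) ?_).trans hpm⟩
      · refine le_trans ?_ hpm
        rw [Finset.sum_mul]
        refine (Finset.sum_le_sum fun i hi => mul_le_mul_of_nonneg_right
          (hhi a h i (by have := Finset.mem_range.1 hi; omega)) hb0).trans ?_
        rw [Finset.sum_const, Finset.card_range, nsmul_eq_mul, mul_assoc E, hup a]
        calc ((p - 1 : ℕ) : ℝ) * (E * (b a ^ 2 * lam a ^ (p - 2) / z ^ p))
            ≤ (p : ℝ) * (E * (b a ^ 2 * lam a ^ (p - 2) / z ^ p)) :=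
              mul_le_mul_of_nonneg_right (Nat.cast_le.2 (Nat.sub_le p 1)) (mul_nonneg hE0.le hm0)
          _ = _ := by ring
      · have : (i : ℝ) + 2 ≤ (p : ℝ) := by
          exact_mod_cast (show i + 2 ≤ p by omega)
        linarith
  have hsum : (2 + E) * funJ lam p z (fun a => b a ^ 2) ≤ (2 + E) * η :=
    mul_le_mul_of_nonneg_left hJ (by linarith)
  refine abs_gain_le lam b hz hη p ?_ ?_
  · calc ∑ i ∈ range (p + 1), |kap lam b i| / z ^ i
        ≤ ∑ a, (∑ i ∈ range (p - 1), u a ^ i) * (b a ^ 2 / z ^ 2) := by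
          rw [show p + 1 = p - 1 + 2 by omega, Finset.sum_range_succ', Finset.sum_range_succ']
          rw [show kap lam b 0 = 0 from if_neg (by omega), show kap lam b (0 + 1) = 0 from
            if_neg (by omega)]
          simp only [abs_zero, zero_div, add_zero, Finset.sum_mul]
          rw [Finset.sum_comm (s := univ)]
          refine Finset.sum_le_sum fun i _ => (hkap _ (by omega)).trans (le_of_eq ?_)
          exact Finset.sum_congr rfl fun a _ => by
            rw [mul_comm, show i + 1 + 1 - 2 = i by omega]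
      _ ≤ _ := by
          refine le_trans ?_ hsum
          rw [funJ, Finset.mul_sum]
          exact Finset.sum_le_sum fun a _ => (hterm a).1
  · intro n hn
    by_cases h2 : 2 ≤ n
    · rw [mul_div_assoc]
      refine (mul_le_mul_of_nonneg_left (hkap n h2) n.cast_nonneg).trans (le_trans ?_ hsum)
      rw [funJ, Finset.mul_sum, Finset.mul_sum]
      refine Finset.sum_le_sum fun a _ => le_trans (le_of_eq ?_) ((hterm a).2 (n - 2) (by omega))
      rw [Nat.cast_sub h2]
      push_cast
      ring
    · rw [show kap lam b n = 0 from if_neg h2]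
      simp only [abs_zero, mul_zero, zero_div]
      have : 0 ≤ funJ lam p z (fun a => b a ^ 2) := Finset.sum_nonneg fun a _ =>
        mul_nonneg (coefJ_nonneg hz hp hev a) (sq_nonneg _)
      nlinarith

end Vale.Agent.P078.Twist.Arrow
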