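import Vale.Agent.P078.Twist.Defs
import Vale.Agent.P078.Twist.ArrowBound
import Vale.Agent.P078.MKS.TwoSided.Shrink
import Vale.Agent.P078.Twist.Untwist

/-!
Colours of weight at least one half at a vertex which, with the row and column of the vertex scaled
by an absolute constant, do not increase the even power sums of the roots.
-/

namespace Vale.Agent.P078.Twist

open MKS Finset

variable {V : Type} [Fintype V] [DecidableEq V] {r : ℕ}

/-- At a vertex the mixed polynomial and all its coloured and scaled branches are arrow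
polynomials over the polynomial without the vertex. -/
lemma exists_arrow {X : Matrix V V ℂ} (hX : X.IsHermitian) {p : V → Fin r → ℝ} (hp : IsProb p)
    (hdiag : ∀ a, X a a = 0) (k : V) :
    ∃ (Q : Polynomial ℂ) (res : Fin r → ℂ → ℝ), Q.Monic ∧ (∀ z ∈ Q.roots, z.im = 0) ∧
      (∀ t z, 0 ≤ res t z) ∧ charMix X p univ = arrowPoly Q (fun z => ∑ t, p k t * res t z) ∧
      ∀ s d, charMix (scaled X (Function.update 1 k d)) (setColour p k s) univ =
        arrowPoly Q fun z => d ^ 2 * res s z := by
  obtain ⟨c, hc, hb⟩ := exists_opBound X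
  set Q := charMix X p (univ.erase k) with hQdef
  obtain ⟨hQm, hQn⟩ : Q.Monic ∧ Q.natDegree = ((univ : Finset V).erase k).card :=
    charMix_monic X hp _
  have hQr := (root_ok V r X p hX hp c hc hb (univ.erase k)).2.2
  set Ps := fun t => charMix X (setColour p k t) univ with hPs
  have hdeg : ∀ t, (Polynomial.X * Q - Ps t).degree < Q.degree := fun t => by
    rw [Polynomial.degree_eq_natDegree hQm.ne_zero, hQn, Polynomial.degree_lt_iff_coeff_zero]
    intro i hi
    obtain ⟨hm1, hn1⟩ := charMix_monic X (isProb_setColour hp k t) univ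
    have hcard := Finset.card_erase_add_one (Finset.mem_univ k)
    rw [Polynomial.coeff_sub, sub_eq_zero]
    rcases Nat.eq_zero_or_pos i with rfl | hi0
    · rw [Polynomial.coeff_X_mul_zero, charMix_coeff_pred hdiag _ (by omega)]
    · obtain ⟨j, rfl⟩ : ∃ j, i = j + 1 := ⟨i - 1, by omega⟩
      rw [Polynomial.coeff_X_mul]
      rcases eq_or_lt_of_le hi with h | h
      · rw [charMix_coeff_pred hdiag _ (by omega), charMix_coeff_pred hdiag _ (by omega)]
      · rcases eq_or_lt_of_le (show ((univ : Finset V).erase k).card ≤ j by omega) with h' | h'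
        · rw [← h', ← hQn, hQm.coeff_natDegree, show Q.natDegree + 1 = (Ps t).natDegree by
            rw [hQn, hn1, hcard], hm1.coeff_natDegree]
        · rw [Polynomial.coeff_eq_zero_of_natDegree_lt (by omega),
            Polynomial.coeff_eq_zero_of_natDegree_lt (by rw [hn1]; omega)]
  have hw : ∀ t, ∀ w : ℂ, 0 < w.im →
      ((Polynomial.X * Q - Ps t).eval w / Q.eval w).im ≤ 0 := fun t w hw => by
    have h := rest_ratio hX (isProb_setColour hp k t) k hw
    rw [charMix_setColour_erase X hp, ← hQdef] at h
    rw [Polynomial.eval_sub, Polynomial.eval_mul, Polynomial.eval_X, sub_div,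
      mul_div_cancel_right₀ _ (charMix_ratio hX hp k hw).2.1, Complex.sub_im]
    linarith
  choose res hres0 hres using fun t => nonneg_fraction hQm (fun z hz => (hQr z hz).1) (hdeg t)
    (fun w hw => (charMix_ratio hX hp k hw).2.1) (hw t)
  set M := fun z => ∑ t, p k t * res t z with hM
  have hM0 : ∀ z, 0 ≤ M z := fun z =>
    Finset.sum_nonneg fun t _ => mul_nonneg ((hp k).1 t) (hres0 t z)
  have hP : charMix X p univ = arrowPoly Q M := by
    refine Polynomial.funext fun z => ?_
    rw [arrowPoly]
    simp only [hM, Complex.ofReal_sum, Complex.ofReal_mul, map_sum, map_mul, Finset.sum_mul,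
      mul_assoc]
    rw [Finset.sum_comm]
    simp only [← Finset.mul_sum, ← hres, Polynomial.eval_sub, Polynomial.eval_finsetSum,
      Polynomial.eval_mul, Polynomial.eval_C, mul_sub, Finset.sum_sub_distrib, ← Finset.sum_mul]
    rw [show ∑ t, (p k t : ℂ) = 1 by exact_mod_cast (hp k).2, one_mul, sub_sub_cancel,
      ← eval_split X p k]
  have hP' : ∀ (s : Fin r) (d : ℝ), charMix (scaled X (Function.update 1 k d)) (setColour p k s) univ =
      arrowPoly Q fun z => d ^ 2 * res s z := by
    intro s d
    refine Polynomial.funext fun z => ?_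
    rw [arrowPoly]
    simp only [Complex.ofReal_mul, map_mul, mul_assoc]
    rw [← Finset.mul_sum, ← hres]
    simp only [Polynomial.eval_sub, Polynomial.eval_mul, Polynomial.eval_X, Polynomial.eval_C,
      Complex.ofReal_pow]
    rw [hQdef, hPs, ← charMix_setColour_erase X hp k s]
    simp only [charMix_eval]
    rw [mixDet_affine X _ (Finset.mem_univ k), mixDet_affine _ _ (Finset.mem_univ k)]
    have hQ' : mixDet (scaled X (Function.update 1 k d)) (cw (setColour p k s)) (univ.erase k)
        (fun _ => z) = mixDet X (cw (setColour p k s)) (univ.erase k) fun _ => z := by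
      refine Finset.sum_congr rfl fun f _ => ?_
      congr 2
      ext a b
      by_cases ha : a = k <;> by_cases hb : b = k <;> simp [block_apply, ha, hb, scaled]
    have hR' : mixDet (scaled X (Function.update 1 k d)) (cw (setColour p k s)) univ
        (Function.update (fun _ => z) k 0) = (d : ℂ) ^ 2 *
          mixDet X (cw (setColour p k s)) univ (Function.update (fun _ => z) k 0) := by
      unfold mixDet
      rw [Finset.mul_sum]
      exact Finset.sum_congr rfl fun f _ => by rw [scaled_block]; ring
    rw [hQ', hR']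
    ring
  exact ⟨Q, res, hQm, fun z hz => (hQr z hz).1, hres0, hP, hP'⟩

/-- The shaft of an arrow. -/
noncomputable def shaft (Q : Polynomial ℂ)
    (a : (z : Q.roots.toFinset) × Fin (Q.roots.count (z : ℂ))) : ℝ := (a.1 : ℂ).re

/-- The weights of an arrow. -/
noncomputable def head (Q : Polynomial ℂ) (M : ℂ → ℝ)
    (a : (z : Q.roots.toFinset) × Fin (Q.roots.count (z : ℂ))) : ℝ :=
  if (a.2 : ℕ) = 0 then Real.sqrt (M a.1) else 0

lemma arrow_eq_arr (Q : Polynomial ℂ) (M : ℂ → ℝ) :
    arrow Q 0 M = Arrow.arr (shaft Q) (head Q M) := by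
  ext x y
  rcases x with x | x <;> rcases y with y | y <;>
    simp [arrow, Arrow.arr, shaft, head, Matrix.diagonal_apply]

lemma scaled_hermitian {X : Matrix V V ℂ} (hX : X.IsHermitian) (d : V → ℝ) :
    (scaled X d).IsHermitian := by
  ext a b
  simp [scaled, hX.apply a b]
  ring

/-- The colouring step. -/
theorem scale_ok : ScaleStatement := by
  set E := Real.exp 8 with hE
  have hE0 : 0 < E := Real.exp_pos 8
  set c := Real.sqrt (1 / (12 * (4 * (2 + E)))) with hcdef
  have hc2 : c ^ 2 = 1 / (12 * (4 * (2 + E))) := Real.sq_sqrt (by positivity)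
  refine ⟨c, by positivity, Real.sqrt_le_one.2 (by rw [div_le_one (by positivity)]; linarith), ?_⟩
  intro V _ _ r X w hX hw hdiag p hp hev k
  classical
  obtain ⟨Q, res, hQm, hQr, hres0, hP, hP'⟩ := exists_arrow hX hw hdiag k
  set M := fun z => ∑ t, w k t * res t z with hM
  have hM0 : ∀ z, 0 ≤ M z := fun z =>
    sum_nonneg fun t _ => mul_nonneg ((hw k).1 t) (hres0 t z)
  set lam := shaft Q with hlam
  set b := head Q M with hb
  set base := (Arrow.arr lam 0 ^ p).trace with hbase
  have hroot : rootSum (fun x => x ^ p) (charMix X w univ) = base + Arrow.gain lam b p := by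
    have h := rootSum_arrowPoly hQm hQr hM0 (fun z hz => charMix_roots_real hX hw (hP ▸ hz)) 0 p
    simp only [add_zero] at h
    rw [hP, h, arrow_eq_arr, Arrow.gain, hbase, add_sub_cancel]
  have hroot' : ∀ s, rootSum (fun x => x ^ p)
      (charMix (scaled X (Function.update 1 k c)) (setColour w k s) univ) =
        base + Arrow.gain lam (head Q fun z => c ^ 2 * res s z) p := fun s => by
    have hh : ∀ z ∈ (arrowPoly Q fun z => c ^ 2 * res s z).roots, z.im = 0 := fun z hz =>
      charMix_roots_real (scaled_hermitian hX _) (isProb_setColour hw k s) (hP' s c ▸ hz)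
    have h := rootSum_arrowPoly hQm hQr (fun z => mul_nonneg (sq_nonneg c) (hres0 s z)) hh 0 p
    simp only [add_zero] at h
    rw [hP', h, arrow_eq_arr, Arrow.gain, hbase, add_sub_cancel]
  have hV0 : 0 ≤ Arrow.gain lam b p := Arrow.gain_nonneg (by omega) hev
  have hsq : ∀ (N : ℂ → ℝ), (∀ z, 0 ≤ N z) → ∀ a,
      head Q N a ^ 2 = if (a.2 : ℕ) = 0 then N a.1 else 0 := fun N hN a => by
    rw [head]
    split_ifs
    · rw [Real.sq_sqrt (hN _)]
    · ring
  suffices h : ∃ G : Finset (Fin r), 1 / 2 ≤ ∑ s ∈ G, w k s ∧ ∀ s ∈ G, 0 < w k s ∧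
      Arrow.gain lam (head Q fun z => c ^ 2 * res s z) p ≤ Arrow.gain lam b p by
    obtain ⟨G, hG1, hG2⟩ := h
    refine ⟨G, hG1, fun s hs => ⟨(hG2 s hs).1, ?_⟩⟩
    rw [hroot, hroot']
    linarith [(hG2 s hs).2]
  have hpos : ∀ {S : Finset (Fin r)}, (∀ s, s ∉ S → w k s = 0) → ∑ s ∈ S, w k s = 1 := fun h => by
    rw [← (hw k).2]
    exact sum_subset (subset_univ _) fun s _ hs => h s hs
  rcases hV0.eq_or_lt with hV | hV
  · have hb0 : ∀ a, b a = 0 := fun a => by
      by_cases hla : lam a = 0
      · by_contra hne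
        have hz : (0 : ℝ) < |b a| / 3 := by positivity
        have h := Arrow.funJ_le hp hev hz (by rw [← hV]; positivity : Arrow.gain lam b p ≤ _)
        have hone : Arrow.coefJ lam p (|b a| / 3) a * b a ^ 2 ≤ 6 := le_trans
          (single_le_sum (f := fun i => Arrow.coefJ lam p (|b a| / 3) i * b i ^ 2)
            (fun i _ => mul_nonneg (Arrow.coefJ_nonneg hz hp hev i) (sq_nonneg _)) (mem_univ a)) h
        have hlo : Arrow.lo lam p (|b a| / 3) a := by
          rw [Arrow.lo, hla, abs_zero]
          refine mul_nonneg hz.le ?_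
          rw [sub_nonneg, div_le_one (by positivity)]
          exact_mod_cast (by omega : 4 ≤ p)
        rw [Arrow.coefJ, if_pos hlo, hla, abs_zero, sub_zero,
          zero_pow (by omega : p - 2 ≠ 0), mul_zero, zero_div, add_zero] at hone
        rw [← sq_abs (b a), show 1 / (|b a| / 3 * (|b a| / 3)) * |b a| ^ 2 = 9 by
          field_simp; norm_num] at hone
        norm_num at hone
      · have h := Arrow.half_moment_le (lam := lam) (b := b) (by omega) hev
        rw [← hV] at h
        have hev2 : Even (p - 2) := by grind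
        have h1 : b a ^ 2 * lam a ^ (p - 2) ≤ 0 := by
          refine le_trans (single_le_sum (f := fun i => b i ^ 2 * lam i ^ (p - 2))
            (fun i _ => mul_nonneg (sq_nonneg _) (hev2.pow_nonneg _)) (mem_univ a)) ?_
          have : (0 : ℝ) < p / 2 := by
            have : (0 : ℝ) < p := Nat.cast_pos.2 (by omega)
            positivity
          nlinarith
        have h2 : 0 < lam a ^ (p - 2) := hev2.pow_pos hla
        have : b a ^ 2 ≤ 0 := nonpos_of_mul_nonpos_left h1 h2
        exact pow_eq_zero_iff two_ne_zero |>.1 (le_antisymm this (sq_nonneg _))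
    refine ⟨univ.filter fun s => 0 < w k s, ?_, fun s hs => ⟨(mem_filter.1 hs).2, ?_⟩⟩
    · rw [hpos fun s hs => le_antisymm (not_lt.1 fun h => hs (mem_filter.2 ⟨mem_univ s, h⟩))
        ((hw k).1 s)]
      norm_num
    · have hws := (mem_filter.1 hs).2
      have e : head Q (fun z => c ^ 2 * res s z) = b := funext fun a => by
        have h0 := hsq M hM0 a
        rw [show head Q M a = 0 from hb0 a, zero_pow two_ne_zero] at h0
        rw [hb0 a, head]
        split_ifs with ha
        · rw [if_pos ha] at h0
          have h1 : w k s * res s a.1 ≤ 0 := h0.symm ▸ single_le_sum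
            (f := fun t => w k t * res t a.1)
            (fun t _ => mul_nonneg ((hw k).1 t) (hres0 t _)) (mem_univ s)
          have : res s a.1 = 0 := le_antisymm (nonpos_of_mul_nonpos_right h1 hws) (hres0 s _)
          rw [this, mul_zero, Real.sqrt_zero]
        · rfl
      rw [e]
  · set z := Arrow.gain lam b p ^ ((p : ℝ)⁻¹) with hz
    have hz0 : 0 < z := Real.rpow_pos_of_pos hV _
    have hzp : z ^ p = Arrow.gain lam b p := Real.rpow_inv_natCast_pow hV.le (by omega)
    set J := fun s => Arrow.funJ lam p z fun a => head Q (res s) a ^ 2 with hJ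
    have hJM : ∑ s, w k s * J s ≤ 6 := by
      refine le_trans (le_of_eq ?_) (Arrow.funJ_le hp hev hz0 hzp.ge)
      simp only [hJ, Arrow.funJ, mul_sum, hb, hsq M hM0, fun s => hsq (res s) (hres0 s)]
      rw [sum_comm]
      refine sum_congr rfl fun a _ => ?_
      split_ifs
      · rw [hM, mul_sum]
        exact sum_congr rfl fun s _ => by ring
      · simp
    have hJ0 : ∀ s, 0 ≤ J s := fun s => sum_nonneg fun a _ =>
      mul_nonneg (Arrow.coefJ_nonneg hz0 hp hev a) (sq_nonneg _)
    set G := univ.filter fun s => 0 < w k s ∧ J s ≤ 12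
    refine ⟨G, ?_, fun s hs => ⟨(mem_filter.1 hs).2.1, ?_⟩⟩
    · set B := univ.filter fun s => ¬ (0 < w k s ∧ J s ≤ 12)
      have hsplit : ∑ s ∈ G, w k s + ∑ s ∈ B, w k s = 1 := by
        rw [sum_filter_add_sum_filter_not, (hw k).2]
      have hB : 12 * ∑ s ∈ B, w k s ≤ 6 := by
        refine le_trans ?_ ((sum_le_sum_of_subset_of_nonneg (subset_univ B)
          fun s _ _ => mul_nonneg ((hw k).1 s) (hJ0 s)).trans hJM)
        rw [mul_sum]
        refine sum_le_sum fun s hs => ?_
        rcases ((hw k).1 s).eq_or_lt with h | h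
        · rw [← h, mul_zero, zero_mul]
        · have : 12 < J s := not_le.1 fun h' => (mem_filter.1 hs).2 ⟨h, h'⟩
          nlinarith
      linarith
    · have hJs : Arrow.funJ lam p z (fun a => head Q (fun z => c ^ 2 * res s z) a ^ 2) ≤
          c ^ 2 * 12 := by
        refine le_trans (le_of_eq ?_) (mul_le_mul_of_nonneg_left (mem_filter.1 hs).2.2 (sq_nonneg c))
        simp only [hJ, Arrow.funJ, mul_sum, hsq (fun z => c ^ 2 * res s z)
          (fun z => mul_nonneg (sq_nonneg c) (hres0 s z)), hsq (res s) (hres0 s)]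
        exact sum_congr rfl fun a _ => by split_ifs <;> ring
      have hhalf : (2 + E) * (c ^ 2 * 12) = 1 / 4 := by rw [hc2]; field_simp
      have := Arrow.gain_le hp hev hz0 hJs (by rw [← hE, hhalf]; norm_num)
      rw [← hE, hhalf, hzp] at this
      linarith

end Vale.Agent.P078.Twist
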