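import Vale.Agent.P078.State.Basic
import Vale.Agent.P078.MKS.Transport

/-!
A central state integrates represented functions monotonely and linearly.
-/

namespace Vale.Agent.P078.Twist

open MKS MKS.Op Singular

variable {H : Type} [NormedAddCommGroup H] [InnerProductSpace ℂ H] [CompleteSpace H]
  {M A : VonNeumannAlgebra H} {e : H →L[ℂ] H} {φ : (H →L[ℂ] H) →ₗ[ℂ] ℂ}
  (hM : IsMASA M A) (he : IsPr A e) (hφ : State.IsState M A e φ)
include hM he hφ

lemma state_re_le {a b : H →L[ℂ] H} (ha : a ∈ A) (hb : b ∈ A)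
    (h : ∀ χ : Pt A, ev χ e = 1 → (ev χ a).re ≤ (ev χ b).re) :
    (φ (a * e)).re ≤ (φ (b * e)).re := by
  have hd := sub_mem hb ha
  have hc := add_mem hd (star_mem hd)
  have hpos : 0 ≤ (b - a + star (b - a)) * e := by
    refine nonneg_of_ev hM.2.1 (mul_mem hc he.1) ?_ fun χ => ?_
    · rw [isSelfAdjoint_iff, star_mul, (IsSelfAdjoint.add_star_self _).star_eq,
        he.2.isSelfAdjoint.star_eq, hM.2.1 e he.1 _ hc]
    · rw [ev_mul χ hc he.1, ev_add χ hd (star_mem hd), ev_star χ hd, ev_sub χ hb ha]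
      rcases ev_proj χ he with h0 | h0
      · simp [h0]
      · simp [h0]
        linarith [h χ h0]
  have h1 := State.tr_nonneg hφ he.2 (cor_of_alg hM he hc) hpos
  have h2 : (φ (star (b - a) * e)).re = (φ ((b - a) * e)).re := by
    have h3 := State.tr_star hφ he.2 (hM.1 e he.1) (cor_of_alg hM he hd)
    rw [star_mul, he.2.isSelfAdjoint.star_eq, hM.2.1 e he.1 _ (star_mem hd)] at h3
    rw [h3, Complex.star_def, Complex.conj_re]
  rw [add_mul, map_add, Complex.add_re, h2, sub_mul, map_sub, Complex.sub_re] at h1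
  linarith

lemma sint_eq {f : Pt A → ℂ} {a : H →L[ℂ] H} (ha : a ∈ A)
    (h : ∀ χ : Pt A, ev χ e = 1 → f χ = ev χ a) : int φ e f = (φ (a * e)).re := by
  have hf : f ∈ Rep A e := ⟨a, ha, h⟩
  rw [int, dif_pos hf]
  obtain ⟨hb, hb'⟩ := hf.choose_spec
  exact le_antisymm (state_re_le hM he hφ hb ha fun χ hχ => by rw [← hb' χ hχ, ← h χ hχ])
    (state_re_le hM he hφ ha hb fun χ hχ => by rw [← hb' χ hχ, ← h χ hχ])

lemma sint_mono {f g : Pt A → ℂ} (hf : f ∈ Rep A e) (hg : g ∈ Rep A e)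
    (h : ∀ χ : Pt A, ev χ e = 1 → (f χ).re ≤ (g χ).re) : int φ e f ≤ int φ e g := by
  obtain ⟨a, ha, ha'⟩ := hf
  obtain ⟨b, hb, hb'⟩ := hg
  rw [sint_eq hM he hφ ha ha', sint_eq hM he hφ hb hb']
  exact state_re_le hM he hφ ha hb fun χ hχ => by rw [← hb' χ hχ, ← ha' χ hχ]; exact h χ hχ

lemma sint_add {f g : Pt A → ℂ} (hf : f ∈ Rep A e) (hg : g ∈ Rep A e) :
    int φ e (f + g) = int φ e f + int φ e g := by
  obtain ⟨a, ha, ha'⟩ := hf
  obtain ⟨b, hb, hb'⟩ := hg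
  rw [sint_eq hM he hφ ha ha', sint_eq hM he hφ hb hb', sint_eq hM he hφ (add_mem ha hb)
    fun χ hχ => by rw [ev_add χ ha hb, Pi.add_apply, ha' χ hχ, hb' χ hχ], add_mul, map_add,
    Complex.add_re]

lemma sint_const (c : ℝ) : int φ e (fun _ : Pt A => (c : ℂ)) = c * (φ e).re := by
  rw [sint_eq hM he hφ (csmul_mem (c : ℂ) (one_mem A)) fun χ _ => by
    rw [ev_smul χ _ (one_mem A), ev_one, mul_one], smul_mul_assoc, one_mul, map_smul, smul_eq_mul,
    Complex.re_ofReal_mul]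

lemma sint_const_mul {f : Pt A → ℂ} (hf : f ∈ Rep A e) (c : ℝ) :
    int φ e ((fun _ => (c : ℂ)) * f) = c * int φ e f := by
  obtain ⟨a, ha, ha'⟩ := hf
  rw [sint_eq hM he hφ ha ha', sint_eq hM he hφ (csmul_mem (c : ℂ) ha) fun χ hχ => by
    rw [ev_smul χ _ ha, Pi.mul_apply, ha' χ hχ], smul_mul_assoc, map_smul, smul_eq_mul,
    Complex.re_ofReal_mul]

end Vale.Agent.P078.Twist
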