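import Vale.Agent.P078.Twist.Weight
import Vale.Agent.P078.Twist.Int

/-!
Moving the integral of a function supported near a cell onto the cell: against a central state the
sums over balls are weighted.
-/

namespace Vale.Agent.P078.Twist

open MKS MKS.Op Singular
open scoped Classical

/-- The module Transport. -/
theorem transport_ok : TransportStatement := by
  intro H _ _ _ M A e φ hM he hφ D hD n K hK hKs h hh hvan
  let T := Fin (Fintype.card (Fin n → Fin D.N) + 1)
  let W : T → (H →L[ℂ] H) := words D n
  have hn : ∀ a, W a ∈ normaliser M A := words_nor hM he D n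
  have hcor : ∀ a, Cor M e (W a) := fun a => ⟨(hn a).1, by
    refine Fin.cases ?_ (fun k => ?_) a
    · simp [W, words, he.2.isIdempotentElem.eq]
    · simpa [W, words] using word_corner D he n _⟩
  have hWe : ∀ a, W a * e = W a := fun a => (hcor a).mul_right he.2
  have heW : ∀ a, e * W a = W a := fun a => (hcor a).mul_left he.2
  choose σ hσ using fun a : T => exists_dens_star_words hM he hD n a
  have hσev : ∀ a (c η : Pt A), Moves (star (W a)) c η → ev c (σ a) = (wgt M A e φ c η : ℂ) :=
    fun a c η hm => ev_dens hM he hφ (nor_star (hn a)) ((hcor a).star' he.2).2 (hσ a) hm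
  let b : T → (H →L[ℂ] H) := fun a => star (W a) * K * W a
  have hb : ∀ a, IsPr A (b a) := fun a => conj_pr hM (hn a) hK
  obtain ⟨h₀, hh₀, hh'⟩ := hh
  have hfirst : ∀ a, ∃ t ∈ A, ∀ χ : Pt A, ev χ e = 1 →
      first (fun i (χ : Pt A) => ev χ (b i)) a χ = ev χ t :=
    fun a => first_mem (fun i => rep_ev (hb i).1) a
  choose t ht ht' using hfirst
  let x : T → (H →L[ℂ] H) := fun a => b a * (t a * h₀)
  have hx : ∀ a, x a ∈ A := fun a => mul_mem (hb a).1 (mul_mem (ht a) hh₀)
  have hxe : ∀ a, x a * e = x a := fun a => by
    show b a * (t a * h₀) * e = b a * (t a * h₀)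
    rw [mul_assoc, hM.2.1 (t a * h₀) (mul_mem (ht a) hh₀) e he.1, ← mul_assoc]
    congr 1
    show star (W a) * K * W a * e = _
    rw [mul_assoc, hWe]
  have hxd : ∀ a, x a * (star (W a) * W a) = x a := fun a => by
    show b a * (t a * h₀) * (star (W a) * W a) = b a * (t a * h₀)
    rw [mul_assoc, hM.2.1 (t a * h₀) (mul_mem (ht a) hh₀) _ (nor_dom (hn a)).1, ← mul_assoc]
    congr 1
    calc star (W a) * K * W a * (star (W a) * W a)
        = star (W a) * K * (W a * star (W a) * W a) := by simp only [mul_assoc]
      _ = b a := by rw [(hn a).2.1]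
  have hfcases : ∀ (η : Pt A) (a : T),
      first (fun i (χ : Pt A) => ev χ (b i)) a η = first (fun i => ev η (b i)) a := fun η a => by
    simp [first, Finset.prod_apply]
  have hevx : ∀ (a : T) (η : Pt A), ev η (x a) =
      if ev η (b a) = 1 then first (fun i => ev η (b i)) a * h η else 0 := fun a η => by
    rw [show ev η (x a) = ev η (b a) * (ev η (t a) * ev η h₀) by
      rw [← ev_mul η (ht a) hh₀, ← ev_mul η (hb a).1 (mul_mem (ht a) hh₀)]]
    rcases ev_proj η (hb a) with h0 | h1
    · simp [h0]
    · have hηe : ev η e = 1 := by
        have := congrArg (ev η) (show b a * e = b a by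
          show star (W a) * K * W a * e = _
          rw [mul_assoc, hWe])
        rwa [ev_mul η (hb a).1 he.1, h1, one_mul] at this
      rw [h1, one_mul, if_pos rfl, ← ht' a η hηe, ← hh' η hηe, hfcases]
  have hy : ∀ a, W a * x a * star (W a) ∈ A := fun a => ((hn a).2.2 _ (hx a)).1
  refine ⟨∑ a, σ a * (W a * x a * star (W a)),
    sum_mem fun a _ => mul_mem (hσ a).1 (hy a), ?_, fun c => ?_⟩
  · rw [sint_eq hM he hφ (a := ∑ a, x a) (sum_mem fun a _ => hx a) fun η hη => ?_]
    · simp only [Finset.sum_mul, map_sum, Complex.re_sum]
      refine Finset.sum_congr rfl fun a _ => ?_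
      rw [hxe, mul_assoc (σ a), show W a * x a * star (W a) * e = W a * x a * star (W a) by
        rw [mul_assoc, show star (W a) * e = star (W a) by
          simpa [star_mul, he.2.isSelfAdjoint.star_eq] using congrArg star (heW a)]]
      have h1 := (hσ a).2.2.2 _ (hy a)
      rw [star_star, show star (W a) * (W a * x a * star (W a)) * W a =
        star (W a) * W a * x a * (star (W a) * W a) by simp only [mul_assoc],
        masa_comm hM (nor_dom (hn a)).1 (hx a), hxd, hxd] at h1
      rw [h1]
    · rw [ev_sum η _ _ fun a _ => hx a]
      simp only [hevx]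
      by_cases hex : ∃ a, ev η (b a) = 1
      · obtain ⟨j, hj, hj1, hj0⟩ := sum_first (fun i => ev_proj η (hb i)) hex
        rw [Finset.sum_eq_single j]
        · rw [if_pos hj, hj1, one_mul]
        · intro a _ ha
          split_ifs
          · rw [hj0 a ha, zero_mul]
          · rfl
        · exact fun h => absurd (Finset.mem_univ j) h
      · push Not at hex
        rw [hvan η hη fun c hc hcK => ?_]
        · exact (Finset.sum_eq_zero fun a _ => if_neg (hex a)).symm
        · obtain ⟨a, ha⟩ := words_surj D n hc
          exact hex a (by rw [show ev η (b a) = ev c K from (ha.2 K hK.1).symm, hcK])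
  · rw [ev_sum c _ _ fun a _ => mul_mem (hσ a).1 (hy a)]
    simp only [fun a => ev_mul c (hσ a).1 (hy a)]
    by_cases hc : ev c K = 1
    · rw [if_pos hc]
      have hterm : ∀ a, ev c (σ a) * ev c (W a * x a * star (W a)) = ∑ η ∈ D.ball c n,
          if Moves (W a) η c then
            first (fun i => ev η (b i)) a * ((wgt M A e φ c η : ℂ) * h η) else 0 := fun a => by
        by_cases hd : ev c (W a * star (W a)) = 1
        · obtain ⟨θ, hθ⟩ := exists_moves hM (nor_star (hn a)) (by rwa [star_star])
          have hW := moves_star hM (nor_star (hn a)) hθ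
          rw [star_star] at hW
          have hθb : ev θ (b a) = 1 := by rw [← hW.2 K hK.1, hc]
          rw [Finset.sum_eq_single θ]
          · rw [if_pos hW, show ev c (W a * x a * star (W a)) = ev θ (x a) by
              rw [hθ.2 _ (hx a), star_star], hevx, if_pos hθb, hσev a c θ hθ]
            ring
          · intro η _ hη
            rw [if_neg fun hm => hη (moves_unique (moves_star hM (hn a) hm) hθ)]
          · intro hnot
            exact absurd ((mem_ball D).2 (reaches_symm hM he D (words_reach hM he D n a hW))) hnot
        · have h0 : ev c (star (star (W a)) * star (W a)) = 0 := by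
            rw [star_star]
            exact (ev_proj c (by simpa using nor_dom (nor_star (hn a)))).resolve_right hd
          rw [show ev c (W a * x a * star (W a)) = 0 by
            simpa using conj_of_not_dom (nor_star (hn a)) (hx a) h0, mul_zero]
          refine (Finset.sum_eq_zero fun η _ => if_neg fun hm => hd ?_).symm
          exact (moves_range hM (hn a) hm).2
      simp only [hterm]
      rw [Finset.sum_comm]
      refine Finset.sum_congr rfl fun η hη => ?_
      have hηc := (mem_ball D).1 hη
      obtain ⟨a₀, ha₀⟩ := words_surj D n (reaches_symm hM he D hηc)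
      have hiff : ∀ a, ev η (b a) = 1 → Moves (W a) η c := fun a ha => by
        have hd : ev η (star (W a) * W a) = 1 := by
          rcases ev_proj η (nor_dom (hn a)) with h0 | h1
          · rw [show ev η (b a) = 0 from conj_of_not_dom (hn a) hK.1 h0] at ha
            exact absurd ha zero_ne_one
          · exact h1
        obtain ⟨c', hc'⟩ := exists_moves hM (hn a) hd
        have hc'K : ev c' K = 1 := by rw [hc'.2 K hK.1]; exact ha
        rwa [sep_apply hM he D hKs hc hc'K hηc (words_reach hM he D n a hc')] at hc'
      obtain ⟨j, hj, hj1, hj0⟩ := sum_first (fun i => ev_proj η (hb i))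
        ⟨a₀, show ev η (b a₀) = 1 by rw [show ev η (b a₀) = ev c K from (ha₀.2 K hK.1).symm, hc]⟩
      rw [Finset.sum_eq_single j]
      · rw [if_pos (hiff j hj), hj1, one_mul]
      · intro a _ ha
        split_ifs
        · rw [hj0 a ha, zero_mul]
        · rfl
      · exact fun h => absurd (Finset.mem_univ j) h
    · rw [if_neg hc]
      refine Finset.sum_eq_zero fun a _ => ?_
      by_cases hd : ev c (W a * star (W a)) = 1
      · obtain ⟨θ, hθ⟩ := exists_moves hM (nor_star (hn a)) (by rwa [star_star])
        have hW := moves_star hM (nor_star (hn a)) hθ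
        rw [star_star] at hW
        rw [show ev c (W a * x a * star (W a)) = ev θ (x a) by rw [hθ.2 _ (hx a), star_star],
          hevx, if_neg, mul_zero]
        rw [← hW.2 K hK.1]
        exact hc
      · have h0 : ev c (star (star (W a)) * star (W a)) = 0 := by
          rw [star_star]
          exact (ev_proj c (by simpa using nor_dom (nor_star (hn a)))).resolve_right hd
        rw [show ev c (W a * x a * star (W a)) = 0 by
          simpa using conj_of_not_dom (nor_star (hn a)) (hx a) h0, mul_zero]

end Vale.Agent.P078.Twist
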