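import Vale.Agent.P078.Twist.Defs
import Vale.Agent.P078.State.AtomTools
import Vale.Agent.P078.State.So
import Vale.Agent.P078.State.Complete
import Vale.Agent.P078.Singular.Exhaust

/-!
Compressions by projections of the MASA close to the corner make the densities of finitely many
normalising partial isometries bounded (`dens_cut_ok`).
-/

namespace Vale.Agent.P078.Twist.DensCut

open Filter Topology MKS MKS.Op Singular Orth
open Vale.Agent.P078.Orth.Atom (Spot Sub cor_bmul cor_alg sub_cor sub_mul' sub_compl exists_thr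
  le_of_spot ev_sub_proj)
open Vale.Agent.P078.State.Atom (tr_bcomm n2_proj)

variable {H : Type} [NormedAddCommGroup H] [InnerProductSpace ℂ H] [CompleteSpace H]
variable {M A : VonNeumannAlgebra H} {e : H →L[ℂ] H} {φ : (H →L[ℂ] H) →ₗ[ℂ] ℂ}
variable (hA : IsMASA M A) (he : IsPr A e) (hφ : State.IsState M A e φ)
include hA he hφ

omit hA hφ in
theorem sub_conj {w R : H →L[ℂ] H} (hw : w ∈ normaliser M A) (hwc : e * w * e = w)
    (hR : IsPr A R) (hcomm : ∀ y ∈ A, ∀ z ∈ A, y * z = z * y) : Sub A e (w * R * star w) := by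
  have hd := (hw.2.2 1 (one_mem A)).2
  rw [mul_one] at hd
  have h1 : w * R * star w * (w * R * star w) = w * R * star w := by
    calc w * R * star w * (w * R * star w) = w * (R * (star w * w)) * R * star w := by
          simp only [mul_assoc]
      _ = w * star w * w * (R * R) * star w := by
          rw [hcomm R hR.1 _ hd]
          simp only [mul_assoc]
      _ = w * R * star w := by rw [hw.2.1, hR.2.isIdempotentElem.eq]
  have h2 : star w * e = star w := by
    have := congrArg star hwc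
    rw [star_mul, star_mul, he.2.isSelfAdjoint.star_eq] at this
    rw [← this, mul_assoc, mul_assoc, he.2.isIdempotentElem.eq]
  refine ⟨⟨(hw.2.2 R hR.1).1, h1, ?_⟩, by rw [mul_assoc, h2]⟩
  show star (w * R * star w) = w * R * star w
  rw [star_mul, star_mul, star_star, hR.2.isSelfAdjoint.star_eq, mul_assoc]

/-- A dominated transported functional has a density on the projections of `A`. -/
theorem exists_dens_proj {w : H →L[ℂ] H} (hw : w ∈ normaliser M A) (hwc : e * w * e = w) {B : ℝ}
    (hB : 0 ≤ B) (hdom : ∀ R, Sub A e R → (φ (w * R * star w)).re ≤ B * (φ R).re) :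
    ∃ ρ, ρ ∈ A ∧ 0 ≤ ρ ∧ Cor M e ρ ∧
      ∀ R, Sub A e R → (φ (ρ * R)).re = (φ (w * R * star w)).re := by
  classical
  have hcomm := hA.2.1
  have hwC : Cor M e w := ⟨hw.1, hwc⟩
  set ψ : (H →L[ℂ] H) → ℝ := fun R => (φ (w * R * star w)).re with hψ
  have hψ0 : ∀ R, IsPr A R → 0 ≤ ψ R := fun R hR => by
    have hs := sub_conj he hw hwc hR hcomm
    exact State.Atom.tr_nonneg he.2 hφ (sub_cor hA he hs) hs.1.2.nonneg
  have hψsum : ∀ {ι : Type} (s : Finset ι) (q : ι → (H →L[ℂ] H)),
      ψ (∑ i ∈ s, q i) = ∑ i ∈ s, ψ (q i) := fun s q => by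
    simp only [hψ, Finset.mul_sum, Finset.sum_mul, map_sum, Complex.re_sum]
  have hpos : ∀ {R}, Sub A e R → R ≠ 0 → 0 < (φ R).re := fun {R} hR h0 => by
    rw [← n2_proj hA he hφ hR]
    refine pow_pos (lt_of_not_ge fun h => h0 ?_) 2
    exact State.Atom.eq_zero_of_n2 he.2 hφ (sub_cor hA he hR) h
  set t : (H →L[ℂ] H) → ℝ := fun R => ψ R / (φ R).re with ht
  have hsub : ∀ (c : Cut A e) i, Sub A e (c.q i) := fun c i => ⟨c.part.1 i, (c.part.mul_e i).2⟩
  have htφ : ∀ R, Sub A e R → t R * (φ R).re = ψ R := fun R hR => by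
    rcases eq_or_ne R 0 with h | h
    · simp [ht, hψ, h]
    · exact div_mul_cancel₀ _ (hpos hR h).ne'
  have ht01 : ∀ R, Sub A e R → 0 ≤ t R ∧ t R ≤ B := fun R hR => by
    rcases eq_or_ne R 0 with h | h
    · simp [ht, hψ, h, hB]
    · exact ⟨div_nonneg (hψ0 R hR.1) (hpos hR h).le, (div_le_iff₀ (hpos hR h)).2 (hdom R hR)⟩
  set T : Cut A e → (H →L[ℂ] H) := fun c => ∑ i, (t (c.q i)) • c.q i with hT
  have hTA : ∀ c, T c ∈ A := fun c => sum_mem fun i _ => vn_smul A _ (c.part.1 i).1
  have hTc : ∀ c, Cor M e (T c) := fun c => Cor.sum _ fun i _ =>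
    (sub_cor hA he (hsub c i)).rsmul _
  have hTsa : ∀ c, IsSelfAdjoint (T c) := fun c => isSelfAdjoint_sum _ fun i _ =>
    (IsSelfAdjoint.all _).smul (c.part.1 i).2.isSelfAdjoint
  have hTn : ∀ c, ‖T c‖ ≤ B := fun c => by
    refine norm_le_of_bounds (hTsa c) hB ?_ ?_
    · refine le_trans ?_ (Finset.sum_nonneg fun i _ =>
        smul_nonneg (ht01 _ (hsub c i)).1 (c.part.1 i).2.nonneg)
      rw [neg_smul]
      exact neg_nonpos.2 (smul_nonneg hB zero_le_one)
    · refine (Finset.sum_le_sum fun i _ => smul_le_smul_right' (ht01 _ (hsub c i)).2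
        (c.part.1 i).2.nonneg).trans ?_
      rw [← Finset.smul_sum, c.part.2.2]
      exact smul_le_smul_of_nonneg_left (proj_le_one he.2) hB
  -- on a compatible projection the step function has the right value
  have hval : ∀ (c : Cut A e) (R : H →L[ℂ] H), Sub A e R →
      (∀ i, c.q i * R = c.q i ∨ c.q i * R = 0) → (φ (T c * R)).re = ψ R := fun c R hR hc => by
    have hcor := sub_cor hA he hR
    have hRe : ∑ i, c.q i * R = R := by rw [← Finset.sum_mul, c.part.2.2, hcor.mul_left he.2]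
    conv_rhs => rw [← hRe]
    rw [hψsum, hT, Finset.sum_mul, map_sum, Complex.re_sum]
    refine Finset.sum_congr rfl fun i _ => ?_
    rw [smul_mul_assoc, MKS.tr_rsmul]
    rcases hc i with h | h
    · rw [h]; exact htφ _ (hsub c i)
    · simp [h, hψ]
  have hinner : ∀ c d : Cut A e, c.Refines d →
      (φ (T d * T c)).re = (φ (T c * T c)).re := fun c d h => by
    have key : ∀ c' : Cut A e, c.Refines c' → (φ (T c' * T c)).re = ∑ k, t (c.q k) * ψ (c.q k) := by
      intro c' h'
      conv_lhs => arg 1; arg 2; arg 2; rw [hT]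
      rw [Finset.mul_sum, map_sum, Complex.re_sum]
      refine Finset.sum_congr rfl fun k _ => ?_
      rw [mul_smul_comm, MKS.tr_rsmul, hval c' _ (hsub c k) fun i => piece_of_refines h' i k]
    rw [key d h, key c (refines_refl c)]
  have hdist : ∀ c d : Cut A e, c.Refines d →
      n2 φ (T c - T d) ^ 2 = (φ (T d * T d)).re - (φ (T c * T c)).re := fun c d h => by
    rw [State.Atom.n2_sq he.2 hφ ((hTc c).sub (hTc d)), ((hTsa c).sub (hTsa d)).star_eq, sub_mul,
      mul_sub, mul_sub]
    simp only [map_sub, Complex.sub_re]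
    rw [hcomm (T c) (hTA c) (T d) (hTA d), hinner c d h]
    ring
  set s : Cut A e → ℝ := fun c => (φ (T c * T c)).re with hs
  have hsbd : ∀ c, s c ≤ B ^ 2 * (φ e).re := fun c => by
    have e1 : s c = n2 φ (T c) ^ 2 := by
      rw [State.Atom.n2_sq he.2 hφ (hTc c), (hTsa c).star_eq]
    have e2 : n2 φ (T c) ≤ B * n2 φ e := by
      have h1 := State.Atom.n2_mul_le he.2 hφ
        (g := T c) (y := e) (by rw [(hTc c).mul_right he.2]; exact hTc c)
        (cor_proj (hA.1 e he.1) he.2)
      rw [(hTc c).mul_right he.2] at h1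
      exact h1.trans (mul_le_mul_of_nonneg_right (hTn c) (n2_nonneg _))
    rw [e1, ← n2_proj hA he hφ (P := e) ⟨he, he.2.isIdempotentElem.eq⟩, ← mul_pow]
    exact pow_le_pow_left₀ (n2_nonneg _) e2 2
  have : Nonempty (Cut A e) := ⟨topCut he.1 he.2⟩
  set S := sSup (Set.range s)
  have hbdd : BddAbove (Set.range s) := ⟨B ^ 2 * (φ e).re, by rintro _ ⟨c, rfl⟩; exact hsbd c⟩
  have hSle : ∀ c, s c ≤ S := fun c => le_csSup hbdd ⟨c, rfl⟩
  have hex : ∀ n : ℕ, ∃ c, S - 1 / (n + 1) < s c := fun n => by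
    obtain ⟨_, ⟨c, rfl⟩, h⟩ := exists_lt_of_lt_csSup (Set.range_nonempty s)
      (sub_lt_self S (show (0 : ℝ) < 1 / (n + 1) by positivity))
    exact ⟨c, h⟩
  choose d hd using hex
  set c : ℕ → Cut A e := fun n => Nat.rec (d 0) (fun k q => meet hA q (d (k + 1))) n with hc
  have hcc : ∀ n k, n ≤ k → (c n).Refines (c k) := fun n k hnk => by
    induction k, hnk using Nat.le_induction with
    | base => exact refines_refl _
    | succ k _ ih => exact refines_trans ih (refines_meet_left hA _ _)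
  have hnear : ∀ n, S - 1 / (n + 1) ≤ s (c n) := fun n => by
    have hdc : (d n).Refines (c n) := by
      cases n with
      | zero => exact refines_refl _
      | succ k => exact refines_meet_right hA _ _
    have := hdist _ _ hdc
    nlinarith [hd n, sq_nonneg (n2 φ (T (d n) - T (c n)))]
  have hsmall : ∀ n q, (c n).Refines q → n2 φ (T (c n) - T q) ≤ Real.sqrt (1 / (n + 1)) :=
    fun n q h => by
      rw [← Real.sqrt_sq (n2_nonneg (T (c n) - T q))]
      refine Real.sqrt_le_sqrt ?_
      rw [hdist _ _ h]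
      linarith [hnear n, hSle q]
  have hsqrt : Tendsto (fun n : ℕ => Real.sqrt (1 / (n + 1))) atTop (𝓝 0) := by
    simpa using (tendsto_one_div_add_atTop_nhds_zero_nat (𝕜 := ℝ)).sqrt
  obtain ⟨ρ, hρ, -, hlim, -⟩ := State.complete_ok H M A e φ hA he.1 he.2 hφ (fun n => T (c n)) B
    (fun n => ⟨hTc _, hTn _⟩) fun δ hδ => by
      obtain ⟨N, hN⟩ := (hsqrt.eventually_lt_const hδ).exists_forall_of_atTop
      refine ⟨N, fun i hi j hj => ?_⟩
      rcases le_total i j with h | h
      · exact (hsmall i _ (hcc i j h)).trans (hN i hi).le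
      · rw [State.Atom.n2_sub_comm]; exact (hsmall j _ (hcc j i h)).trans (hN j hj).le
  have hρA : ρ ∈ A := State.Atom.lim_mem hA he hφ (fun n => ⟨hTA _, hTc _⟩) hρ hlim
  have hρs : star ρ = ρ := by
    refine State.Atom.n2_limit_unique he.2 hφ (fun n => hTc (c n)) (hρ.star' he.2) hρ
      (hlim.congr fun n => ?_) hlim
    rw [n2, n2, star_sub, star_sub, (hTsa _).star_eq, star_star,
      hcomm (T (c n) - ρ) (sub_mem (hTA _) hρA) _ (sub_mem (hTA _) (star_mem hρA))]
  -- the density on projections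
  have hproj : ∀ R, Sub A e R → (φ (ρ * R)).re = ψ R := fun R hR => by
    have htwo : IsPartition A e ![R, e - R] := by
      refine ⟨fun i => by fin_cases i <;> first | exact hR.1 | exact (sub_compl hA he hR).1,
        fun i j hij => ?_, by simp⟩
      have hRe : e * R = R := (sub_cor hA he hR).mul_left he.2
      fin_cases i <;> fin_cases j <;> first
        | exact absurd rfl hij
        | simp [mul_sub, sub_mul, hR.2, hRe, hR.1.2.isIdempotentElem.eq]
    refine eq_of_abs_sub_nonpos (ge_of_tendsto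
      (show Tendsto (fun n => (n2 φ (T (c n) - ρ) + Real.sqrt (1 / (n + 1))) * n2 φ R) atTop (𝓝 0) by
        simpa using (hlim.add hsqrt).mul_const (n2 φ R)) (Eventually.of_forall fun n => ?_))
    set q := meet hA (c n) ⟨2, _, htwo⟩
    have h1 : (φ (T q * R)).re = ψ R := hval q R hR fun i =>
      piece_of_refines (refines_meet_right hA (c n) ⟨2, _, htwo⟩) i (0 : Fin 2)
    have hd' := hρ.sub (hTc q)
    have h2 := State.Atom.abs_re_cs he.2 hφ hd' (sub_cor hA he hR)
    rw [star_sub, hρs, (hTsa q).star_eq, sub_mul, map_sub, Complex.sub_re, h1] at h2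
    refine h2.trans (mul_le_mul_of_nonneg_right ?_ (n2_nonneg _))
    have h3 := State.Atom.n2_add_le he.2 hφ (hρ.sub (hTc (c n))) ((hTc (c n)).sub (hTc q))
    rw [sub_add_sub_cancel, State.Atom.n2_sub_comm ρ (T (c n))] at h3
    linarith [hsmall n q (refines_meet_left hA _ _)]
  have hzero : (0 : H →L[ℂ] H) ∈ A := zero_mem _
  have hρ0 : 0 ≤ ρ := by
    refine le_of_spot hA he hzero hρA Cor.zero hρ (IsSelfAdjoint.zero _) hρs fun χ => ?_
    rw [Op.ev_zero, Complex.zero_re]
    by_contra hneg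
    push Not at hneg
    obtain ⟨u, hu0, hu⟩ : ∃ u : ℝ, 0 < u ∧ u < -(ev χ.1 ρ).re :=
      ⟨-(ev χ.1 ρ).re / 2, by linarith, by linarith⟩
    obtain ⟨P, hP, hPev⟩ := exists_thr hA he (neg_mem hρA) hρ.neg (IsSelfAdjoint.neg hρs) hu0
    have hP0 : P = 0 := by
      by_contra hne
      have hpP := hpos hP hne
      have hle : u • P ≤ -(ρ * P) := by
        refine le_of_spot hA he (vn_smul A _ hP.1.1) (neg_mem (mul_mem hρA hP.1.1))
          ((sub_cor hA he hP).rsmul _) ((hρ.mul he.2 (sub_cor hA he hP)).neg)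
          ((IsSelfAdjoint.all u).smul hP.1.2.isSelfAdjoint) ?_ fun χ' => ?_
        · exact (((show IsSelfAdjoint ρ from hρs).commute_iff hP.1.2.isSelfAdjoint).1
            (hcomm ρ hρA P hP.1.1)).neg
        · rw [RCLike.real_smul_eq_coe_smul (K := ℂ), Op.ev_smul _ _ hP.1.1, ← neg_mul,
            Op.ev_mul _ (neg_mem hρA) hP.1.1]
          refine (Complex.re_ofReal_mul _ _).trans_le ?_
          rcases ev_sub_proj hP χ' with h | h
          · simp [h]
          · rw [h, mul_one, Complex.one_re, mul_one]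
            exact (hPev χ').1 h
      have h1 := State.Atom.tr_mono he.2 hφ ((sub_cor hA he hP).rsmul _)
        ((hρ.mul he.2 (sub_cor hA he hP)).neg) hle
      rw [MKS.tr_rsmul, map_neg, Complex.neg_re, hproj P hP] at h1
      nlinarith [hψ0 P hP.1]
    have h1 := (hPev χ).2 (by rw [hP0, Op.ev_zero])
    rw [← neg_one_smul ℂ ρ, Op.ev_smul _ _ hρA] at h1
    simp at h1
    linarith
  exact ⟨ρ, hρA, hρ0, hρ, hproj⟩

theorem ev_rsmul_re (χ : Pt A) (c : ℝ) {x : H →L[ℂ] H} (hx : x ∈ A) :
    (ev χ (c • x)).re = c * (ev χ x).re := by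
  rw [RCLike.real_smul_eq_coe_smul (K := ℂ), Op.ev_smul _ _ hx]
  exact Complex.re_ofReal_mul _ _

/-- An element between `0` and `e` is near an average of projections. -/
theorem exists_average {b : H →L[ℂ] H} (hb : b ∈ A) (hbc : Cor M e b) (hb0 : 0 ≤ b) (hb1 : b ≤ e)
    (N : ℕ) : ∃ P : Fin (N + 1) → (H →L[ℂ] H), (∀ k, Sub A e (P k)) ∧ ∀ χ : Spot A e,
      |(ev χ.1 b).re - (ev χ.1 ((1 / ((N + 1 : ℕ) : ℝ)) • ∑ k, P k)).re| ≤ 1 / ((N + 1 : ℕ) : ℝ) := by
  have hbs := IsSelfAdjoint.of_nonneg hb0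
  set K := N + 1
  have hK : (0 : ℝ) < K := by positivity
  choose P hP hPev using fun k : Fin K => exists_thr hA he hb hbc hbs
    (d := ((k : ℝ) + 1) / K) (by positivity)
  refine ⟨P, hP, fun χ => ?_⟩
  have hb0' : 0 ≤ (ev χ.1 b).re := Op.ev_nonneg χ.1 hb hb0
  have hb1' : (ev χ.1 b).re ≤ 1 := by
    have := Op.ev_mono χ.1 hb he.1 hb1
    rwa [χ.2, Complex.one_re] at this
  rw [ev_rsmul_re hA he hφ _ _ (sum_mem fun k _ => (hP k).1.1),
    Op.ev_sum _ _ _ fun k _ => (hP k).1.1, Complex.re_sum]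
  set β := (ev χ.1 b).re
  have hlo : ∀ k : Fin K, (if ((k : ℝ) + 1) / K < β then (1 : ℝ) else 0) ≤ (ev χ.1 (P k)).re := by
    intro k
    split_ifs with h
    · rcases ev_sub_proj (hP k) χ with h0 | h0
      · exact absurd ((hPev k χ).2 h0) (not_le.2 h)
      · simp [h0]
    · rcases ev_sub_proj (hP k) χ with h0 | h0 <;> simp [h0]
  have hhi : ∀ k : Fin K, (ev χ.1 (P k)).re ≤ if ((k : ℝ) + 1) / K ≤ β then (1 : ℝ) else 0 := by
    intro k
    split_ifs with h
    · rcases ev_sub_proj (hP k) χ with h0 | h0 <;> simp [h0]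
    · rcases ev_sub_proj (hP k) χ with h0 | h0
      · simp [h0]
      · exact absurd ((hPev k χ).1 h0) h
  have count : ∀ x : ℝ, 0 ≤ x → x ≤ K →
      x - 1 ≤ ∑ k : Fin K, (if (k : ℝ) + 1 < x then (1 : ℝ) else 0) ∧
      ∑ k : Fin K, (if (k : ℝ) + 1 ≤ x then (1 : ℝ) else 0) ≤ x := by
    intro x hx0 hx1
    constructor
    · rcases eq_or_ne x 0 with rfl | hne
      · have : (0 : ℝ) ≤ ∑ k : Fin K, (if (k : ℝ) + 1 < 0 then (1 : ℝ) else 0) :=
          Finset.sum_nonneg fun k _ => by split_ifs <;> norm_num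
        linarith
      have hm : ⌈x⌉₊ - 1 ≤ K := by
        have := Nat.ceil_le.2 hx1
        omega
      have hsub : ∑ k : Fin (⌈x⌉₊ - 1), (1 : ℝ) ≤
          ∑ k : Fin K, (if (k : ℝ) + 1 < x then (1 : ℝ) else 0) := by
        calc ∑ k : Fin (⌈x⌉₊ - 1), (1 : ℝ)
            = ∑ k ∈ Finset.univ.map (Fin.castLEEmb hm), (1 : ℝ) := by simp
          _ ≤ ∑ k ∈ Finset.univ.map (Fin.castLEEmb hm),
                (if (k : ℝ) + 1 < x then (1 : ℝ) else 0) := by
              refine Finset.sum_le_sum fun k hk => ?_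
              obtain ⟨j, -, rfl⟩ := Finset.mem_map.1 hk
              have hj : (j : ℕ) + 1 < ⌈x⌉₊ := by omega
              have := Nat.lt_ceil.1 hj
              push_cast at this
              simp [this]
          _ ≤ _ := Finset.sum_le_univ_sum_of_nonneg fun k => by split_ifs <;> norm_num
      simp only [Finset.sum_const, Finset.card_univ, Fintype.card_fin, nsmul_eq_mul,
        mul_one] at hsub
      have h1 : 1 ≤ ⌈x⌉₊ := Nat.one_le_iff_ne_zero.2 (by
        simpa [Nat.ceil_eq_zero] using lt_of_le_of_ne hx0 (Ne.symm hne))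
      rw [Nat.cast_sub h1, Nat.cast_one] at hsub
      linarith [Nat.le_ceil x]
    · calc ∑ k : Fin K, (if (k : ℝ) + 1 ≤ x then (1 : ℝ) else 0)
          ≤ ∑ k : Fin K, (if (k : ℕ) < ⌊x⌋₊ then (1 : ℝ) else 0) := by
            refine Finset.sum_le_sum fun k _ => ?_
            by_cases h : (k : ℝ) + 1 ≤ x
            · have : (k : ℕ) + 1 ≤ ⌊x⌋₊ := Nat.le_floor (by push_cast; exact h)
              rw [if_pos h, if_pos (by omega)]
            · rw [if_neg h]
              split_ifs <;> norm_num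
        _ = ((Finset.univ : Finset (Fin K)).filter fun k : Fin K => (k : ℕ) < ⌊x⌋₊).card := by
            rw [Finset.sum_boole]
        _ ≤ ⌊x⌋₊ := by
            have : ((Finset.univ : Finset (Fin K)).filter fun k : Fin K => (k : ℕ) < ⌊x⌋₊).card ≤
                (Finset.range ⌊x⌋₊).card :=
              Finset.card_le_card_of_injOn (fun k => (k : ℕ))
                (fun k hk => by simpa using hk) fun i _ j _ h => Fin.ext h
            rw [Finset.card_range] at this
            exact_mod_cast this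
        _ ≤ x := Nat.floor_le hx0
  obtain ⟨c1, c2⟩ := count (β * K) (mul_nonneg hb0' hK.le) (by nlinarith)
  simp only [div_lt_iff₀ hK] at hlo
  simp only [div_le_iff₀ hK] at hhi
  have h1 := c1.trans (Finset.sum_le_sum fun k _ => hlo k)
  have h2 := (Finset.sum_le_sum fun k _ => hhi k).trans c2
  rw [abs_le]
  constructor
  · rw [neg_le_sub_iff_le_add, div_mul_eq_mul_div, one_mul, div_le_iff₀ hK, add_mul,
      div_mul_cancel₀ _ hK.ne']
    linarith
  · rw [sub_le_iff_le_add, div_mul_eq_mul_div, one_mul, ← add_div, le_div_iff₀ hK]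
    linarith

/-- A density on the projections is a density on the unit interval of the corner. -/
theorem dens_unit {w : H →L[ℂ] H} (hw : w ∈ normaliser M A) (hwc : e * w * e = w) {ρ : H →L[ℂ] H}
    (hρA : ρ ∈ A) (hρ0 : 0 ≤ ρ) (hρ : Cor M e ρ)
    (hproj : ∀ R, Sub A e R → (φ (ρ * R)).re = (φ (w * R * star w)).re) :
    ∀ b, b ∈ A → Cor M e b → 0 ≤ b → b ≤ e → φ (w * b * star w) - φ (ρ * b) = 0 := by
  classical
  have hcomm := hA.2.1
  have hwC : Cor M e w := ⟨hw.1, hwc⟩
  have hρs : star ρ = ρ := (IsSelfAdjoint.of_nonneg hρ0).star_eq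
  set ψ : (H →L[ℂ] H) → ℝ := fun R => (φ (w * R * star w)).re with hψ
  have hψ0 : ∀ R, IsPr A R → 0 ≤ ψ R := fun R hR => by
    have hs := sub_conj he hw hwc hR hcomm
    exact State.Atom.tr_nonneg he.2 hφ (sub_cor hA he hs) hs.1.2.nonneg
  -- both sides are positive functionals agreeing on projections
  set Ψ : (H →L[ℂ] H) → ℂ := fun b => φ (w * b * star w) - φ (ρ * b) with hΨ
  have him : ∀ b, b ∈ A → IsSelfAdjoint b → (Ψ b).im = 0 := fun b hb hbs => by
    have h1 : ∀ X : H →L[ℂ] H, Cor M e X → star X = X → (φ X).im = 0 := fun X hX hXs => by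
      have h2 := State.Atom.tr_star he.2 hφ (hA.1 e he.1) hX
      rw [hXs] at h2
      exact Complex.conj_eq_iff_im.1 h2.symm
    have e1 : Cor M e (w * b * star w) := by
      have := hwC.mul he.2 (cor_bmul hA he hb (hwC.star' he.2)).1
      rwa [← mul_assoc] at this
    rw [hΨ, Complex.sub_im, h1 _ e1 (by simp only [star_mul, star_star, hbs.star_eq, mul_assoc]),
      h1 _ (cor_bmul hA he hb hρ).2 (by rw [star_mul, hρs, hbs.star_eq, hcomm b hb ρ hρA]), sub_zero]
  have hΨproj : ∀ R, Sub A e R → Ψ R = 0 := fun R hR =>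
    Complex.ext (by rw [hΨ, Complex.sub_re, hproj R hR]; simp [hψ])
      (him R hR.1.1 hR.1.2.isSelfAdjoint)
  have hmonoψ : ∀ x y, x ∈ A → y ∈ A → Cor M e x → Cor M e y → x ≤ y →
      (φ (w * x * star w)).re ≤ (φ (w * y * star w)).re := fun x y _ _ hxc hyc hxy => by
    refine State.Atom.tr_mono he.2 hφ ((hwC.mul he.2 hxc).mul he.2 (hwC.star' he.2))
      ((hwC.mul he.2 hyc).mul he.2 (hwC.star' he.2)) ?_
    have := conj_le hxy (star w)
    rwa [star_star] at this
  have hmonoρ : ∀ x y, x ∈ A → y ∈ A → Cor M e x → Cor M e y → x ≤ y →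
      (φ (ρ * x)).re ≤ (φ (ρ * y)).re := fun x y hx hy hxc hyc hxy => by
    obtain ⟨r, hrs, hrr, hrc⟩ := TraceFacts.exists_sqrt hρ0
    have hrA : r ∈ A := mem_of_forall_commute A fun z hz =>
      ((hrc z (commutant_commute hz hρA)).eq).symm
    have hz : ∀ z, z ∈ A → ρ * z = star r * z * r := fun z hz => by
      rw [hrs, mul_assoc, hcomm z hz r hrA, ← mul_assoc, hrr]
    rw [hz x hx, hz y hy, hrs]
    refine State.Atom.tr_mono he.2 hφ (cor_bmul hA he hrA (cor_bmul hA he hrA hxc).1).2
      (cor_bmul hA he hrA (cor_bmul hA he hrA hyc).1).2 ?_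
    have := conj_le hxy r
    rwa [hrs] at this
  have hunit : ∀ b, b ∈ A → Cor M e b → 0 ≤ b → b ≤ e → Ψ b = 0 := by
    intro b hb hbc hb0 hb1
    have hbs := IsSelfAdjoint.of_nonneg hb0
    refine Complex.ext (eq_of_abs_sub_nonpos ?_) (by simpa using him b hb hbs)
    rw [Complex.zero_re, sub_zero]
    refine le_of_forall_gt_imp_ge_of_dense fun η hη => ?_
    have hee := cor_proj (hA.1 e he.1) he.2
    set W := (φ (w * e * star w)).re + (φ (ρ * e)).re
    have hW : 0 ≤ W := by
      have h1 := hψ0 e he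
      have h2 := hproj e ⟨he, he.2.isIdempotentElem.eq⟩
      simp only [hψ] at h1
      simp only [W]
      linarith
    obtain ⟨N, hN⟩ := exists_nat_gt (W / η)
    set K := N + 1
    have hK : (0 : ℝ) < K := by positivity
    obtain ⟨P, hP, hev⟩ := exists_average hA he hφ hb hbc hb0 hb1 N
    set X : H →L[ℂ] H := (1 / K : ℝ) • ∑ k, P k with hX
    have hXA : X ∈ A := vn_smul A _ (sum_mem fun k _ => (hP k).1.1)
    have hXc : Cor M e X := (Cor.sum _ fun k _ => sub_cor hA he (hP k)).rsmul _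
    have hXs : IsSelfAdjoint X := (IsSelfAdjoint.all _).smul
      (isSelfAdjoint_sum _ fun k _ => (hP k).1.2.isSelfAdjoint)
    have hΨX : φ (w * X * star w) = φ (ρ * X) := by
      have h0 : ∀ k, φ (w * P k * star w) = φ (ρ * P k) := fun k => sub_eq_zero.1 (hΨproj _ (hP k))
      simp only [hX, mul_smul_comm, smul_mul_assoc, Finset.mul_sum, Finset.sum_mul, Finset.smul_sum,
        map_sum, LinearMap.map_smul_of_tower, h0]
    have hkA : (1 / K : ℝ) • e ∈ A := vn_smul A _ he.1
    have hkc : Cor M e ((1 / K : ℝ) • e) := hee.rsmul _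
    have hup : b ≤ X + (1 / K : ℝ) • e := le_of_spot hA he hb (add_mem hXA hkA) hbc (hXc.add hkc) hbs
      (hXs.add ((IsSelfAdjoint.all _).smul he.2.isSelfAdjoint)) fun χ => by
        rw [Op.ev_add _ hXA hkA, Complex.add_re, ev_rsmul_re hA he hφ _ _ he.1, χ.2, Complex.one_re,
          mul_one]
        linarith [(abs_le.1 (hev χ)).2]
    have hdn : X ≤ b + (1 / K : ℝ) • e := le_of_spot hA he hXA (add_mem hb hkA) hXc (hbc.add hkc) hXs
      (hbs.add ((IsSelfAdjoint.all _).smul he.2.isSelfAdjoint)) fun χ => by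
        rw [Op.ev_add _ hb hkA, Complex.add_re, ev_rsmul_re hA he hφ _ _ he.1, χ.2, Complex.one_re,
          mul_one]
        linarith [(abs_le.1 (hev χ)).1]
    have a1 := hmonoψ _ _ hb (add_mem hXA hkA) hbc (hXc.add hkc) hup
    have a2 := hmonoψ _ _ hXA (add_mem hb hkA) hXc (hbc.add hkc) hdn
    have a3 := hmonoρ _ _ hb (add_mem hXA hkA) hbc (hXc.add hkc) hup
    have a4 := hmonoρ _ _ hXA (add_mem hb hkA) hXc (hbc.add hkc) hdn
    simp only [mul_add, add_mul, mul_smul_comm, smul_mul_assoc, map_add, Complex.add_re,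
      MKS.tr_rsmul, hΨX] at a1 a2 a3 a4
    have hKη : W / (K : ℝ) ≤ η := by
      rw [div_le_iff₀ hK]
      rw [div_lt_iff₀ hη] at hN
      push_cast [K]
      nlinarith
    rw [hΨ, Complex.sub_re, abs_le]
    rw [show W / (K : ℝ) = 1 / K * (φ (w * e * star w)).re + 1 / K * (φ (ρ * e)).re by
      simp only [W]; ring] at hKη
    constructor <;> linarith
  exact hunit

/-- The Radon-Nikodym theorem on `A`: a dominated transported functional has a bounded density. -/
theorem exists_hasDens {w : H →L[ℂ] H} (hw : w ∈ normaliser M A) (hwc : e * w * e = w) {B : ℝ}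
    (hB : 0 ≤ B) (hdom : ∀ R, Sub A e R → (φ (w * R * star w)).re ≤ B * (φ R).re) :
    ∃ ρ, HasDens A φ w ρ := by
  have hcomm := hA.2.1
  have hwC : Cor M e w := ⟨hw.1, hwc⟩
  obtain ⟨ρ, hρA, hρ0, hρ, hproj⟩ := exists_dens_proj hA he hφ hw hwc hB hdom
  have hunit := dens_unit hA he hφ hw hwc hρA hρ0 hρ hproj
  set Ψ : (H →L[ℂ] H) → ℂ := fun b => φ (w * b * star w) - φ (ρ * b) with hΨ
  -- conclusion
  set D := star w * w with hDdef
  have hD : D ∈ A := by simpa using (hw.2.2 1 (one_mem A)).2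
  have hDp : IsPr A D := MKS.Op.nor_dom hw
  have hwe : w * e = w := hwC.mul_right he.2
  have hwD : w * D = w := by rw [hDdef, ← mul_assoc, hw.2.1]
  have hDw : D * star w = star w := by
    have := congrArg star hwD
    rwa [star_mul, hDp.2.isSelfAdjoint.star_eq] at this
  refine ⟨ρ * D, mul_mem hρA hD, ?_, by rw [mul_assoc, hDp.2.isIdempotentElem.eq], fun a ha => ?_⟩
  · rw [show ρ * D = star D * ρ * D by
      rw [hDp.2.isSelfAdjoint.star_eq, hcomm D hD ρ hρA, mul_assoc, hDp.2.isIdempotentElem.eq]]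
    exact star_left_conjugate_nonneg hρ0 D
  -- all elements of the corner, by scaling and splitting
  have hsa : ∀ b, b ∈ A → Cor M e b → IsSelfAdjoint b → Ψ b = 0 := by
    intro b hb hbc hbs
    set C := ‖b‖ + 1
    have hC : 0 < C := by positivity
    have hbd := bounds_of_norm_le hbs (show ‖b‖ ≤ C by simp [C])
    have hcb := conj_bounds he.2 hbd.1 hbd.2
    rw [hbc.2] at hcb
    set u := (2 * C)⁻¹ • (b + C • e) with hu
    have huA : u ∈ A := vn_smul A _ (add_mem hb (vn_smul A _ he.1))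
    have huc : Cor M e u := (hbc.add ((cor_proj (hA.1 e he.1) he.2).rsmul _)).rsmul _
    have h0 : Ψ u = 0 := by
      refine hunit u huA huc (smul_nonneg (by positivity) ?_) ?_
      · have h := hcb.1
        rw [neg_smul, ← sub_nonneg, sub_neg_eq_add] at h
        exact h
      · have h := smul_le_smul_of_nonneg_left (add_le_add hcb.2 (le_refl (C • e)))
          (show (0 : ℝ) ≤ (2 * C)⁻¹ by positivity)
        rw [← add_smul, smul_smul, show (2 * C)⁻¹ * (C + C) = 1 by field_simp; ring, one_smul] at h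
        exact h
    have he0 : Ψ e = 0 := hunit e he.1 (cor_proj (hA.1 e he.1) he.2) he.2.nonneg le_rfl
    have hlin : Ψ u = ((2 * C)⁻¹ : ℝ) • (Ψ b + C • Ψ e) := by
      simp only [hΨ, hu, mul_smul_comm, smul_mul_assoc, mul_add, add_mul,
        LinearMap.map_smul_of_tower, map_add, smul_add, smul_sub]
      abel
    rw [hlin, he0, smul_zero, add_zero, smul_eq_zero] at h0
    exact h0.resolve_left (inv_ne_zero (by positivity))
  set b := a * e * D with hb
  have hbA : b ∈ A := mul_mem (mul_mem ha he.1) hD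
  have hbc : Cor M e b := (cor_bmul hA he hD (cor_alg hA he ha)).2
  have hsum : IsSelfAdjoint (b + star b) := IsSelfAdjoint.add_star_self b
  have hdif : IsSelfAdjoint (Complex.I • (b - star b)) := by
    simp [IsSelfAdjoint, star_smul, smul_sub, neg_add_eq_sub]
  have p1 := hsa _ (add_mem hbA (star_mem hbA)) (hbc.add (hbc.star' he.2)) hsum
  have p2 := hsa _ (A.toStarSubalgebra.smul_mem (sub_mem hbA (star_mem hbA)) Complex.I)
    ((hbc.sub (hbc.star' he.2)).csmul _) hdif
  simp only [hΨ, mul_add, add_mul, mul_smul_comm, smul_mul_assoc, mul_sub, sub_mul, map_add,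
    map_sub, map_smul, smul_eq_mul] at p1 p2
  have p3 : φ (w * b * star w) = φ (ρ * b) := by
    linear_combination (1 / 2 : ℂ) * p1 + (-Complex.I / 2) * p2 +
      (1 / 2 : ℂ) * (φ (w * b * star w) - φ (w * star b * star w) - φ (ρ * b) + φ (ρ * star b)) *
        Complex.I_sq
  have e1 : w * b * star w = w * a * star w := by
    calc w * b * star w = w * (a * e) * (D * star w) := by simp only [hb, mul_assoc]
      _ = w * (e * a) * star w := by rw [hDw, hcomm a ha e he.1]
      _ = w * a * star w := by rw [← mul_assoc, hwe]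
  have e2 : ρ * b = ρ * D * a := by
    rw [hb, hcomm a ha e he.1, mul_assoc e a, ← mul_assoc ρ e, hρ.mul_right he.2, hcomm a ha D hD,
      ← mul_assoc]
  rw [← e1, p3, e2]

end DensCut

open DensCut MKS MKS.Op Singular Orth in
open Vale.Agent.P078.Orth.Atom (Sub sub_cor cor_bmul) in
/-- Compressions by projections of `A` close to `e` make the densities bounded. -/
theorem dens_cut_ok : DensCutStatement := by
  classical
  intro H _ _ _ M A e φ hA he hφ y hy F δ hδ
  have hcomm := hA.2.1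
  have hee : Cor M e e := cor_proj (hA.1 e he.1) he.2
  rw [normSpan, Submodule.mem_span_set'] at hy
  obtain ⟨n, co, z, hz⟩ := hy
  have hterm : ∀ i, ∃ a ∈ A, ∃ g ∈ normaliser M A, e * g * e = g ∧ co i • (z i : H →L[ℂ] H) = a * g := by
    intro i
    obtain ⟨hzc, a, ha, v, hv, hav⟩ := (z i).2
    refine ⟨co i • a, A.toStarSubalgebra.smul_mem ha _, e * v * e,
      nor_mul_mem hA (nor_mul_mem hA (proj_mem_nor hA he) hv) (proj_mem_nor hA he), ?_, ?_⟩
    · simp only [← mul_assoc, he.2.isIdempotentElem.eq]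
      rw [mul_assoc (e * v), he.2.isIdempotentElem.eq]
    · rw [smul_mul_assoc]
      congr 1
      calc (z i : H →L[ℂ] H) = e * (a * v) * e := by rw [← hav, hzc]
        _ = a * (e * v * e) := by rw [← mul_assoc e a v, hcomm e he.1 a ha]; simp only [mul_assoc]
  choose a ha g hg hgc hag using hterm
  have hgs : ∀ i, star (g i) ∈ normaliser M A ∧ e * star (g i) * e = star (g i) := fun i => by
    refine ⟨nor_star (hg i), ?_⟩
    have := congrArg star (hgc i)
    rwa [star_mul, star_mul, he.2.isSelfAdjoint.star_eq, ← mul_assoc] at this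
  set G : Fin n ⊕ Fin n → (H →L[ℂ] H) := Sum.elim g fun i => star (g i) with hG
  have hGn : ∀ j, G j ∈ normaliser M A ∧ e * G j * e = G j := fun j => by
    cases j with
    | inl i => exact ⟨hg i, hgc i⟩
    | inr i => exact hgs i
  have hsub : ∀ j R, IsPr A R → Sub A e (G j * R * star (G j)) := fun j R hR =>
    sub_conj he (hGn j).1 (hGn j).2 hR hcomm
  -- exhaust the places of large density
  set ψ : (H →L[ℂ] H) → ℝ := fun R => ∑ j, (φ (G j * R * star (G j))).re with hψ
  obtain ⟨η, hη, hso⟩ := (State.so_ok H M A e φ hA he.1 he.2 hφ 1).1 F δ hδ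
  have hψ0 : ∀ R, IsPr A R → 0 ≤ ψ R := fun R hR => Finset.sum_nonneg fun j _ =>
    State.Atom.tr_nonneg he.2 hφ (sub_cor hA he (hsub j R hR)) (hsub j R hR).1.2.nonneg
  set B : ℝ := (ψ e + 1) / η ^ 2 with hBdef
  have hB : 0 < B := by
    have := hψ0 e he
    positivity
  obtain ⟨S, Q, hS, hQ, hQe, hmax, -, happ⟩ := exhaust A e he.2 fun u => B * (φ u).re < ψ u
  have hQs : Sub A e Q := ⟨hQ, hQe⟩
  have hQn : n2 φ Q ≤ η := by
    refine le_of_forall_gt_imp_ge_of_dense fun η' hη' => ?_
    obtain ⟨F', δ', hδ', hsm⟩ := (State.so_ok H M A e φ hA he.1 he.2 hφ 2).2 (η' - η) (by linarith)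
    obtain ⟨T, hT, hTd⟩ := happ F' δ' hδ'
    obtain ⟨hTp, hTe⟩ := hS.sum_pr T hT
    have hTs : Sub A e (∑ u ∈ T, u) := ⟨hTp, hTe⟩
    have h1 : B * (φ (∑ u ∈ T, u)).re ≤ ψ e := by
      calc B * (φ (∑ u ∈ T, u)).re = ∑ u ∈ T, B * (φ u).re := by
            rw [map_sum, Complex.re_sum, Finset.mul_sum]
        _ ≤ ∑ u ∈ T, ψ u := Finset.sum_le_sum fun u hu => (hS.1 u (hT u hu)).2.2.2.le
        _ = ψ (∑ u ∈ T, u) := by
            simp only [hψ, Finset.mul_sum, Finset.sum_mul, map_sum, Complex.re_sum]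
            rw [Finset.sum_comm]
        _ ≤ ψ e := by
            refine Finset.sum_le_sum fun j _ => ?_
            refine State.Atom.tr_mono he.2 hφ (sub_cor hA he (hsub j _ hTp))
              (sub_cor hA he (hsub j e he)) ?_
            have := conj_le (sub_nonneg.1 (sub_proj he.2 hTp.2 hTe).nonneg) (star (G j))
            rwa [star_star] at this
    have h2 : n2 φ (∑ u ∈ T, u) ≤ η := by
      refine le_of_sq_le_sq ?_ hη.le
      rw [State.Atom.n2_proj hA he hφ hTs]
      rw [hBdef, div_mul_eq_mul_div, div_le_iff₀ (by positivity)] at h1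
      nlinarith [hψ0 e he]
    have hTc := sub_cor hA he hTs
    have hQc := sub_cor hA he hQs
    have h3 := hsm _ (hQc.sub hTc) ((norm_sub_le _ _).trans
      (by linarith [hQ.2.norm_le, hTp.2.norm_le])) hTd
    have h4 := State.Atom.n2_add_le he.2 hφ (hQc.sub hTc) hTc
    rw [sub_add_cancel] at h4
    linarith
  have hfs : Sub A e (e - Q) := Orth.Atom.sub_compl hA he hQs
  set f := e - Q with hf
  have hfA := hfs.1.1
  have hff : f * f = f := hfs.1.2.isIdempotentElem.eq
  have hfstar : star f = f := hfs.1.2.isSelfAdjoint.star_eq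
  have hefl : e * f = f := (sub_cor hA he hfs).mul_left he.2
  have hdom : ∀ s, IsPr A s → s * f = s → ψ s ≤ B * (φ s).re := fun s hs hsf => by
    rcases eq_or_ne s 0 with h | h
    · simp [hψ, h]
    · exact not_lt.1 (hmax s hs h hsf)
  -- the compressed generators
  let ι := Option (Fin n ⊕ Fin n)
  set g' : ι → (H →L[ℂ] H) := fun k => k.elim e fun j => f * G j * f with hg'
  set a' : ι → (H →L[ℂ] H) := fun k => k.elim 0 (Sum.elim a fun _ => 0) with ha'
  have hg'n : ∀ k, g' k ∈ normaliser M A ∧ e * g' k * e = g' k := fun k => by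
    cases k with
    | none => exact ⟨proj_mem_nor hA he, hee.2⟩
    | some j =>
      refine ⟨nor_mul_mem hA (nor_mul_mem hA (proj_mem_nor hA hfs.1) (hGn j).1)
        (proj_mem_nor hA hfs.1), ?_⟩
      show e * (f * G j * f) * e = f * G j * f
      rw [← mul_assoc, ← mul_assoc, hefl, mul_assoc (f * G j), hfs.2]
  let ε := Fintype.equivFin ι
  refine ⟨f, hfs.1, hfs.2, fun ξ hξ => ?_,
    ⟨Fintype.card ι, fun k => a' (ε.symm k), fun k => g' (ε.symm k), fun k => ?_,
      fun k => (hg'n _).1, fun k => ?_, ⟨ε none, by simp [hg']⟩, fun k => (hg'n _).2⟩,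
    fun k => ?_, ?_⟩
  · rw [hf, sub_sub_cancel]
    exact hso Q (sub_cor hA he hQs) hQ.2.norm_le hQn ξ hξ
  · show a' (ε.symm k) ∈ A
    rcases ε.symm k with _ | j | j
    · exact zero_mem _
    · exact ha j
    · exact zero_mem _
  · show ∃ j, g' (ε.symm j) = star (g' (ε.symm k))
    rcases ε.symm k with _ | j | j
    · exact ⟨ε none, by simp [hg', he.2.isSelfAdjoint.star_eq]⟩
    · exact ⟨ε (some (Sum.inr j)), by simp [hg', hG, star_mul, hfstar, mul_assoc]⟩
    · exact ⟨ε (some (Sum.inl j)), by simp [hg', hG, star_mul, hfstar, mul_assoc]⟩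
  · show ∃ ρ, HasDens A φ (g' (ε.symm k)) ρ
    rcases ε.symm k with _ | j
    · refine ⟨e, he.1, he.2.nonneg, ?_, fun b hb => ?_⟩
      · show e * (star e * e) = e
        rw [he.2.isSelfAdjoint.star_eq, he.2.isIdempotentElem.eq, he.2.isIdempotentElem.eq]
      · show φ (e * b * star e) = φ (e * b)
        rw [he.2.isSelfAdjoint.star_eq, mul_assoc, hcomm b hb e he.1, ← mul_assoc,
          he.2.isIdempotentElem.eq]
    · refine exists_hasDens hA he hφ (hg'n (some j)).1 (hg'n (some j)).2 hB.le fun R hR => ?_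
      show (φ (f * G j * f * R * star (f * G j * f))).re ≤ B * (φ R).re
      have hfR : IsPr A (f * R) := isPr_mul hcomm hfs.1 hR.1
      have hX := sub_cor hA he (hsub j _ hfR)
      have e1 : f * G j * f * R * star (f * G j * f) = f * (G j * (f * R) * star (G j)) * f := by
        have hRf : R * f = f * R := hcomm R hR.1.1 f hfA
        simp only [star_mul, hfstar, mul_assoc]
        rw [← mul_assoc R f, hRf, mul_assoc f R, ← mul_assoc f f, hff]
      rw [e1, State.Atom.tr_conj hA he hφ hfs hX]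
      have h1 : (φ (f * (G j * (f * R) * star (G j)))).re ≤ (φ (G j * (f * R) * star (G j))).re := by
        have hs := Orth.Atom.sub_mul' hA he hfs.1 (hsub j _ hfR)
        refine State.Atom.tr_mono he.2 hφ (sub_cor hA he hs) hX
          (sub_nonneg.1 (sub_proj (hsub j _ hfR).1.2 hs.1.2 ?_).nonneg)
        rw [mul_assoc, (hsub j _ hfR).1.2.isIdempotentElem.eq]
      have h2 : (φ (G j * (f * R) * star (G j))).re ≤ ψ (f * R) :=
        Finset.single_le_sum (f := fun i => (φ (G i * (f * R) * star (G i))).re)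
          (fun i _ => State.Atom.tr_nonneg he.2 hφ (sub_cor hA he (hsub i _ hfR))
            (hsub i _ hfR).1.2.nonneg) (Finset.mem_univ j)
      have h3 : (φ (f * R)).re ≤ (φ R).re := by
        refine State.Atom.tr_mono he.2 hφ (cor_bmul hA he hfA (sub_cor hA he hR)).1
          (sub_cor hA he hR) (sub_nonneg.1 (sub_proj hR.1.2 hfR.2 ?_).nonneg)
        rw [mul_assoc, hR.1.2.isIdempotentElem.eq]
      have h4 := hdom _ hfR (by rw [mul_assoc, hcomm R hR.1.1 f hfA, ← mul_assoc, hff])
      nlinarith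
  · show ∑ k, a' (ε.symm k) * g' (ε.symm k) = f * y * f
    rw [Equiv.sum_comp ε.symm fun k => a' k * g' k, Fintype.sum_option, Fintype.sum_sum_type, ← hz]
    simp only [ha', hg', hG, Option.elim_none, Option.elim_some, Sum.elim_inl, Sum.elim_inr,
      zero_mul, Finset.sum_const_zero, add_zero, zero_add, hag, Finset.mul_sum, Finset.sum_mul]
    refine Finset.sum_congr rfl fun i _ => ?_
    rw [← mul_assoc f (a i), hcomm f hfA _ (ha i)]
    simp only [mul_assoc]

end Vale.Agent.P078.Twist
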