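import Vale.Agent.P078.State.Basic

/-!
A small even power controls the part above a level.
-/

namespace Vale.Agent.P078.Twist

open MKS Singular

variable {H : Type} [NormedAddCommGroup H] [InnerProductSpace ℂ H] [CompleteSpace H]
  {M A : VonNeumannAlgebra H} {e : H →L[ℂ] H} {φ : (H →L[ℂ] H) →ₗ[ℂ] ℂ}

lemma pow_cor (he : IsStarProjection e) {S : H →L[ℂ] H} (hS : Cor M e S) (j : ℕ) :
    Cor M e (S ^ (j + 1)) := by
  induction j with
  | zero => simpa using hS
  | succ j ih => rw [pow_succ' S (j + 1)]; exact hS.mul he ih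

/-- The excess above `u` is at most the power `2 k` divided by `u ^ (2 k - 2)`. -/
lemma excess_le_pow (he : IsStarProjection e) (hφ : State.IsState M A e φ)
    {S : H →L[ℂ] H} (hS : Cor M e S) (hs : IsSelfAdjoint S) {u : ℝ} (hu : 0 < u) {k : ℕ}
    (hk : 1 ≤ k) :
    (φ (excess u S * excess u S)).re ≤
      (φ (e * S ^ (2 * k) * e)).re / u ^ (2 * k - 2) := by
  have hx := cor_excess he hS hu hs
  have hpos : 0 < u ^ (2 * k - 2) := pow_pos hu _
  have hle : (u ^ (2 * k - 2)) • (excess u S * excess u S) ≤ S ^ (2 * k) := by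
    rw [excess, ← cfc_mul _ _ S, ← cfc_smul _ _ S, ← cfc_pow_id (R := ℝ) S (2 * k)]
    refine cfc_mono fun x _ => ?_
    simp only [smul_eq_mul]
    rcases le_or_gt x u with h | h
    · rw [max_eq_right (sub_nonpos.2 h), mul_zero, mul_zero]
      exact (even_two_mul k).pow_nonneg x
    · rw [max_eq_left (sub_nonneg.2 h.le)]
      calc u ^ (2 * k - 2) * ((x - u) * (x - u)) ≤ x ^ (2 * k - 2) * (x * x) :=
            mul_le_mul (pow_le_pow_left₀ hu.le h.le _) (by nlinarith) (mul_self_nonneg _)
              (pow_nonneg (hu.le.trans h.le) _)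
        _ = x ^ (2 * k) := by rw [← pow_two, ← pow_add, Nat.sub_add_cancel (by omega)]
  have hSk : Cor M e (S ^ (2 * k)) := by
    have := pow_cor he hS (2 * k - 1)
    rwa [Nat.sub_add_cancel (by omega)] at this
  rw [hSk.2, le_div_iff₀ hpos, mul_comm, ← tr_rsmul]
  exact State.tr_mono hφ he ((hx.mul he hx).rsmul _) hSk hle

end Vale.Agent.P078.Twist
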