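import Mathlib

/-!
Traces of powers of arrow matrices: a recursion in the moments of the weights, and Klein's
inequality for even powers.
-/

namespace Vale.Agent.P078.Twist.Arrow

open Matrix Finset

variable {ι : Type} [Fintype ι] [DecidableEq ι]

/-- The arrow matrix with shaft `lam` and head `b`. -/
def arr (lam b : ι → ℝ) : Matrix (Unit ⊕ ι) (Unit ⊕ ι) ℝ :=
  Matrix.fromBlocks 0 (Matrix.of fun _ a => b a) (Matrix.of fun a _ => b a) (Matrix.diagonal lam)

/-- The trace of the `n`th power minus that of the shaft. -/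
def gain (lam b : ι → ℝ) (n : ℕ) : ℝ := (arr lam b ^ n).trace - (arr lam 0 ^ n).trace

/-- The moments of the weights, shifted by two. -/
def kap (lam b : ι → ℝ) (n : ℕ) : ℝ := if 2 ≤ n then ∑ a, b a ^ 2 * lam a ^ (n - 2) else 0

/-- The corner entry of the powers. -/
def top (lam b : ι → ℝ) (n : ℕ) : ℝ := (arr lam b ^ n) (Sum.inl ()) (Sum.inl ())

variable (lam b : ι → ℝ)

lemma arr_symm : (arr lam b).IsSymm := by
  ext x y
  rcases x with x | x <;> rcases y with y | y <;> simp [arr, Matrix.diagonal_apply, eq_comm]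
  split_ifs with h <;> simp [h]

lemma arr_pow_symm (n : ℕ) (x y) : (arr lam b ^ n) x y = (arr lam b ^ n) y x := by
  have := ((arr_symm lam b).pow n).apply x y
  exact this.symm

lemma arr_zero_pow (n : ℕ) :
    arr lam 0 ^ n = Matrix.fromBlocks (Matrix.of fun _ _ => (0 : ℝ) ^ n) 0 0
      (Matrix.diagonal fun a => lam a ^ n) := by
  induction n with
  | zero =>
    simp only [pow_zero]
    rw [← Matrix.fromBlocks_one]
    congr 1
  | succ n ih =>
    rw [pow_succ, ih]
    ext x y
    rcases x with x | x <;> rcases y with y | y <;>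
      simp [arr, Matrix.mul_apply, Matrix.diagonal_apply, pow_succ]
    split_ifs with h <;> simp_all

lemma side_eq (a : ι) : ∀ n, (arr lam b ^ n) (Sum.inr a) (Sum.inl ()) =
    b a * ∑ l ∈ range n, lam a ^ (n - 1 - l) * top lam b l
  | 0 => by simp
  | n + 1 => by
    rw [pow_succ', Matrix.mul_apply, Fintype.sum_sum_type, Finset.univ_unique,
      Finset.sum_singleton, Finset.sum_eq_single a (fun c _ hc => by simp [arr, Ne.symm hc])
        (by simp)]
    simp only [arr, Matrix.fromBlocks_apply₂₁, Matrix.fromBlocks_apply₂₂, Matrix.of_apply,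
      Matrix.diagonal_apply_eq]
    rw [show (Matrix.fromBlocks 0 (Matrix.of fun (_ : Unit) a => b a) (Matrix.of fun a _ => b a)
      (Matrix.diagonal lam) : Matrix (Unit ⊕ ι) (Unit ⊕ ι) ℝ) = arr lam b from rfl, side_eq a n,
      show (arr lam b ^ n) (Sum.inl default) (Sum.inl ()) = top lam b n from rfl,
      Finset.sum_range_succ]
    simp only [Nat.add_sub_cancel, Nat.sub_self, pow_zero, one_mul, mul_add, Finset.mul_sum]
    rw [add_comm]
    congr 1
    refine Finset.sum_congr rfl fun l hl => ?_
    have hl' := Finset.mem_range.1 hl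
    rw [show n - l = n - 1 - l + 1 by omega, pow_succ]
    ring

lemma top_succ (n : ℕ) : top lam b (n + 1) =
    ∑ l ∈ range n, (∑ a, b a ^ 2 * lam a ^ (n - 1 - l)) * top lam b l := by
  rw [top, pow_succ', Matrix.mul_apply, Fintype.sum_sum_type]
  simp only [arr, Matrix.fromBlocks_apply₁₁, Matrix.fromBlocks_apply₁₂, Matrix.zero_apply,
    zero_mul, Finset.sum_const_zero, zero_add, Matrix.of_apply]
  rw [show (Matrix.fromBlocks 0 (Matrix.of fun (_ : Unit) a => b a) (Matrix.of fun a _ => b a)
      (Matrix.diagonal lam) : Matrix (Unit ⊕ ι) (Unit ⊕ ι) ℝ) = arr lam b from rfl]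
  simp only [side_eq, Finset.mul_sum, Finset.sum_mul]
  rw [Finset.sum_comm]
  refine Finset.sum_congr rfl fun l _ => Finset.sum_congr rfl fun a _ => ?_
  ring

lemma diag_eq (a : ι) : ∀ n, (arr lam b ^ n) (Sum.inr a) (Sum.inr a) = lam a ^ n +
    b a ^ 2 * ∑ l ∈ range n, ((n - 1 - l : ℕ) : ℝ) * lam a ^ (n - 2 - l) * top lam b l
  | 0 => by simp
  | n + 1 => by
    rw [pow_succ' (arr lam b), Matrix.mul_apply, Fintype.sum_sum_type, Finset.univ_unique,
      Finset.sum_singleton, Finset.sum_eq_single a (fun c _ hc => by simp [arr, Ne.symm hc])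
        (by simp)]
    simp only [arr, Matrix.fromBlocks_apply₂₁, Matrix.fromBlocks_apply₂₂, Matrix.of_apply,
      Matrix.diagonal_apply_eq]
    rw [show (Matrix.fromBlocks 0 (Matrix.of fun (_ : Unit) a => b a) (Matrix.of fun a _ => b a)
      (Matrix.diagonal lam) : Matrix (Unit ⊕ ι) (Unit ⊕ ι) ℝ) = arr lam b from rfl,
      diag_eq a n, arr_pow_symm lam b n (Sum.inl default) (Sum.inr a),
      show (Sum.inl default : Unit ⊕ ι) = Sum.inl () from rfl, side_eq lam b a n,
      Finset.sum_range_succ]
    have key : ∀ l ∈ range n,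
        ((n + 1 - 1 - l : ℕ) : ℝ) * lam a ^ (n + 1 - 2 - l) * top lam b l =
          lam a ^ (n - 1 - l) * top lam b l +
            lam a * (((n - 1 - l : ℕ) : ℝ) * lam a ^ (n - 2 - l) * top lam b l) := fun l hl => by
      have hl' := Finset.mem_range.1 hl
      rw [show n + 1 - 1 - l = n - 1 - l + 1 by omega, show n + 1 - 2 - l = n - 1 - l by omega]
      rcases Nat.eq_zero_or_pos (n - 1 - l) with h | h
      · simp [h]
      · rw [show n - 1 - l = n - 2 - l + 1 by omega, pow_succ]
        push_cast
        ring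
    rw [Finset.sum_congr rfl key, Finset.sum_add_distrib, ← Finset.mul_sum]
    simp only [Nat.add_sub_cancel, Nat.sub_self, Nat.cast_zero, zero_mul, add_zero, pow_succ']
    ring

omit [Fintype ι] [DecidableEq ι] in
lemma conv_range (K T : ℕ → ℝ) (hK : K 0 = 0) (n : ℕ) :
    ∑ ij ∈ antidiagonal n, K ij.1 * T ij.2 = ∑ l ∈ range n, K (n - l) * T l := by
  rw [Finset.Nat.sum_antidiagonal_eq_sum_range_succ (fun i j => K i * T j),
    ← Finset.sum_range_reflect, Finset.sum_range_succ]
  rw [show n + 1 - 1 - n = 0 by omega, hK, zero_mul, add_zero]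
  refine Finset.sum_congr rfl fun l hl => ?_
  have hl' := Finset.mem_range.1 hl
  rw [show n + 1 - 1 - l = n - l by omega, show n - (n - l) = l by omega]

omit [DecidableEq ι] in
lemma kap_zero : kap lam b 0 = 0 := if_neg (by omega)

lemma top_series : PowerSeries.mk (top lam b) =
    1 + PowerSeries.mk (kap lam b) * PowerSeries.mk (top lam b) := by
  ext n
  rw [map_add, PowerSeries.coeff_mul, PowerSeries.coeff_one, PowerSeries.coeff_mk]
  simp only [PowerSeries.coeff_mk]
  rw [conv_range _ _ (kap_zero lam b)]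
  cases n with
  | zero => simp [top]
  | succ m =>
    rw [if_neg (Nat.succ_ne_zero m), zero_add, top_succ, Finset.sum_range_succ,
      show kap lam b (m + 1 - m) = 0 from if_neg (by omega), zero_mul, add_zero]
    refine Finset.sum_congr rfl fun l hl => ?_
    have hl' := Finset.mem_range.1 hl
    rw [kap, if_pos (by omega), show m + 1 - l - 2 = m - 1 - l by omega]

lemma gain_eq (n : ℕ) : gain lam b n =
    PowerSeries.coeff n (PowerSeries.mk (fun i : ℕ => (i : ℝ) * kap lam b i) *
      PowerSeries.mk (top lam b)) := by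
  have htr : ∀ c : ι → ℝ, (arr lam c ^ n).trace =
      top lam c n + ∑ a, (arr lam c ^ n) (Sum.inr a) (Sum.inr a) := fun c => by
    rw [Matrix.trace, Fintype.sum_sum_type, Finset.univ_unique, Finset.sum_singleton]
    rfl
  have h0 : top lam 0 n = if n = 0 then 1 else 0 := by cases n <;> simp [top, arr_zero_pow]
  have hd0 : ∀ a, (arr lam 0 ^ n) (Sum.inr a) (Sum.inr a) = lam a ^ n := fun a => by
    simp [arr_zero_pow]
  have hs := congrArg (PowerSeries.coeff n) (top_series lam b)
  rw [map_add, PowerSeries.coeff_one, PowerSeries.coeff_mk] at hs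
  rw [gain, htr, htr, h0, hs]
  simp only [diag_eq lam b, hd0, Finset.sum_add_distrib, Finset.mul_sum]
  rw [Finset.sum_comm, PowerSeries.coeff_mul, PowerSeries.coeff_mul]
  simp only [PowerSeries.coeff_mk]
  rw [conv_range _ _ (kap_zero lam b),
    conv_range (fun i => (i : ℝ) * kap lam b i) _ (by simp)]
  ring_nf
  rw [← Finset.sum_add_distrib]
  refine Finset.sum_congr rfl fun l hl => ?_
  have hl' := Finset.mem_range.1 hl
  simp only [kap]
  split_ifs with h2
  · rw [show n - 2 - l = n - l - 2 by omega]
    simp only [Finset.sum_mul, Finset.mul_sum, ← Finset.sum_add_distrib]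
    refine Finset.sum_congr rfl fun a _ => ?_
    rw [show ((n - l : ℕ) : ℝ) = ((n - 1 - l : ℕ) : ℝ) + 1 by
      rw [show n - l = n - 1 - l + 1 by omega]; push_cast; ring]
    ring
  · rw [show n - 1 - l = 0 by omega]
    simp

lemma gain_rec (n : ℕ) : gain lam b n = (n : ℝ) * kap lam b n +
    ∑ ij ∈ antidiagonal n, kap lam b ij.1 * gain lam b ij.2 := by
  set K := PowerSeries.mk (kap lam b)
  set N := PowerSeries.mk fun i : ℕ => (i : ℝ) * kap lam b i
  set T := PowerSeries.mk (top lam b)
  have hT : T = 1 + K * T := top_series lam b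
  have h : N * T = N + K * (N * T) := by
    conv_lhs => rw [hT]
    ring
  have := congrArg (PowerSeries.coeff n) h
  rw [map_add, ← gain_eq, PowerSeries.coeff_mul n K] at this
  simpa [N, K, T, ← gain_eq] using this

/-- Small scaled moments give small gains. -/
lemma abs_gain_le {z σ α : ℝ} (hz : 0 < z) (hσ : σ ≤ 1 / 2) (p : ℕ)
    (h1 : ∑ i ∈ range (p + 1), |kap lam b i| / z ^ i ≤ σ)
    (h2 : ∀ n ≤ p, (n : ℝ) * |kap lam b n| / z ^ n ≤ α) :
    |gain lam b p| ≤ 2 * α * z ^ p := by
  have hα : 0 ≤ α := by simpa using h2 0 (Nat.zero_le p)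
  suffices h : ∀ n ≤ p, |gain lam b n| ≤ 2 * α * z ^ n from h p le_rfl
  intro n
  induction n using Nat.strong_induction_on with
  | _ n ih =>
    intro hn
    rw [gain_rec]
    refine (abs_add_le _ _).trans ?_
    have e1 : |(n : ℝ) * kap lam b n| ≤ α * z ^ n := by
      rw [abs_mul, Nat.abs_cast, ← div_le_iff₀ (pow_pos hz n)]
      exact h2 n hn
    have e2 : |∑ ij ∈ antidiagonal n, kap lam b ij.1 * gain lam b ij.2| ≤
        σ * (2 * α * z ^ n) := by
      refine (abs_sum_le_sum_abs _ _).trans ?_
      rw [Finset.Nat.sum_antidiagonal_eq_sum_range_succ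
        (fun i j => |kap lam b i * gain lam b j|)]
      calc ∑ i ∈ range (n + 1), |kap lam b i * gain lam b (n - i)|
          ≤ ∑ i ∈ range (n + 1), |kap lam b i| / z ^ i * (2 * α * z ^ n) := by
            refine sum_le_sum fun i hi => ?_
            have hi' := Finset.mem_range.1 hi
            rw [abs_mul]
            by_cases hk : kap lam b i = 0
            · simp [hk]
            have hi2 : 2 ≤ i := by
              by_contra h
              exact hk (by simp [kap, h])
            refine (mul_le_mul_of_nonneg_left (ih (n - i) (by omega) (by omega))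
              (abs_nonneg _)).trans (le_of_eq ?_)
            have hzn : z ^ n = z ^ (n - i) * z ^ i := by
              rw [← pow_add]; congr 1; omega
            rw [hzn]
            field_simp
        _ ≤ σ * (2 * α * z ^ n) := by
            rw [← sum_mul]
            refine mul_le_mul_of_nonneg_right (le_trans (sum_le_sum_of_subset_of_nonneg
              (fun i hi => mem_range.2 ((mem_range.1 hi).trans_le (by omega))) ?_) h1)
              (by positivity)
            exact fun i _ _ => div_nonneg (abs_nonneg _) (pow_nonneg hz.le i)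
    have : σ * (2 * α * z ^ n) ≤ α * z ^ n := by
      have : 0 ≤ α * z ^ n := by positivity
      nlinarith
    linarith

end Vale.Agent.P078.Twist.Arrow
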