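import Vale.Agent.P078.State.Defs
import Vale.Agent.P078.MKS.Transport
import Vale.Agent.P078.MKS.TwoSided.Defs

/-!
Paving by twisted power potentials: Radon–Nikodym weights of a central state along the normaliser,
twisted windows, and the statements of the steps.
-/

namespace Vale.Agent.P078.Twist

open MKS MKS.Op Singular
open scoped Classical

variable {H : Type} [NormedAddCommGroup H] [InnerProductSpace ℂ H] [CompleteSpace H]
  {M A : VonNeumannAlgebra H} {e : H →L[ℂ] H} {r : ℕ}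

/-- `ρ` is the density on `A` of the functional carried back along `v`. -/
def HasDens (A : VonNeumannAlgebra H) (φ : (H →L[ℂ] H) →ₗ[ℂ] ℂ) (v ρ : H →L[ℂ] H) : Prop :=
  ρ ∈ A ∧ 0 ≤ ρ ∧ ρ * (star v * v) = ρ ∧ ∀ a ∈ A, φ (v * a * star v) = φ (ρ * a)

/-- Every generator has a bounded density (so, by adjoints, one bounded below). -/
def DensGen (φ : (H →L[ℂ] H) →ₗ[ℂ] ℂ) (D : Gen M A e) : Prop :=
  ∀ i, ∃ ρ, HasDens A φ (D.g i) ρ

/-- The weight of `η` relative to `χ`. -/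
noncomputable def wgt (M A : VonNeumannAlgebra H) (e : H →L[ℂ] H)
    (φ : (H →L[ℂ] H) →ₗ[ℂ] ℂ) (χ η : Pt A) : ℝ :=
  if h : ∃ vρ : (H →L[ℂ] H) × (H →L[ℂ] H), vρ.1 ∈ normaliser M A ∧ e * vρ.1 * e = vρ.1 ∧
      HasDens A φ vρ.1 vρ.2 ∧ Moves vρ.1 χ η then (ev χ h.choose.2).re else 0

/-- The `2p`th root. -/
noncomputable def rt (p : ℕ) (x : ℝ) : ℝ := x ^ (1 / (2 * p : ℝ))

/-- A window with rows and columns scaled by the state and by `f` of the weights seen from `χ`. -/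
noncomputable def tmat (φ : (H →L[ℂ] H) →ₗ[ℂ] ℂ) (f : ℝ → ℝ) (D : Gen M A e) (χ : Pt A)
    (U : Finset (Pt A)) (R : Pt A → (H →L[ℂ] H)) (S : St A r) : Matrix U U ℂ :=
  scaled (wsc 1 D.a D.g χ U R S) fun u => f (wgt M A e φ χ u)

/-- The `p`th moment of a twisted window seen from a vertex. -/
noncomputable def tmom (φ : (H →L[ℂ] H) →ₗ[ℂ] ℂ) (f : ℝ → ℝ) (D : Gen M A e) (χ : Pt A)
    (U : Finset (Pt A)) (R : Pt A → (H →L[ℂ] H)) (S : St A r) (p : ℕ) (u : U) : ℝ :=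
  (mom (tmat φ f D χ U R S) (cw (Op.wt S U)) u p).re

/-- The twisted potential at a point. -/
noncomputable def tpot (φ : (H →L[ℂ] H) →ₗ[ℂ] ℂ) (f : ℝ → ℝ) (D : Gen M A e) (p : ℕ) (S : St A r)
    (χ : Pt A) : ℝ :=
  if h : χ ∈ D.ball χ p then tmom φ f D χ (D.ball χ p) (rep M χ) S p ⟨χ, h⟩ else 0

/-- The uniform state. -/
noncomputable def unifSt (A : VonNeumannAlgebra H) (r : ℕ) : St A r :=
  fun _ => (fun _ => (1 / r : ℝ), 1)

/-- For some absolute `c`, colours of weight at least one half at a vertex are such that giving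
the vertex the colour and scaling its row and column by `c` does not increase the `p`th power sum
of the roots. -/
def ScaleStatement : Prop :=
  ∃ c : ℝ, 0 < c ∧ c ≤ 1 ∧
    ∀ (V : Type) [Fintype V] [DecidableEq V] (r : ℕ) (X : Matrix V V ℂ) (w : V → Fin r → ℝ),
      X.IsHermitian → IsProb w → (∀ a, X a a = 0) →
        ∀ (p : ℕ), 8 ≤ p → Even p → ∀ k : V, ∃ G : Finset (Fin r),
          1 / 2 ≤ ∑ s ∈ G, w k s ∧ ∀ s ∈ G, 0 < w k s ∧
            rootSum (fun x => x ^ p)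
                (charMix (scaled X (Function.update 1 k c)) (setColour w k s) Finset.univ) ≤
              rootSum (fun x => x ^ p) (charMix X w Finset.univ)

/-- Weights along the generators form a positive bounded cocycle. -/
def WeightStatement : Prop :=
  ∀ (H : Type) [NormedAddCommGroup H] [InnerProductSpace ℂ H] [CompleteSpace H]
    (M A : VonNeumannAlgebra H) (e : H →L[ℂ] H) (φ : (H →L[ℂ] H) →ₗ[ℂ] ℂ),
    IsMASA M A → IsPr A e → State.IsState M A e φ → ∀ D : Gen M A e, DensGen φ D →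
    (∀ n χ η, D.Reaches n χ η → 0 < wgt M A e φ χ η) ∧
    (∀ m n χ η ζ, D.Reaches m χ η → D.Reaches n η ζ →
      wgt M A e φ χ ζ = wgt M A e φ χ η * wgt M A e φ η ζ) ∧
    (∀ n, ∃ B : ℝ, 1 ≤ B ∧ ∀ χ η, D.Reaches n χ η →
      wgt M A e φ χ η ≤ B ∧ B⁻¹ ≤ wgt M A e φ χ η) ∧
    ∀ χ, ev χ e = 1 → wgt M A e φ χ χ = 1

/-- A function which vanishes away from a separated cell integrates to the integral over the cell
of its weighted sums over balls. -/
def TransportStatement : Prop :=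
  ∀ (H : Type) [NormedAddCommGroup H] [InnerProductSpace ℂ H] [CompleteSpace H]
    (M A : VonNeumannAlgebra H) (e : H →L[ℂ] H) (φ : (H →L[ℂ] H) →ₗ[ℂ] ℂ),
    IsMASA M A → IsPr A e → State.IsState M A e φ → ∀ D : Gen M A e, DensGen φ D →
    ∀ (n : ℕ) (K : H →L[ℂ] H), IsPr A K → Sep D n K → ∀ h : Pt A → ℂ, h ∈ Rep A e →
    (∀ η, ev η e = 1 → (∀ c, D.Reaches n η c → ev c K ≠ 1) → h η = 0) →
    ∃ g ∈ A, int φ e h = (φ (g * e)).re ∧ ∀ c : Pt A,
      ev c g = if ev c K = 1 then ∑ η ∈ D.ball c n, (wgt M A e φ c η : ℂ) * h η else 0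

/-- Twisted potentials are represented in the algebra. -/
def RepPotStatement : Prop :=
  ∀ (H : Type) [NormedAddCommGroup H] [InnerProductSpace ℂ H] [CompleteSpace H]
    (M A : VonNeumannAlgebra H) (e : H →L[ℂ] H) (φ : (H →L[ℂ] H) →ₗ[ℂ] ℂ),
    IsMASA M A → IsPr A e → State.IsState M A e φ → ∀ D : Gen M A e, DensGen φ D →
    ∀ (f : ℝ → ℝ), ContinuousOn f (Set.Ioi 0) → ∀ (p r : ℕ), 0 < r →
    ∀ S : St A r, MKS.Op.IsState A e S → (fun χ => (tpot φ f D p S χ : ℂ)) ∈ Rep A e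

/-- A window seen from `c` reads the weight times the potential of each of its inner points. -/
def HomogStatement : Prop :=
  ∀ (H : Type) [NormedAddCommGroup H] [InnerProductSpace ℂ H] [CompleteSpace H]
    (M A : VonNeumannAlgebra H) (e : H →L[ℂ] H) (φ : (H →L[ℂ] H) →ₗ[ℂ] ℂ),
    IsMASA M A → IsPr A e → State.IsState M A e φ → ∀ D : Gen M A e, DensGen φ D →
    ∀ (p r : ℕ), 0 < p → ∀ S : St A r, (∀ χ, Ok (S χ)) →
    ∀ (c : Pt A) (n : ℕ) (u : D.ball c n), (∀ ζ, D.Reaches p u ζ → ζ ∈ D.ball c n) →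
      tmom φ (rt p) D c (D.ball c n) (rep M c) S p u =
        wgt M A e φ c u * tpot φ (rt p) D p S u

/-- The potential of the uniform colouring integrates to at most `π / 2 * (2 / √r) ^ p`. -/
def StartStatement : Prop :=
  ∀ (H : Type) [NormedAddCommGroup H] [InnerProductSpace ℂ H] [CompleteSpace H]
    (M A : VonNeumannAlgebra H) (e : H →L[ℂ] H) (φ : (H →L[ℂ] H) →ₗ[ℂ] ℂ),
    IsMASA M A → IsPr A e → State.IsState M A e φ → ∀ D : Gen M A e, DensGen φ D →
    IsSelfAdjoint D.op → (-1 : ℝ) • e ≤ D.op → D.op ≤ e →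
    ∀ (n : ℕ) (E : Fin n → (H →L[ℂ] H)), IsPartition A e E → (∀ i, E i * D.op * E i = 0) →
    ∀ (p r : ℕ), 2 ≤ r → 2 ≤ p → Even p →
      int φ e (fun χ => (tpot φ (rt p) D p (unifSt A r) χ : ℂ)) ≤
        Real.pi / 2 * (2 / Real.sqrt r) ^ p * (φ e).re

/-- Compressions by projections of `A` close to `e` make the densities bounded. -/
def DensCutStatement : Prop :=
  ∀ (H : Type) [NormedAddCommGroup H] [InnerProductSpace ℂ H] [CompleteSpace H]
    (M A : VonNeumannAlgebra H) (e : H →L[ℂ] H) (φ : (H →L[ℂ] H) →ₗ[ℂ] ℂ),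
    IsMASA M A → IsPr A e → State.IsState M A e φ → ∀ y ∈ normSpan M A e,
    ∀ (F : Finset H) (δ : ℝ), 0 < δ → ∃ f : H →L[ℂ] H, IsPr A f ∧ f * e = f ∧
      (∀ ξ ∈ F, ‖(e - f) ξ‖ < δ) ∧ ∃ D : Gen M A e, DensGen φ D ∧ D.op = f * y * f

/-- A random partition by fields, with mean at most `C / r`, paves for every outcome a contraction
with bounded densities and zero diagonal: the value of each even power of the pinching is at most
that power of `C / √r`, up to `δ`. -/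
def TwistedPavingStatement : Prop :=
  ∃ C : ℝ, 0 < C ∧
  ∀ (H : Type) [NormedAddCommGroup H] [InnerProductSpace ℂ H] [CompleteSpace H]
    (M A : VonNeumannAlgebra H) (e : H →L[ℂ] H) (φ : (H →L[ℂ] H) →ₗ[ℂ] ℂ),
    IsMASA M A → IsPr A e → State.IsState M A e φ → ∀ D : Gen M A e, DensGen φ D →
    IsSelfAdjoint D.op → (-1 : ℝ) • e ≤ D.op → D.op ≤ e →
    ∀ (n : ℕ) (E : Fin n → (H →L[ℂ] H)), IsPartition A e E → (∀ i, E i * D.op * E i = 0) →
    ∀ (r k : ℕ) (δ : ℝ), 2 ≤ r → 0 < δ →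
      ∃ (L : Type) (_ : Fintype L) (μ : L → ℝ)
        (P : (c : Orth.Cut A e) → (Fin c.n → L) → Fin r → (H →L[ℂ] H)),
        (∀ l, 0 ≤ μ l) ∧ ∑ l, μ l = 1 ∧ (∀ c ω, IsPartition A e (P c ω)) ∧
        (∀ s, Orth.IsField M A e φ μ fun c ω => P c ω s) ∧
        (∀ c s, Orth.avg μ (fun ω => P c ω s) ≤ (C / r : ℝ) • e) ∧
        ∀ c ω, (φ (e * MKS.pinch (P c ω) D.op ^ (2 * k) * e)).re ≤
          (C / Real.sqrt r) ^ (2 * k) * (φ e).re + δ

end Vale.Agent.P078.Twist
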