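import Vale.Agent.P078.State.Defs
import Vale.Agent.P078.MKS.RepPot
import Vale.Agent.P078.MKS.Powers
import Vale.Agent.P078.MKS.Moments

/-!
For a functional which commutes with the MASA, a full colouring reads the powers of the pinched
element off the windows.
-/

namespace Vale.Agent.P078.Twist

open MKS MKS.Op Singular
open scoped Classical

variable {H : Type} [NormedAddCommGroup H] [InnerProductSpace ℂ H] [CompleteSpace H]
  {M A : VonNeumannAlgebra H} {e : H →L[ℂ] H} {φ : (H →L[ℂ] H) →ₗ[ℂ] ℂ}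
  (hM : IsMASA M A) (he : IsPr A e) (hφ : State.IsState M A e φ)
include hM he hφ

/-- The diagonal of a sum of monomials in the algebra, with the same value. -/
lemma exists_diag_state {L : Type} [Fintype L] (b w : L → (H →L[ℂ] H))
    (hbw : ∀ l, b l ∈ A ∧ w l ∈ normaliser M A ∧ e * w l * e = w l) :
    ∃ F ∈ A, F * e = F ∧ φ F = φ (∑ l, b l * w l) ∧
      ∀ χ : Pt A, ev χ e = 1 → ev χ F = ∑ l, ev χ (b l) * val χ (w l) := by
  have hab := hM.2.1
  choose P hP hPw using fun l => exists_split hM (hbw l).2.1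
  let Q : L → Fin 4 → (H →L[ℂ] H) := fun l i => P l i * e
  have hQ : ∀ l i, IsPr A (Q l i) := fun l i => isPr_mul hab ((hP l).1 i) he
  have hQe : ∀ l i, Q l i * e = Q l i := fun l i => by
    simp only [Q, mul_assoc, he.2.isIdempotentElem.eq]
  have hQw : ∀ l i, Q l i * w l * Q l i ∈ A := fun l i => by
    have : Q l i * w l * Q l i = e * (P l i * w l * P l i) * e := by
      simp only [Q]
      calc P l i * e * w l * (P l i * e) = e * P l i * w l * (P l i * e) := by
            rw [hab _ ((hP l).1 i).1 e he.1]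
        _ = _ := by simp only [mul_assoc]
    rw [this]
    exact mul_mem (mul_mem he.1 (hPw l i)) he.1
  refine ⟨∑ l, ∑ i, b l * (Q l i * w l * Q l i),
    sum_mem fun l _ => sum_mem fun i _ => mul_mem (hbw l).1 (hQw l i), ?_, ?_, fun χ hχ => ?_⟩
  · simp only [Finset.sum_mul]
    refine Finset.sum_congr rfl fun l _ => Finset.sum_congr rfl fun i _ => ?_
    simp only [mul_assoc, hQe]
  · rw [map_sum, map_sum]
    refine Finset.sum_congr rfl fun l _ => ?_
    have hwc : Cor M e (w l) := ⟨(hbw l).2.1.1, (hbw l).2.2⟩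
    have hbe : Cor M e (b l * e) := cor_of_alg hM he (hbw l).1
    have hQc : ∀ i, Cor M e (Q l i) := fun i => cor_of_alg hM he ((hP l).1 i).1
    have hsum : ∑ i, Q l i = e := by
      simp only [Q, ← Finset.sum_mul, (hP l).2.2, one_mul]
    have e0 : b l * w l = ∑ i, b l * e * Q l i * w l := by
      rw [← Finset.sum_mul, ← Finset.mul_sum, hsum, mul_assoc (b l) e e,
        he.2.isIdempotentElem.eq, mul_assoc, hwc.mul_left he.2]
    rw [e0, map_sum, map_sum]
    refine Finset.sum_congr rfl fun i _ => ?_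
    have hz : Cor M e (b l * e * Q l i * w l) := (hbe.mul he.2 (hQc i)).mul he.2 hwc
    have e1 : b l * (Q l i * w l * Q l i) = b l * e * Q l i * w l * Q l i := by
      rw [mul_assoc (b l) e, (hQc i).mul_left he.2]; simp only [mul_assoc]
    have e2 : Q l i * (b l * e * Q l i * w l) = b l * e * Q l i * w l := by
      rw [← mul_assoc, ← mul_assoc,
        hab _ (hQ l i).1 _ (mul_mem (hbw l).1 he.1), mul_assoc (b l * e),
        (hQ l i).2.isIdempotentElem.eq]
    rw [e1, ← hφ.2.2.1 _ (hQ l i).1 _ hz.1 hz.2, e2]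
  · rw [ev_sum χ _ _ fun l _ => sum_mem fun i _ => mul_mem (hbw l).1 (hQw l i)]
    refine Finset.sum_congr rfl fun l _ => ?_
    obtain ⟨j, hj⟩ := ev_partition χ (hP l) (ev_one χ)
    have hQj : ev χ (Q l j) = 1 := by rw [ev_mul χ ((hP l).1 j).1 he.1, hj, hχ, mul_one]
    rw [ev_sum χ _ _ fun i _ => mul_mem (hbw l).1 (hQw l i), Finset.sum_eq_single j]
    · rw [ev_mul χ (hbw l).1 (hQw l j), ev_cell_val hM (hbw l).2.1 (hQ l j) (hQw l j) hQj]
    · intro i _ hij
      have h0 : ev χ (P l i) = 0 := by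
        have := congrArg (ev χ) ((hP l).2.1 i j hij)
        rwa [ev_mul χ ((hP l).1 i).1 ((hP l).1 j).1, hj, mul_one, ev_zero] at this
      rw [show Q l i * w l * Q l i = Q l i * (Q l i * w l * Q l i) by
          simp only [← mul_assoc, (hQ l i).2.isIdempotentElem.eq],
        ev_mul χ (hbw l).1 (mul_mem (hQ l i).1 (hQw l i)), ev_mul χ (hQ l i).1 (hQw l i),
        ev_mul χ ((hP l).1 i).1 he.1, h0, zero_mul, zero_mul, mul_zero]
    · exact fun h => absurd (Finset.mem_univ j) h

/-- The value of a power of a pinched element is the integral of the diagonal of the windows. -/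
lemma exists_pinch_diag {r : ℕ} {P : Fin r → (H →L[ℂ] H)} (hP : IsPartition A e P)
    (D : Gen M A e) (j : ℕ) :
    ∃ F ∈ A, F * e = F ∧ φ F = φ (e * MKS.pinch P D.op ^ j * e) ∧
      ∀ (χ : Pt A) (U : Finset (Pt A)) (R : Pt A → (H →L[ℂ] H)), IsFrame M e χ U R →
        ∀ c : U, (c : Pt A) = χ → (∀ ζ, D.Reaches j c ζ → ζ ∈ U) → ∀ f : U → Fin r,
          (∀ (u : U) (k : Fin r), ev (u : Pt A) (P k) = if f u = k then 1 else 0) →
          ev χ F = (Matrix.of (fun u v => if f u = f v then wmat D.a D.g χ R U u v else 0) ^ j :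
              Matrix U U ℂ) c c := by
  obtain ⟨L, _, b, w, hbw, hsum, hdiag⟩ := exists_pinch_power hM he hP D j
  obtain ⟨F, hFA, hFe, hFφ, hFev⟩ := exists_diag_state hM he hφ b w hbw
  refine ⟨F, hFA, hFe, ?_, fun χ U R hR c hc hball f hf => ?_⟩
  · rw [hFφ, mul_assoc, hsum, Finset.mul_sum]
    refine congrArg φ (Finset.sum_congr rfl fun l _ => ?_)
    obtain ⟨hb, hw, hwc⟩ := hbw l
    rw [← mul_assoc, hM.2.1 e he.1 _ hb, mul_assoc,
      Cor.mul_left he.2 (⟨hw.1, hwc⟩ : Cor M e (w l))]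
  · rw [hFev χ (hc ▸ (hR c c.2).2.2), hdiag χ U R hR c hc hball f hf]

end Vale.Agent.P078.Twist
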