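import Vale.Agent.P078.Twist.Step

/-!
The random twisted pass: cell after cell every point gets, by the labels of the cut, one colour and
the fixed scale, without raising the integral of the twisted potential.
-/

namespace Vale.Agent.P078.Twist

open MKS MKS.Op Singular
open Orth (Cut Rand IsPoly avg cst)
open scoped Classical

variable {H : Type} [NormedAddCommGroup H] [InnerProductSpace ℂ H] [CompleteSpace H]
  {M A : VonNeumannAlgebra H} {e : H →L[ℂ] H} {φ : (H →L[ℂ] H) →ₗ[ℂ] ℂ} {r : ℕ}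

lemma prob_single (i : Fin r) :
    ((∀ x, 0 ≤ (Pi.single i 1 : Fin r → ℝ) x) ∧ ∑ x, (Pi.single i 1 : Fin r → ℝ) x = 1) ∧
      ({x | (Pi.single i 1 : Fin r → ℝ) x ≠ 0} : Finset (Fin r)).card ≤ 3 := by
  refine ⟨⟨fun x => by by_cases hx : x = i <;> simp [hx], by simp⟩, ?_⟩
  refine (Finset.card_le_one.2 fun x hx y hy => ?_).trans (by norm_num)
  simp only [Finset.mem_filter, Finset.mem_univ, true_and, ne_eq, Pi.single_apply,
    ite_eq_right_iff, one_ne_zero, imp_false, not_not] at hx hy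
  rw [hx, hy]

variable (hM : IsMASA M A) (he : IsPr A e) (hφ : State.IsState M A e φ) {D : Gen M A e}
  (hD : DensGen φ D) (hRP : RepPotStatement) (hTr : TransportStatement) (hHom : HomogStatement)
  {p : ℕ} (hp : 0 < p) (hsa : IsSelfAdjoint D.op) {m : ℕ} {E : Fin m → (H →L[ℂ] H)}
  (hE : IsPartition A e E) (hE0 : ∀ i, E i * D.op * E i = 0) {c₀ : ℝ}
  (hc₀ : 0 ≤ c₀ ∧ c₀ ≤ 1)
  (hScale : ∀ (V : Type) [Fintype V] [DecidableEq V] (r : ℕ) (X : Matrix V V ℂ)
    (w : V → Fin r → ℝ), X.IsHermitian → IsProb w → (∀ a, X a a = 0) →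
      ∀ (p : ℕ), 8 ≤ p → Even p → ∀ k : V, ∃ G : Finset (Fin r),
        1 / 2 ≤ ∑ s ∈ G, w k s ∧ ∀ s ∈ G, 0 < w k s ∧
          rootSum (fun x => x ^ p)
              (charMix (scaled X (Function.update 1 k c₀)) (setColour w k s) Finset.univ) ≤
            rootSum (fun x => x ^ p) (charMix X w Finset.univ))
  (hp8 : 8 ≤ p) (hpe : Even p) (hr : 2 ≤ r)
include hM he hφ hD hRP hTr hHom hp hsa hE hE0 hc₀ hScale hp8 hpe hr

/-- One stage. -/
lemma twist_stage {ε : ℝ} (hε : 0 < ε) {K : H →L[ℂ] H} (hK : IsPr A K) (hKe : K * e = K)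
    (hKs : Sep D (2 * p) K) {nc : ℕ} (k : Fin nc) (s : Finset (Fin nc)) (hks : k ∉ s)
    (P : Draft M A e (Fin nc → Fin (r * (r + 1))) r)
    (hun : ∀ c ω (η : Pt A), ev η K = 1 → ev η (P.E P.base c ω) = 1)
    (hind : ∀ c ω ω', (∀ i, ∀ k' ∈ s, ω i k' = ω' i k') → ∀ j, P.E j c ω = P.E j c ω') :
    ∃ P' : Draft M A e (Fin nc → Fin (r * (r + 1))) r,
      (∀ c ω (η : Pt A), ev η K ≠ 1 → ev η (P'.E P'.base c ω) = ev η (P.E P.base c ω)) ∧
      (∀ c ω (η : Pt A), ev η K ≠ 1 → P'.state c ω η = P.state c ω η) ∧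
      (∀ c ω (η : Pt A), ev η K = 1 → ∃ i, (P'.state c ω η).1 = Pi.single i 1) ∧
      (∀ c ω ω', (∀ i, ∀ k' ∈ insert k s, ω i k' = ω' i k') → ∀ j, P'.E j c ω = P'.E j c ω') ∧
      ∀ c ω, int φ e (fun χ => (tpot φ (rt p) D p (scaleSt c₀ (P'.state c ω)) χ : ℂ)) ≤
        int φ e (fun χ => (tpot φ (rt p) D p (scaleSt c₀ (P.state c ω)) χ : ℂ)) +
          ε * (φ K).re := by
  have hr0 : 0 < r := by omega
  have hce : ∀ c : Pt A, ev c K = 1 → ev c e = 1 := fun c hc => by
    have := congrArg (ev c) hKe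
    rwa [ev_mul c hK.1 he.1, hc, one_mul] at this
  obtain ⟨Pat, hPp, hPv, hPc⟩ := exists_patterns hM he D (2 * p) P
  choose S hS _ hS0 hS1 using fun π : Fin (Fintype.card (Fin (2 * p) → Fin D.N) + 1) → P.J =>
    exists_pattern_state hM he D hr0 hK hKe hKs (fun a => P.v (π a)) fun a => P.prob _
  choose a haA haoff haon using fun π => exists_select_scale hM he hφ hD hRP hTr hHom hp hr0 hsa hE
    hE0 hc₀ hScale hp8 hpe hε hK hKe hKs (isState_scaleSt hr hc₀.1 hc₀.2 (hS π)) fun χ hχ => by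
      simp only [scaleSt, hS0 π χ hχ, scl_uniform]
  obtain ⟨P', h1, -, h3, hoff, hon⟩ := exists_extend hM he hr0 hK hKe k s hks P hind Pat hPp
    (fun c ω η hη => (hPv c ω η hη).imp fun _ h π => (h.1 π).trans (by congr)) hPc
    (fun _ => Opt r) (fun _ i l => Pi.single (i.1 l) 1) a (fun _ i l => prob_single _)
    (fun _ i x => by
      have h := i.2 x
      simp only [Pi.single_apply, Finset.sum_boole, eq_comm (a := x)]
      exact_mod_cast h)
    haA haoff fun π c hc => (haon π c hc).imp fun _ h j => (h.1 j).trans (by congr)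
  have hpoint : ∀ c ω (η : Pt A), ev η K = 1 → ∃ π₀ i₀ l₀,
      (∀ b u, Moves (words D (2 * p) b) η u →
        ∀ i, ev u (P.E i c ω) = if i = π₀ b then 1 else 0) ∧
      P'.state c ω η = (Pi.single ((i₀ : Opt r).1 l₀) 1, 1) ∧
      ∑ u, tmom φ (rt p) D η (D.ball η (2 * p)) (rep M η)
          (Function.update (scaleSt c₀ (S π₀)) η (Pi.single (i₀.1 l₀) 1, c₀)) p u ≤
        ∑ u, tmom φ (rt p) D η (D.ball η (2 * p)) (rep M η) (scaleSt c₀ (S π₀)) p u + ε := by
    intro c ω η hη
    obtain ⟨π₀, hπ, hπ'⟩ := hPv c ω η (hce η hη)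
    obtain ⟨l₀, hl₀⟩ := ev_lab he k c ω (hce η hη)
    obtain ⟨i₀, hi₀, hmove⟩ := haon π₀ η hη
    exact ⟨π₀, i₀, l₀, hπ', hon c ω η hη π₀ i₀ l₀ (by rw [hπ, if_pos rfl])
      (by rw [hi₀, if_pos rfl]) (by rw [hl₀, if_pos rfl]), hmove l₀⟩
  refine ⟨P', h1, hoff, fun c ω η hη => ?_, h3, fun c ω => tstage_le hM he hφ hD hRP hTr hHom hp hr0
    hK hKe hKs (isState_scaleSt hr hc₀.1 hc₀.2 (P.isState hr0 he c ω))
    (isState_scaleSt hr hc₀.1 hc₀.2 (P'.isState hr0 he c ω))
    (fun η hη => by simp only [scaleSt, hoff c ω η hη]) fun q hq => ?_⟩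
  · obtain ⟨π₀, i₀, l₀, -, h, -⟩ := hpoint c ω η hη
    exact ⟨i₀.1 l₀, by rw [h]⟩
  obtain ⟨π₀, i₀, l₀, hπ', hnew, hmove⟩ := hpoint c ω q hq
  have heq : ∀ u : D.ball q (2 * p), scaleSt c₀ (P.state c ω) u = scaleSt c₀ (S π₀) u := fun u => by
    have hw : (P.state c ω (u : Pt A)).1 = (S π₀ u).1 := by
      by_cases hup : (u : Pt A) = q
      · rw [hup, P.state_base (hce q hq) (hun c ω q hq), hS0 π₀ q hq]
      · have hur := (mem_ball D).1 u.2
        have huK : ev (u : Pt A) K ≠ 1 := fun h =>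
          hup (hKs q u hq h (reaches_mono hM he D (by omega) hur))
        obtain ⟨b, hb, hmin⟩ := exists_pick D (2 * p) hur
        rw [hS1 π₀ q b u hq huK hb hmin, Draft.state, rstate_val (hπ' b u hb)]
    simp only [scaleSt, hw]
  have heq' : ∀ u : D.ball q (2 * p),
      Function.update (scaleSt c₀ (P.state c ω)) q (scaleSt c₀ (P'.state c ω) q) u =
        Function.update (scaleSt c₀ (S π₀)) q (Pi.single (i₀.1 l₀) 1, c₀) u := fun u => by
    by_cases hup : (u : Pt A) = q
    · simp [hup, scaleSt, hnew, scl_single hr]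
    · rw [Function.update_of_ne hup, Function.update_of_ne hup]
      exact heq u
  simp only [fun u => tmom_congr_fun (φ := φ) (f := rt p) (D := D) (χ := q) (R := rep M q)
      (p := p) heq u,
    fun u => tmom_congr_fun (φ := φ) (f := rt p) (D := D) (χ := q) (R := rep M q)
      (p := p) heq' u]
  exact hmove

/-- The whole pass. -/
lemma twist_pass {ε : ℝ} (hε : 0 < ε) :
    ∃ (nc : ℕ) (P : Draft M A e (Fin nc → Fin (r * (r + 1))) r),
      (∀ c ω (η : Pt A), ev η e = 1 → ∃ i, (P.state c ω η).1 = Pi.single i 1) ∧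
      ∀ c ω, int φ e (fun χ => (tpot φ (rt p) D p (scaleSt c₀ (P.state c ω)) χ : ℂ)) ≤
        int φ e (fun χ => (tpot φ (rt p) D p (unifSt A r) χ : ℂ)) + ε * (φ e).re := by
  have hr0 : 0 < r := by omega
  obtain ⟨nc, K, hK, hKs⟩ := exists_sep_cells hM he D (2 * p)
  refine ⟨nc, ?_⟩
  have : Nonempty (Fin (r * (r + 1))) := ⟨⟨0, Nat.mul_pos hr0 r.succ_pos⟩⟩
  have hKe : ∀ k, K k * e = K k := fun k => (hK.mul_e k).2
  have hdisj : ∀ {η : Pt A} {i j : Fin nc}, ev η (K i) = 1 → ev η (K j) = 1 → i = j := by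
    intro η i j hi hj
    by_contra hne
    have := congrArg (ev η) (hK.2.1 i j hne)
    rw [ev_mul η (hK.1 i).1 (hK.1 j).1, hi, hj, one_mul, ev_zero] at this
    exact one_ne_zero this
  suffices h : ∀ s : Finset (Fin nc), ∃ P : Draft M A e (Fin nc → Fin (r * (r + 1))) r,
      (∀ k, k ∉ s → ∀ c ω (η : Pt A), ev η (K k) = 1 → ev η (P.E P.base c ω) = 1) ∧
      (∀ k ∈ s, ∀ c ω (η : Pt A), ev η (K k) = 1 → ∃ i, (P.state c ω η).1 = Pi.single i 1) ∧
      (∀ c ω ω', (∀ i, ∀ k' ∈ s, ω i k' = ω' i k') → ∀ j, P.E j c ω = P.E j c ω') ∧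
      ∀ c ω, int φ e (fun χ => (tpot φ (rt p) D p (scaleSt c₀ (P.state c ω)) χ : ℂ)) ≤
        int φ e (fun χ => (tpot φ (rt p) D p (unifSt A r) χ : ℂ)) +
          ε * ∑ k ∈ s, (φ (K k)).re by
    obtain ⟨P, -, hdone, -, hint⟩ := h Finset.univ
    refine ⟨P, fun c ω η hη => ?_, fun c ω => ?_⟩
    · obtain ⟨k, hk⟩ := ev_partition η hK hη
      exact hdone k (Finset.mem_univ k) c ω η hk
    · have := hint c ω
      rwa [← Complex.re_sum, ← map_sum, hK.2.2] at this
  intro s
  induction s using Finset.induction_on with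
  | empty =>
    let P : Draft M A e (Fin nc → Fin (r * (r + 1))) r :=
      { J := Unit
        base := ()
        v := fun _ _ => (1 / r : ℝ)
        E := fun _ => cst e
        prob := fun _ => ⟨fun _ => by positivity, by simp [hr0.ne']⟩
        small := fun j h => absurd (Subsingleton.elim j ()) h
        v_base := rfl
        poly := fun _ => Orth.isPoly_cst he.1 (by
          rw [he.2.isIdempotentElem.eq, he.2.isIdempotentElem.eq])
        off := fun _ _ _ η h => h
        dec := fun _ _ η h => ⟨(), fun i => by rw [if_pos (Subsingleton.elim i ())]; exact h⟩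
        mean := fun c η x h => by
          simp only [cst, h, Complex.one_re, mul_one, Finset.univ_unique, Finset.sum_singleton]
          rw [avg_unif]
          simp only [Finset.sum_const, Finset.card_univ, Fintype.card_pi, Finset.prod_const,
            Fintype.card_fin, nsmul_eq_mul, Nat.cast_pow, one_div, inv_pow]
          rw [inv_mul_cancel_left₀ (pow_ne_zero _ (pow_ne_zero _
            (Nat.cast_ne_zero.2 (Nat.mul_pos hr0 r.succ_pos).ne'))), ← one_div]
          exact div_le_div_of_nonneg_right one_le_two (Nat.cast_nonneg r) }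
    refine ⟨P, fun k _ c ω η hη => ?_, fun k hk => absurd hk (Finset.notMem_empty k),
      fun c ω ω' _ j => rfl, fun c ω => ?_⟩
    · show ev η e = 1
      exact (by
        have := congrArg (ev η) (hKe k)
        rwa [ev_mul η (hK.1 k).1 he.1, hη, one_mul] at this)
    · have hS : scaleSt c₀ (P.state c ω) = unifSt A r := by
        funext η
        have h : (P.state c ω η).1 = fun _ => (1 / r : ℝ) := by
          funext x
          simp [Draft.state, rstate, P]
        simp only [scaleSt, unifSt, h, scl_uniform]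
      rw [hS, Finset.sum_empty, mul_zero, add_zero]
  | insert k s hks ih =>
    obtain ⟨P, hrest, hdone, hind, hint⟩ := ih
    obtain ⟨P', hoff, hoffS, hon, hind', hle⟩ := twist_stage hM he hφ hD hRP hTr hHom hp hsa hE hE0
      hc₀ hScale hp8 hpe hr hε (hK.1 k) (hKe k) (fun a b ha hb h =>
        hKs k a b ha hb (reaches_mono hM he D (by omega) h)) k s hks P (hrest k hks) hind
    refine ⟨P', fun j hj c ω η hη => ?_, fun j hj c ω η hη => ?_, hind', fun c ω => ?_⟩
    · rw [hoff c ω η fun h => hj (Finset.mem_insert.2 (Or.inl (hdisj hη h)))]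
      exact hrest j (fun h => hj (Finset.mem_insert_of_mem h)) c ω η hη
    · rcases Finset.mem_insert.1 hj with rfl | hj
      · exact hon c ω η hη
      · rw [hoffS c ω η fun h => hks (hdisj h hη ▸ hj)]
        exact hdone j hj c ω η hη
    · rw [Finset.sum_insert hks]
      linarith [hle c ω, hint c ω]

end Vale.Agent.P078.Twist
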