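import Vale.Agent.P078.Twist.Untwist
import Vale.Agent.P078.Twist.Diag
import Vale.Agent.P078.MKS.Potential

/-!
Windows have bounded rows, so on a ball of fixed radius a twist close to one moves the moments of
a full colouring little.
-/

namespace Vale.Agent.P078.Twist

open MKS MKS.Op Singular
open scoped Classical

variable {H : Type} [NormedAddCommGroup H] [InnerProductSpace ℂ H] [CompleteSpace H]
  {M A : VonNeumannAlgebra H} {e : H →L[ℂ] H}

/-- The values of an element of the algebra are bounded by its norm. -/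
lemma norm_ev_le (χ : Pt A) {a : H →L[ℂ] H} (ha : a ∈ A) : ‖ev χ a‖ ≤ ‖a‖ := by
  have hc : (((‖a‖ ^ 2 : ℝ) : ℂ) • (1 : H →L[ℂ] H)) ∈ A := csmul_mem _ (one_mem A)
  have hle : star a * a ≤ ((‖a‖ ^ 2 : ℝ) : ℂ) • (1 : H →L[ℂ] H) := by
    rw [Complex.coe_smul, ← Algebra.algebraMap_eq_smul_one]
    exact CStarAlgebra.star_mul_le_algebraMap_norm_sq
  have h := ev_mono χ (mul_mem (star_mem ha) ha) hc hle
  rw [ev_mul χ (star_mem ha) ha, ev_star χ ha, ev_smul χ _ (one_mem A), ev_one, mul_one,
    Complex.ofReal_re, Complex.star_def, ← Complex.normSq_eq_conj_mul_self, Complex.ofReal_re,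
    Complex.normSq_eq_norm_sq] at h
  exact (sq_le_sq₀ (norm_nonneg _) (norm_nonneg _)).1 h

/-- The bound on the rows of all windows of `D`. -/
noncomputable def rowBound (D : Gen M A e) : ℝ := ∑ i, ‖D.a i‖

lemma rowBound_nonneg (D : Gen M A e) : 0 ≤ rowBound D := Finset.sum_nonneg fun _ _ => norm_nonneg _

variable (hM : IsMASA M A) (he : IsPr A e)
include hM he

omit he in
lemma row_wmat_le (D : Gen M A e) {χ : Pt A} {U : Finset (Pt A)} {R : Pt A → (H →L[ℂ] H)}
    (hR : IsFrame M e χ U R) (u : U) :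
    ∑ v : U, ‖wmat D.a D.g χ R U u v‖ ≤ rowBound D := by
  obtain ⟨hRu, hum, -⟩ := hR u u.2
  calc ∑ v : U, ‖wmat D.a D.g χ R U u v‖
      ≤ ∑ v : U, ∑ i, ‖ev (u : Pt A) (D.a i)‖ * ‖val χ (star (R u) * D.g i * R v)‖ :=
        Finset.sum_le_sum fun v _ => by
          simp only [wmat, coef, Matrix.of_apply]
          exact (norm_sum_le _ _).trans (le_of_eq (Finset.sum_congr rfl fun i _ => norm_mul _ _))
    _ = ∑ i, ‖ev (u : Pt A) (D.a i)‖ * ∑ v : U, ‖val χ (star (R u) * D.g i * R v)‖ := by
        rw [Finset.sum_comm]; simp only [Finset.mul_sum]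
    _ ≤ ∑ i, ‖D.a i‖ * 1 := by
        refine Finset.sum_le_sum fun i _ => mul_le_mul (norm_ev_le _ (D.a_mem i)) ?_
          (Finset.sum_nonneg fun _ _ => norm_nonneg _) (norm_nonneg _)
        have hm : ∀ v : U, val χ (star (R u) * D.g i * R v) ≠ 0 →
            Moves (star (D.g i)) (u : Pt A) (v : Pt A) ∧ ‖val χ (star (R u) * D.g i * R v)‖ = 1 := fun v hv => by
          obtain ⟨hRv, hvm, -⟩ := hR v v.2
          have hmv := moves_of_val hM hRu hRv (D.g_mem i) hum hvm hv
          refine ⟨moves_star hM (D.g_mem i) hmv, ?_⟩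
          have h1 := val_norm hM (nor_mul_mem hM (nor_mul_mem hM (nor_star hRu) (D.g_mem i)) hRv)
            (moves_between hM hRu (D.g_mem i) hum hvm hmv)
          rw [Complex.star_def, ← Complex.normSq_eq_conj_mul_self, ← Complex.ofReal_one,
            Complex.ofReal_inj, Complex.normSq_eq_norm_sq] at h1
          nlinarith [norm_nonneg (val χ (star (R u) * D.g i * R v))]
        by_cases hex : ∃ v : U, val χ (star (R u) * D.g i * R v) ≠ 0
        · obtain ⟨v, hv⟩ := hex
          rw [Finset.sum_eq_single v (fun w _ hw => ?_) (fun h => absurd (Finset.mem_univ v) h),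
            (hm v hv).2]
          by_contra h
          exact hw (Subtype.ext (moves_unique (hm w (fun h0 => h (by rw [h0, norm_zero]))).1
            (hm v hv).1))
        · push Not at hex
          simp [hex]
    _ = rowBound D := by simp [rowBound]

variable {φ : (H →L[ℂ] H) →ₗ[ℂ] ℂ} (hφ : State.IsState M A e φ)
include hφ

/-- On a ball the moment of a full colouring with the twist `t` is close to the diagonal of the
power of the pinched element. -/
lemma exists_diag_close {r : ℕ} {P : Fin r → (H →L[ℂ] H)} (hP : IsPartition A e P)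
    (D : Gen M A e) (j : ℕ) :
    ∃ F ∈ A, F * e = F ∧ φ F = φ (e * MKS.pinch P D.op ^ j * e) ∧
      ∀ (χ : Pt A) (U : Finset (Pt A)) (R : Pt A → (H →L[ℂ] H)), IsFrame M e χ U R →
        ∀ c : U, (c : Pt A) = χ → (∀ ζ, D.Reaches j c ζ → ζ ∈ U) → ∀ f : U → Fin r,
          (∀ (u : U) (k : Fin r), ev (u : Pt A) (P k) = if f u = k then 1 else 0) →
          ∀ (t : U → ℝ) (θ : ℝ), 0 ≤ θ → (∀ u v, |t u * t v - 1| ≤ θ) →
            |((Matrix.of (fun u v => if f u = f v then
                  (t u : ℂ) * wmat D.a D.g χ R U u v * (t v : ℂ) else 0) ^ j :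
                Matrix U U ℂ) c c).re - (ev χ F).re| ≤ j * θ * ((1 + θ) * rowBound D) ^ j := by
  obtain ⟨F, hFA, hFe, hFφ, hF⟩ := exists_pinch_diag hM he hφ hP D j
  refine ⟨F, hFA, hFe, hFφ, fun χ U R hR c hc hball f hf t θ hθ ht => ?_⟩
  set X : Matrix U U ℂ := Matrix.of fun u v => if f u = f v then wmat D.a D.g χ R U u v else 0
    with hX
  have hXB : ∀ u, ∑ v, ‖X u v‖ ≤ rowBound D := fun u =>
    (Finset.sum_le_sum fun v _ => by
      simp only [hX, Matrix.of_apply]
      split_ifs
      · exact le_rfl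
      · rw [norm_zero]; exact norm_nonneg _).trans (row_wmat_le hM D hR u)
  have e1 : (Matrix.of fun u v => if f u = f v then
      (t u : ℂ) * wmat D.a D.g χ R U u v * (t v : ℂ) else 0 : Matrix U U ℂ) =
      Matrix.of fun a b => (t a : ℂ) * X a b * (t b : ℂ) := by
    ext u v
    simp only [hX, Matrix.of_apply]
    split_ifs <;> simp
  rw [e1, hF χ U R hR c hc hball f hf, ← Complex.sub_re]
  exact (Complex.abs_re_le_norm _).trans
    (pow_scaling_le (rowBound_nonneg D) hXB t hθ ht j c c)

end Vale.Agent.P078.Twist
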