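import Vale.Agent.P078.Twist.Window
import Vale.Agent.P078.Twist.Int
import Vale.Agent.P078.Orth.Random.Stage

/-!
The move at the points of a separated cell: a colour and a fixed scale, chosen representably among
tuples of equally likely colours with nearly uniform mean.
-/

namespace Vale.Agent.P078.Twist

open MKS MKS.Op Singular
open scoped Classical

variable {H : Type} [NormedAddCommGroup H] [InnerProductSpace ℂ H] [CompleteSpace H]
  {M A : VonNeumannAlgebra H} {e : H →L[ℂ] H} {φ : (H →L[ℂ] H) →ₗ[ℂ] ℂ} {r : ℕ}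

/-- The scale which goes with the weights: one at uniform weights, `c` at a single colour. -/
noncomputable def scl (c : ℝ) (v : Fin r → ℝ) : ℝ :=
  1 - (1 - c) * ((∑ s, v s * v s - 1 / r) / (1 - 1 / r))

/-- A state with the scales which go with its weights. -/
noncomputable def scaleSt (c : ℝ) (S : St A r) : St A r := fun η => ((S η).1, scl c (S η).1)

lemma scl_uniform (c : ℝ) : scl c (fun _ : Fin r => (1 / r : ℝ)) = 1 := by
  have h : ∑ _s : Fin r, (1 / r : ℝ) * (1 / r) - 1 / r = 0 := by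
    rcases Nat.eq_zero_or_pos r with rfl | hr
    · simp
    · rw [Finset.sum_const, Finset.card_univ, Fintype.card_fin, nsmul_eq_mul]
      field_simp
      ring
  rw [scl, h, zero_div, mul_zero, sub_zero]

lemma scl_single (hr : 2 ≤ r) (c : ℝ) (s : Fin r) : scl c (Pi.single s 1 : Fin r → ℝ) = c := by
  have h2 : (1 - 1 / r : ℝ) ≠ 0 := by
    have : (1 / r : ℝ) < 1 := by
      rw [div_lt_one (by positivity)]
      exact_mod_cast (show 1 < r by omega)
    linarith
  have h : ∑ x, (Pi.single s 1 : Fin r → ℝ) x * (Pi.single s 1 : Fin r → ℝ) x = 1 := by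
    simp [Pi.single_apply]
  rw [scl, h, div_self h2]
  ring

lemma ok_scl (hr : 2 ≤ r) {c : ℝ} (hc0 : 0 ≤ c) (hc1 : c ≤ 1) {v : Fin r → ℝ}
    (hv : (∀ s, 0 ≤ v s) ∧ ∑ s, v s = 1) : Ok (v, scl c v) := by
  have hr' : (0 : ℝ) < r := by positivity
  have h1 : (1 / r : ℝ) < 1 := by
    rw [div_lt_one hr']
    exact_mod_cast (show 1 < r by omega)
  have hlo : (1 / r : ℝ) ≤ ∑ s, v s * v s := by
    have h := sq_sum_le_card_mul_sum_sq (s := (Finset.univ : Finset (Fin r))) (f := v)
    rw [hv.2, Finset.card_univ, Fintype.card_fin, one_pow] at h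
    rw [div_le_iff₀ hr', mul_comm]
    simpa [sq] using h
  have hhi : ∑ s, v s * v s ≤ 1 := by
    refine le_trans (Finset.sum_le_sum fun s _ => ?_) hv.2.le
    refine mul_le_of_le_one_left (hv.1 s) ?_
    rw [← hv.2]
    exact Finset.single_le_sum (fun x _ => hv.1 x) (Finset.mem_univ s)
  have hq0 : 0 ≤ (∑ s, v s * v s - 1 / r) / (1 - 1 / r) :=
    div_nonneg (by linarith) (by linarith)
  have hq1 : (∑ s, v s * v s - 1 / r) / (1 - 1 / r) ≤ 1 :=
    (div_le_one (by linarith)).2 (by linarith)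
  have h3 := mul_le_mul_of_nonneg_left hq1 (show 0 ≤ 1 - c by linarith)
  have h4 := mul_nonneg (show 0 ≤ 1 - c by linarith) hq0
  refine ⟨hv, ?_, ?_⟩ <;> simp only [scl] <;> linarith

lemma isState_scaleSt (hr : 2 ≤ r) {c : ℝ} (hc0 : 0 ≤ c) (hc1 : c ≤ 1) {S : St A r}
    (hS : MKS.Op.IsState A e S) : MKS.Op.IsState A e (scaleSt c S) := by
  refine ⟨fun η => ok_scl hr hc0 hc1 (hS.1 η).1, hS.2.1, ?_⟩
  have h := sub_mem (one_mem (Rep A e)) (mul_mem (rep_const ((1 - c : ℝ) : ℂ))
    (mul_mem (sub_mem (sum_mem fun s (_ : s ∈ Finset.univ) => mul_mem (hS.2.1 s) (hS.2.1 s))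
      (rep_const ((1 / r : ℝ) : ℂ))) (rep_const (((1 - 1 / r)⁻¹ : ℝ) : ℂ))))
  convert h using 1
  funext η
  simp [scaleSt, scl, div_eq_mul_inv, Finset.sum_apply]

/-- Tuples of colours in which every colour is taken at most `2 (r + 1)` times. -/
abbrev Opt (r : ℕ) : Type :=
  {T : Fin (r * (r + 1)) → Fin r // ∀ s,
    ({l | T l = s} : Finset (Fin (r * (r + 1)))).card ≤ 2 * (r + 1)}

variable (hM : IsMASA M A) (he : IsPr A e) (hφ : State.IsState M A e φ) {D : Gen M A e}
  (hD : DensGen φ D) (hRP : RepPotStatement) (hTr : TransportStatement) (hHom : HomogStatement)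
  {p : ℕ} (hp : 0 < p) (hr : 0 < r)
include hM he hφ hD hRP hTr hHom hp hr

lemma rep_tpot {S : St A r} (hS : MKS.Op.IsState A e S) :
    (fun χ => (tpot φ (rt p) D p S χ : ℂ)) ∈ Rep A e :=
  hRP H M A e φ hM he hφ D hD (rt p) (fun x hx => by
    exact (Real.continuousAt_rpow_const x _ (Or.inl (ne_of_gt hx))).continuousWithinAt) p r hr S hS

/-- The change of the integrated potential for a change of state inside a cell. -/
lemma tchange_on_cell {K : H →L[ℂ] H} (hK : IsPr A K) (hKs : Sep D (2 * p) K) {S T : St A r}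
    (hS : MKS.Op.IsState A e S) (hT : MKS.Op.IsState A e T)
    (hTS : ∀ χ, ev χ K ≠ 1 → T χ = S χ) :
    ∃ g ∈ A, int φ e (fun χ => (tpot φ (rt p) D p T χ : ℂ)) =
        int φ e (fun χ => (tpot φ (rt p) D p S χ : ℂ)) + (φ (g * e)).re ∧
      (∀ c : Pt A, ev c K ≠ 1 → ev c g = 0) ∧
      ∀ c : Pt A, ev c K = 1 → (ev c g).re =
        ∑ u, tmom φ (rt p) D c (D.ball c (2 * p)) (rep M c) T p u -
          ∑ u, tmom φ (rt p) D c (D.ball c (2 * p)) (rep M c) S p u := by
  have hKp : Sep D p K := fun a b ha hb h =>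
    hKs a b ha hb (reaches_mono hM he D (by omega) h)
  have hrep := fun {U : St A r} hU => rep_tpot hM he hφ hD hRP hTr hHom hp hr (S := U) hU
  have hd := sub_mem (hrep hT) (hrep hS)
  obtain ⟨g, hg, hint, hval⟩ := hTr H M A e φ hM he hφ D hD p K hK hKp _ hd fun η _ hno => by
    simp only [Pi.sub_apply]
    rw [tpot_congr hM he hS.1 hT.1 fun ζ hζ => hTS ζ (hno ζ hζ), sub_self]
  refine ⟨g, hg, ?_, fun c hc => by rw [hval c, if_neg hc], fun c hc => ?_⟩
  · have := sint_add hM he hφ (hrep hS) hd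
    rw [add_sub_cancel] at this
    rw [this, hint]
  · rw [hval c, if_pos hc, twindow_diff hM he hHom hφ hD hp hS.1 hT.1 fun η hη hne =>
      hTS η fun hu => hne (hKs c η hc hu (reaches_mono hM he D (by omega) hη))]
    simp [Complex.re_sum]

/-- The change of the integral when the state changes on a separated cell only. -/
lemma tstage_le {K : H →L[ℂ] H} (hK : IsPr A K) (hKe : K * e = K) (hKs : Sep D (2 * p) K)
    {S T : St A r} (hS : MKS.Op.IsState A e S) (hT : MKS.Op.IsState A e T)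
    (hTS : ∀ χ, ev χ K ≠ 1 → T χ = S χ) {κ : ℝ}
    (hmove : ∀ c, ev c K = 1 →
      ∑ u, tmom φ (rt p) D c (D.ball c (2 * p)) (rep M c) (Function.update S c (T c)) p u ≤
        ∑ u, tmom φ (rt p) D c (D.ball c (2 * p)) (rep M c) S p u + κ) :
    int φ e (fun χ => (tpot φ (rt p) D p T χ : ℂ)) ≤
      int φ e (fun χ => (tpot φ (rt p) D p S χ : ℂ)) + κ * (φ K).re := by
  obtain ⟨g, hgA, hgint, hgoff, hgval⟩ :=
    tchange_on_cell hM he hφ hD hRP hTr hHom hp hr hK hKs hS hT hTS
  rw [hgint]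
  have hbound : (φ (g * e)).re ≤ (φ (((κ : ℂ) • K) * e)).re := by
    refine state_re_le hM he hφ hgA (csmul_mem _ hK.1) fun c _ => ?_
    rw [ev_smul c _ hK.1]
    by_cases hc1 : ev c K = 1
    · rw [hc1, mul_one, Complex.ofReal_re, hgval c hc1]
      have heq : ∀ u : D.ball c (2 * p), T u = Function.update S c (T c) u := fun u => by
        by_cases huc : (u : Pt A) = c
        · simp only [huc, Function.update_self]
        · rw [Function.update_of_ne huc]
          exact hTS u fun hu => huc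
            (hKs c u hc1 hu (reaches_mono hM he D (by omega) ((mem_ball D).1 u.2)))
      simp only [fun u => tmom_congr_fun (φ := φ) (f := rt p) (D := D) (χ := c) (R := rep M c)
        (p := p) heq u]
      linarith [hmove c hc1]
    · rw [hgoff c hc1, (ev_proj c hK).resolve_right hc1, mul_zero]
  rw [smul_mul_assoc, hKe, map_smul, smul_eq_mul, Complex.re_ofReal_mul] at hbound
  linarith

variable (hsa : IsSelfAdjoint D.op) {m : ℕ} {E : Fin m → (H →L[ℂ] H)} (hE : IsPartition A e E)
  (hE0 : ∀ i, E i * D.op * E i = 0) {c₀ : ℝ}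
  (hc₀ : 0 ≤ c₀ ∧ c₀ ≤ 1)
  (hScale : ∀ (V : Type) [Fintype V] [DecidableEq V] (r : ℕ) (X : Matrix V V ℂ)
    (w : V → Fin r → ℝ), X.IsHermitian → IsProb w → (∀ a, X a a = 0) →
      ∀ (p : ℕ), 8 ≤ p → Even p → ∀ k : V, ∃ G : Finset (Fin r),
        1 / 2 ≤ ∑ s ∈ G, w k s ∧ ∀ s ∈ G, 0 < w k s ∧
          rootSum (fun x => x ^ p)
              (charMix (scaled X (Function.update 1 k c₀)) (setColour w k s) Finset.univ) ≤
            rootSum (fun x => x ^ p) (charMix X w Finset.univ))
  (hp8 : 8 ≤ p) (hpe : Even p)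
include hsa hE hE0 hc₀ hScale hp8 hpe

omit hφ hD hRP hTr hHom hp in
/-- At a uniform vertex there is a tuple of colours none of which, with the scale, raises the
power sum. -/
lemma step_scale {χ : Pt A} {U : Finset (Pt A)} {R : Pt A → (H →L[ℂ] H)}
    (hR : IsFrame M e χ U R) {S : St A r} (hS : ∀ χ, Ok (S χ)) (k : U)
    (hk : S k = ((fun _ => (1 / r : ℝ)), 1)) :
    ∃ T : Opt r, ∀ l,
      ∑ u, tmom φ (rt p) D χ U R (Function.update S (k : Pt A) (Pi.single (T.1 l) 1, c₀)) p u ≤
        ∑ u, tmom φ (rt p) D χ U R S p u := by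
  set X := tmat φ (rt p) D χ U R S with hX
  obtain ⟨G, hG, hGs⟩ := hScale U r X (Op.wt S U) (tmat_hermitian hM he hR hsa S) (isProb_wt hS U)
    (fun a => tmat_diag_zero (wsc_diag hM he D hR hsa hE hE0 1 a)) p hp8 hpe k
  have hw : ∀ s, Op.wt S U k s = (1 / r : ℝ) := fun s => by simp [Op.wt, hk]
  simp only [hw, Finset.sum_const, nsmul_eq_mul] at hG
  have hG2 : r ≤ 2 * G.card := by
    have hr' : (0 : ℝ) < r := by exact_mod_cast hr
    rw [mul_one_div, div_le_div_iff₀ zero_lt_two hr', one_mul, mul_comm] at hG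
    exact_mod_cast hG
  obtain ⟨T, hT, hTcount⟩ := exists_cycle hG2 hr
  refine ⟨⟨T, hTcount⟩, fun l => ?_⟩
  set s := T l
  have hS' : ∀ ζ, Ok (Function.update S (k : Pt A) (Pi.single s 1, c₀) ζ) := fun ζ => by
    rcases eq_or_ne ζ (k : Pt A) with rfl | hne
    · rw [Function.update_self]
      exact ⟨⟨fun i => by by_cases hi : i = s <;> simp [hi], by simp⟩, hc₀.1, hc₀.2⟩
    · rw [Function.update_of_ne hne]; exact hS ζ
  have e1 : tmat φ (rt p) D χ U R (Function.update S (k : Pt A) (Pi.single s 1, c₀)) =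
      scaled X (Function.update 1 k c₀) := by
    have hval : ∀ a : U, (Function.update S (k : Pt A) (Pi.single s 1, c₀) (a : Pt A)).2 =
        Function.update (1 : U → ℝ) k c₀ a * (S a).2 := fun a => by
      rcases eq_or_ne a k with rfl | hne
      · simp [hk]
      · simp [Function.update_of_ne hne, Function.update_of_ne (Subtype.coe_ne_coe.2 hne)]
    ext a b
    simp only [hX, scaled, Matrix.of_apply, tmat_apply, wsc, hval, Complex.ofReal_mul]
    ring
  have e2 : Op.wt (Function.update S (k : Pt A) (Pi.single s 1, c₀)) U =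
      setColour (Op.wt S U) k s := by
    funext a
    rcases eq_or_ne a k with rfl | hne
    · simp [Op.wt, setColour]
    · simp [Op.wt, setColour, Function.update_of_ne hne,
        Function.update_of_ne (Subtype.coe_ne_coe.2 hne)]
  rw [sum_tmom hM he hR hsa hS' p, sum_tmom hM he hR hsa hS p, e1, e2]
  exact (hGs s (hT l)).2

/-- On a separated cell where a state is uniform, tuples of colours are chosen representably so
that no colour of the tuple, with the scale, raises the window sums by more than `ε`. -/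
lemma exists_select_scale {ε : ℝ} (hε : 0 < ε) {K : H →L[ℂ] H} (hK : IsPr A K) (hKe : K * e = K)
    (hKs : Sep D (2 * p) K) {S : St A r} (hS : MKS.Op.IsState A e S)
    (hu0 : ∀ χ, ev χ K = 1 → S χ = ((fun _ => (1 / r : ℝ)), 1)) :
    ∃ a : Opt r → (H →L[ℂ] H), (∀ i, a i ∈ A ∧ e * a i * e = a i) ∧
      (∀ c : Pt A, ev c K ≠ 1 → ∀ i, ev c (a i) = 0) ∧
      ∀ c : Pt A, ev c K = 1 → ∃ i, (∀ j, ev c (a j) = if j = i then 1 else 0) ∧ ∀ l,
        ∑ u, tmom φ (rt p) D c (D.ball c (2 * p)) (rep M c)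
            (Function.update S c (Pi.single (i.1 l) 1, c₀)) p u ≤
          ∑ u, tmom φ (rt p) D c (D.ball c (2 * p)) (rep M c) S p u + ε := by
  let S' : Opt r → Fin (r * (r + 1)) → St A r := fun T l χ =>
    if ev χ K = 1 then (Pi.single (T.1 l) 1, c₀) else S χ
  have hS' : ∀ T l, MKS.Op.IsState A e (S' T l) := fun T l =>
    isState_ite hK hS ⟨⟨fun i => by by_cases hi : i = T.1 l <;> simp [hi], by simp⟩, hc₀.1, hc₀.2⟩
  choose g' hgA _ _ hgval using fun T l => tchange_on_cell hM he hφ hD hRP hTr hHom hp hr hK hKs hS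
    (hS' T l) fun χ hχ => if_neg hχ
  have hdiff : ∀ T l (c : Pt A), ev c K = 1 → (ev c (g' T l)).re =
      ∑ u, tmom φ (rt p) D c (D.ball c (2 * p)) (rep M c)
          (Function.update S c (Pi.single (T.1 l) 1, c₀)) p u -
        ∑ u, tmom φ (rt p) D c (D.ball c (2 * p)) (rep M c) S p u := by
    intro T l c hc
    rw [hgval T l c hc]
    have heq : ∀ u : D.ball c (2 * p),
        S' T l u = Function.update S c (Pi.single (T.1 l) 1, c₀) u := fun u => by
      by_cases huc : (u : Pt A) = c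
      · simp only [S', huc, hc, if_true, Function.update_self]
      · rw [Function.update_of_ne huc]
        exact if_neg fun hu => huc
          (hKs c u hc hu (reaches_mono hM he D (by omega) ((mem_ball D).1 u.2)))
    simp only [fun u => tmom_congr_fun (φ := φ) (f := rt p) (D := D) (χ := c) (R := rep M c)
      (p := p) heq u]
  let y : Opt r → Fin (r * (r + 1)) → (H →L[ℂ] H) := fun T l =>
    (1 / 2 : ℂ) • (g' T l + star (g' T l))
  have hy : ∀ T l, y T l ∈ A := fun T l =>
    csmul_mem _ (add_mem (hgA T l) (star_mem (hgA T l)))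
  have hyval : ∀ T l (c : Pt A), (ev c (y T l)).re = (ev c (g' T l)).re := fun T l c => by
    rw [ev_smul c _ (add_mem (hgA T l) (star_mem (hgA T l))),
      ev_add c (hgA T l) (star_mem (hgA T l)), ev_star c (hgA T l)]
    simp
    ring
  let G : Opt r → (H →L[ℂ] H) := fun T => ∑ l, cfc (fun x : ℝ => max (x - 0) 0) (y T l)
  have hG : ∀ T, G T ∈ A := fun T => sum_mem fun l _ => cfc_mem (hy T l) _
  have hGval : ∀ T (c : Pt A), (ev c (G T)).re = ∑ l, max ((ev c (g' T l)).re - 0) 0 := by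
    intro T c
    rw [ev_sum c _ _ fun l _ => cfc_mem (hy T l) _, Complex.re_sum]
    refine Finset.sum_congr rfl fun l _ => ?_
    have hys : IsSelfAdjoint (y T l) := by simp [y, IsSelfAdjoint, star_smul, add_comm]
    rw [← hyval, ev_cfc_excess (hy T l) hys]
  have hce : ∀ c : Pt A, ev c K = 1 → ev c e = 1 := fun c hc => by
    have := congrArg (ev c) hKe
    rwa [ev_mul c hK.1 he.1, hc, one_mul] at this
  obtain ⟨pick, hpn, hps, hprep⟩ := exists_selection (e := e) hM hG hK (θ := ε) fun c hc => by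
    obtain ⟨T, hT⟩ := step_scale hM he hr hsa hE hE0 hc₀ hScale hp8 hpe
      (frame_ball hM he D c (2 * p)) hS.1
      ⟨c, (mem_ball D).2 (reaches_self hM he D (hce c hc) _)⟩ (hu0 c hc)
    refine ⟨T, ?_⟩
    rw [hGval]
    refine lt_of_le_of_lt (le_of_eq (Finset.sum_eq_zero fun l _ => max_eq_right ?_)) hε
    rw [hdiff T l c hc]
    linarith [hT l]
  have hind : ∀ i : Opt r, ∃ a ∈ A, ∀ c : Pt A, ev c e = 1 →
      (pick c).elim 0 (fun j => if j = i then (1 : ℂ) else 0) = ev c a := fun i => by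
    exact hprep (fun j => if j = i then 1 else 0) (fun _ => 0) (rep_const 0)
  choose a₀ ha₀ ha₀' using hind
  have hval : ∀ (i : Opt r) (c : Pt A), ev c (a₀ i * K) =
      if ev c K = 1 then (pick c).elim 0 (fun j => if j = i then (1 : ℂ) else 0) else 0 := by
    intro i c
    rw [ev_mul c (ha₀ i) hK.1]
    split_ifs with hc
    · rw [hc, mul_one, ha₀' i c (hce c hc)]
    · rw [(ev_proj c hK).resolve_right hc, mul_zero]
  refine ⟨fun i => a₀ i * K, fun i => ⟨mul_mem (ha₀ i) hK.1, ?_⟩,
    fun c hc i => by rw [hval, if_neg hc], fun c hc => ?_⟩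
  · rw [mul_assoc e, mul_assoc (a₀ i), hKe, ← mul_assoc, hM.2.1 e he.1 _ (ha₀ i), mul_assoc,
      hM.2.1 e he.1 K hK.1, hKe]
  · obtain ⟨i, hi, hle⟩ := hps c hc
    refine ⟨i, fun j => ?_, fun l => ?_⟩
    · rw [hval, if_pos hc, hi, Option.elim_some]
      simp [eq_comm]
    · rw [hGval] at hle
      have h := (Finset.single_le_sum (fun l _ => le_max_right ((ev c (g' i l)).re - 0) 0)
        (Finset.mem_univ l)).trans hle
      have h2 := le_max_left ((ev c (g' i l)).re - 0) 0
      rw [hdiff i l c hc] at h h2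
      linarith

end Vale.Agent.P078.Twist
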